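import Vale.Agent.P246.T.Spec2

/-! # P246, block A1, part (1): the singular chains are a free module over the group ring -/

namespace Vale.Agent.P246.T.A1f

open Topology Set

section

variable (G E : Type) [Group G] [TopologicalSpace E] [MulAction G E] [ContinuousConstSMul G E]
  (n : ℕ)

/-- the orbit relation on the simplices -/
def rel : Setoid C(Dl (n + 1), E) where
  r σ τ := ∃ g : G, (gm g).comp σ = τ
  iseqv :=
    { refl := fun σ => ⟨1, by rw [gm_one, ContinuousMap.id_comp]⟩
      symm := by
        rintro σ τ ⟨g, rfl⟩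
        exact ⟨g⁻¹, by rw [← ContinuousMap.comp_assoc, ← gm_mul, inv_mul_cancel, gm_one,
          ContinuousMap.id_comp]⟩
      trans := by
        rintro σ τ υ ⟨g, rfl⟩ ⟨h, rfl⟩
        exact ⟨h * g, by rw [gm_mul, ContinuousMap.comp_assoc]⟩ }

/-- the orbits -/
abbrev Orb : Type := Quotient (rel G E n)

/-- the candidate for the isomorphism -/
noncomputable def Phi : (Orb G E n →₀ ZG G) →ₗ[ZG G] SC G n E :=
  Finsupp.linearCombination (ZG G) fun q : Orb G E n => SC.mk G (Finsupp.single q.out 1)

end

section

variable {G E : Type} [Group G] [TopologicalSpace E] [MulAction G E] [ContinuousConstSMul G E]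
  {n : ℕ}

theorem smul_single (r : ZG G) (σ : C(Dl (n + 1), E)) :
    (r • SC.mk G (Finsupp.single σ 1)).un =
      r.coeff.sum fun g a => Finsupp.single ((gm g).comp σ) a := by
  rw [SC.un_smul, SC.un_mk]
  refine Finsupp.sum_congr fun g _ => ?_
  rw [push_single, Finsupp.smul_single, smul_eq_mul, mul_one]

theorem comp_inj (hfree : ∀ (g : G) (e : E), g • e = e → g = 1) {g h : G}
    {σ : C(Dl (n + 1), E)} (H : (gm g).comp σ = (gm h).comp σ) : g = h := by
  have x : Dl (n + 1) := Classical.arbitrary _
  have h1 : g • σ x = h • σ x := DFunLike.congr_fun H x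
  have h2 : h⁻¹ * g = 1 := hfree _ (σ x) (by rw [mul_smul, h1, inv_smul_smul])
  exact (inv_mul_eq_one.1 h2).symm

theorem coeff_single (hfree : ∀ (g : G) (e : E), g • e = e → g = 1) (r : ZG G)
    (σ : C(Dl (n + 1), E)) (g0 : G) :
    (r • SC.mk G (Finsupp.single σ 1)).un ((gm g0).comp σ) = r.coeff g0 := by
  classical
  rw [smul_single, Finsupp.sum, Finsupp.finsetSum_apply]
  rw [Finset.sum_eq_single g0]
  · rw [Finsupp.single_eq_same]
  · intro g _ hg
    rw [Finsupp.single_eq_of_ne]
    exact fun H => hg (comp_inj hfree H).symm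
  · intro h
    rw [Finsupp.single_eq_same]
    exact Finsupp.notMem_support_iff.1 h

theorem coeff_single_ne (r : ZG G) (σ τ : C(Dl (n + 1), E))
    (h : ∀ g : G, (gm g).comp σ ≠ τ) :
    (r • SC.mk G (Finsupp.single σ 1)).un τ = 0 := by
  classical
  rw [smul_single, Finsupp.sum, Finsupp.finsetSum_apply]
  exact Finset.sum_eq_zero fun g _ => Finsupp.single_eq_of_ne (h g).symm

theorem Phi_coeff (hfree : ∀ (g : G) (e : E), g • e = e → g = 1) (v : Orb G E n →₀ ZG G)
    (q0 : Orb G E n) (g0 : G) :
    (Phi G E n v).un ((gm g0).comp q0.out) = (v q0).coeff g0 := by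
  classical
  induction v using Finsupp.induction_linear with
  | zero => rw [map_zero]; rfl
  | add a b ha hb =>
    rw [map_add, SC.un_add, Finsupp.add_apply, ha, hb, Finsupp.add_apply]
    rfl
  | single q r =>
    rw [Phi, Finsupp.linearCombination_single]
    by_cases h : q = q0
    · subst h
      rw [coeff_single hfree, Finsupp.single_eq_same]
    · rw [coeff_single_ne, Finsupp.single_eq_of_ne (Ne.symm h)]
      · rfl
      · intro g hg
        refine h ?_
        rw [← Quotient.out_eq q, ← Quotient.out_eq q0]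
        refine Quotient.sound ⟨g0⁻¹ * g, ?_⟩
        rw [gm_mul, ContinuousMap.comp_assoc, hg, ← ContinuousMap.comp_assoc, ← gm_mul,
          inv_mul_cancel, gm_one, ContinuousMap.id_comp]

theorem Phi_inj (hfree : ∀ (g : G) (e : E), g • e = e → g = 1) :
    Function.Injective (Phi G E n) := by
  intro v w h
  refine Finsupp.ext fun q => ?_
  have : (v q).coeff = (w q).coeff := Finsupp.ext fun g => by
    rw [← Phi_coeff hfree, ← Phi_coeff hfree, h]
  exact MonoidAlgebra.ext this

theorem Phi_surj : Function.Surjective (Phi G E n) := by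
  intro c
  change c ∈ Set.range (Phi G E n)
  rw [← LinearMap.coe_range, SetLike.mem_coe]
  have key : ∀ c : Ch n E, SC.mk G c ∈ LinearMap.range (Phi G E n) := by
    intro c
    induction c using Finsupp.induction_linear with
    | zero => exact Submodule.zero_mem _
    | add a b ha hb => exact Submodule.add_mem _ ha hb
    | single σ a =>
      obtain ⟨g, hg⟩ : ∃ g : G, (gm g).comp (Quotient.mk (rel G E n) σ).out = σ :=
        Quotient.mk_out (s := rel G E n) σ
      refine ⟨Finsupp.single (Quotient.mk (rel G E n) σ) (a • elt g), ?_⟩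
      rw [Phi, Finsupp.linearCombination_single]
      apply SC.un_inj
      rw [smul_assoc]
      have h : (a • elt g • SC.mk G (Finsupp.single (Quotient.mk (rel G E n) σ).out 1)).un =
          a • (elt g • SC.mk G (Finsupp.single (Quotient.mk (rel G E n) σ).out 1)).un := rfl
      rw [h, SC.un_elt_smul, SC.un_mk, SC.un_mk, push_single, hg, Finsupp.smul_single,
        smul_eq_mul, mul_one]
  exact key c.un

end

theorem free {G X E : Type} [Group G] [TopologicalSpace X] [TopologicalSpace E] [MulAction G E]
    [ContinuousConstSMul G E] {p : C(E, X)} (hp : IsQuotientCoveringMap p G) (n : ℕ) :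
    Module.Free (ZG G) (SC G n E) := by
  have hfree : ∀ (g : G) (e : E), g • e = e → g = 1 := by
    intro g e h
    obtain ⟨U, hU, H⟩ := hp.disjoint e
    exact H g ⟨e, ⟨e, mem_of_mem_nhds hU, h⟩, mem_of_mem_nhds hU⟩
  exact Module.Free.of_equiv (LinearEquiv.ofBijective (Phi G E n) ⟨Phi_inj hfree, Phi_surj⟩)

end Vale.Agent.P246.T.A1f
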