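import Vale.Agent.P246.T.PR2

/-! # P246, topological version, block A1, part 2: homology in degrees 0 and 1 -/

namespace Vale.Agent.P246.T.A1h

open Topology Metric Set

section

variable {M : Type} [TopologicalSpace M]

/-- the boundaries in degree one -/
noncomputable def R (M : Type) [TopologicalSpace M] : Submodule ℤ (Ch 1 M) :=
  LinearMap.range (bd (M := M) 1)

theorem ksx_mem (z : M) : ksx 1 z ∈ R M := by
  refine ⟨ksx 2 z, ?_⟩
  rw [PR.bd_ksx]
  simp

theorem const_mem (K : Hm 1 M) (z : M) (hK : ∀ t x, K (t, x) = z) : PR.pc 1 K ∈ R M := by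
  have h : K = (ContinuousMap.const (I × Dl 1) z).comp (ContinuousMap.id _) := by
    apply ContinuousMap.ext
    rintro ⟨t, x⟩
    exact hK t x
  rw [h, ← PR.push_pc, PR.push_const]
  exact Submodule.smul_mem _ _ (ksx_mem z)

theorem htp_mem (K : Hm 2 M) (z : Fin 2 → M) (hK : ∀ i t x, K (t, face 1 i x) = z i) :
    Finsupp.single (K.at 1) 1 - Finsupp.single (K.at 0) 1 ∈ R M := by
  have h := PR.bd_pc 1 K
  have h1 : ∑ i : Fin 2, (-1 : ℤ) ^ (i : ℕ) • PR.pc 1 (K.fc i) ∈ R M :=
    sum_mem fun i _ => Submodule.smul_mem _ _ (const_mem _ (z i) fun t x => hK i t x)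
  have h2 : bd 1 (PR.pc 2 K) ∈ R M := ⟨_, rfl⟩
  have := add_mem h2 h1
  rw [h, sub_add_cancel] at this
  exact this

/-- the chain of a path -/
noncomputable def ps {x y : M} (γ : Path x y) : Ch 1 M := Finsupp.single (PR.pathSimplex γ) 1

theorem ps_apply {x y : M} (γ : Path x y) (u : Dl 2) (t : I) (h : (t : ℝ) = u 1) :
    PR.pathSimplex γ u = γ t := by
  change γ _ = γ t
  congr 1
  exact Subtype.ext h.symm

theorem face_one (i : Fin 2) (x : Dl 1) : (face 1 i x) 1 = if i = 0 then 1 else 0 := by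
  have hu : x 0 = 1 := by
    have := x.2.2
    rwa [Fin.sum_univ_one] at this
  change (stdSimplex.map (S := ℝ) (Fin.succAbove i) x) 1 = _
  rw [stdSimplex.map_coe, FunOnFinite.linearMap_apply_apply]
  fin_cases i
  · have : (Finset.univ.filter fun i : Fin 1 => (0 : Fin 2).succAbove i = 1) = {0} := by decide
    simp only [Fin.zero_eta, ↓reduceIte]
    rw [this, Finset.sum_singleton]
    exact hu
  · have : (Finset.univ.filter fun i : Fin 1 => (1 : Fin 2).succAbove i = 1) = ∅ := by decide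
    simp only [Fin.mk_one, one_ne_zero, ↓reduceIte]
    rw [this, Finset.sum_empty]

theorem homotopic_mem {x y : M} {γ γ' : Path x y} (h : γ.Homotopic γ') : ps γ' - ps γ ∈ R M := by
  obtain ⟨H⟩ := h
  let c1 : C(Dl 2, I) := ⟨fun u => ⟨u 1, u.2.1 1, stdSimplex.le_one u 1⟩,
    ((continuous_apply (1 : Fin 2)).comp continuous_subtype_val).subtype_mk _⟩
  let K : Hm 2 M := ⟨fun q => H (q.1, c1 q.2), by fun_prop⟩
  have h0 : K.at 0 = PR.pathSimplex γ := by
    apply ContinuousMap.ext
    intro u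
    change H (0, c1 u) = _
    rw [H.apply_zero]
    exact (ps_apply γ u (c1 u) rfl).symm
  have h1 : K.at 1 = PR.pathSimplex γ' := by
    apply ContinuousMap.ext
    intro u
    change H (1, c1 u) = _
    rw [H.apply_one]
    exact (ps_apply γ' u (c1 u) rfl).symm
  have := htp_mem K (fun i => if i = 0 then y else x) (by
    intro i t u
    change H (t, c1 (face 1 i u)) = _
    have hc : c1 (face 1 i u) = if i = 0 then 1 else 0 := by
      apply Subtype.ext
      change (face 1 i u) 1 = _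
      rw [face_one]
      split_ifs <;> rfl
    rw [hc]
    split_ifs
    · exact H.target t
    · exact H.source t)
  rw [h0, h1] at this
  exact this

theorem trans_mem {x y z : M} (γ : Path x y) (δ : Path y z) :
    ps γ + ps δ - ps (γ.trans δ) ∈ R M := by
  have hle : ∀ u : Dl 3, u 2 + u 1 / 2 ≤ 1 := by
    intro u
    have h := u.2.2
    rw [Fin.sum_univ_three] at h
    have h0 := u.2.1 0
    have h1 := u.2.1 1
    change u.1 2 + u.1 1 / 2 ≤ 1
    linarith
  have hge : ∀ u : Dl 3, 0 ≤ u 2 + u 1 / 2 := by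
    intro u
    have h2 := u.2.1 2
    have h1 := u.2.1 1
    change 0 ≤ u.1 2 + u.1 1 / 2
    linarith
  let τ : C(Dl 3, M) := ⟨fun u => (γ.trans δ) ⟨u 2 + u 1 / 2, hge u, hle u⟩,
    (γ.trans δ).continuous.comp (Continuous.subtype_mk
      (((continuous_apply (2 : Fin 3)).comp continuous_subtype_val).add
        (((continuous_apply (1 : Fin 3)).comp continuous_subtype_val).div_const 2)) _)⟩
  refine ⟨Finsupp.single τ 1, ?_⟩
  have hv : ∀ (i : Fin 3) (u : Dl 2) (a : Fin 3), (face 2 i u) a =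
      ∑ j ∈ Finset.univ.filter (fun j : Fin 2 => i.succAbove j = a), u j := by
    intro i u a
    change (stdSimplex.map (S := ℝ) (Fin.succAbove i) u) a = _
    rw [stdSimplex.map_coe, FunOnFinite.linearMap_apply_apply]
  have hs : ∀ u : Dl 2, u 0 = 1 - u 1 := by
    intro u
    have h := u.2.2
    rw [Fin.sum_univ_two] at h
    change u.1 0 = 1 - u.1 1
    linarith
  have hu0 : ∀ u : Dl 2, 0 ≤ u 1 := fun u => u.2.1 1
  have hu1 : ∀ u : Dl 2, u 1 ≤ 1 := fun u => stdSimplex.le_one u 1
  have f0 : τ.comp (face 2 0) = PR.pathSimplex δ := by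
    apply ContinuousMap.ext
    intro u
    have e1 : (face 2 0 u) 1 = u 0 := by
      rw [hv, show (Finset.univ.filter (fun j : Fin 2 => (0 : Fin 3).succAbove j = 1)) = {0} by
        decide, Finset.sum_singleton]
    have e2 : (face 2 0 u) 2 = u 1 := by
      rw [hv, show (Finset.univ.filter (fun j : Fin 2 => (0 : Fin 3).succAbove j = 2)) = {1} by
        decide, Finset.sum_singleton]
    rw [ps_apply δ u ⟨u 1, hu0 u, hu1 u⟩ rfl]
    change (γ.trans δ) ⟨(face 2 0 u) 2 + (face 2 0 u) 1 / 2, _⟩ = _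
    have e3 : (⟨(face 2 0 u) 2 + (face 2 0 u) 1 / 2, hge _, hle _⟩ : I) =
        ⟨(1 + u 1) / 2, by linarith [hu0 u], by linarith [hu1 u]⟩ := by
      apply Subtype.ext
      change (face 2 0 u) 2 + (face 2 0 u) 1 / 2 = (1 + u 1) / 2
      rw [e1, e2, hs]; ring
    rw [e3, Path.trans_apply]
    split_ifs with h
    · have h' : (1 + u 1) / 2 ≤ 1 / 2 := h
      have h3 : u 1 = 0 := le_antisymm (by linarith) (hu0 u)
      have e4 : (⟨2 * ((1 + u 1) / 2), (unitInterval.mul_pos_mem_iff zero_lt_two).2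
          ⟨by linarith [hu0 u], h'⟩⟩ : I) = 1 := by
        apply Subtype.ext
        change 2 * ((1 + u 1) / 2) = 1
        rw [h3]; norm_num
      have e5 : (⟨u 1, hu0 u, hu1 u⟩ : I) = 0 := Subtype.ext h3
      rw [e5, δ.source]
      exact (congrArg γ e4).trans γ.target
    · congr 1
      apply Subtype.ext
      change 2 * ((1 + u 1) / 2) - 1 = u 1
      ring
  have f1 : τ.comp (face 2 1) = PR.pathSimplex (γ.trans δ) := by
    apply ContinuousMap.ext
    intro u
    have e1 : (face 2 1 u) 1 = 0 := by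
      rw [hv, show (Finset.univ.filter (fun j : Fin 2 => (1 : Fin 3).succAbove j = 1)) = ∅ by
        decide, Finset.sum_empty]
    have e2 : (face 2 1 u) 2 = u 1 := by
      rw [hv, show (Finset.univ.filter (fun j : Fin 2 => (1 : Fin 3).succAbove j = 2)) = {1} by
        decide, Finset.sum_singleton]
    symm
    apply ps_apply
    change (face 2 1 u) 2 + (face 2 1 u) 1 / 2 = u 1
    rw [e1, e2]; ring
  have f2 : τ.comp (face 2 2) = PR.pathSimplex γ := by
    apply ContinuousMap.ext
    intro u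
    have e1 : (face 2 2 u) 1 = u 1 := by
      rw [hv, show (Finset.univ.filter (fun j : Fin 2 => (2 : Fin 3).succAbove j = 1)) = {1} by
        decide, Finset.sum_singleton]
    have e2 : (face 2 2 u) 2 = 0 := by
      rw [hv, show (Finset.univ.filter (fun j : Fin 2 => (2 : Fin 3).succAbove j = 2)) = ∅ by
        decide, Finset.sum_empty]
    rw [ps_apply γ u ⟨u 1, hu0 u, hu1 u⟩ rfl]
    change (γ.trans δ) ⟨(face 2 2 u) 2 + (face 2 2 u) 1 / 2, _⟩ = _
    have e3 : (⟨(face 2 2 u) 2 + (face 2 2 u) 1 / 2, hge _, hle _⟩ : I) =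
        ⟨u 1 / 2, by linarith [hu0 u], by linarith [hu1 u]⟩ := by
      apply Subtype.ext
      change (face 2 2 u) 2 + (face 2 2 u) 1 / 2 = u 1 / 2
      rw [e1, e2]; ring
    rw [e3, Path.trans_apply]
    have h : ((⟨u 1 / 2, by linarith [hu0 u], by linarith [hu1 u]⟩ : I) : ℝ) ≤ 1 / 2 := by
      change u 1 / 2 ≤ 1 / 2
      linarith [hu1 u]
    rw [dif_pos h]
    congr 1
    apply Subtype.ext
    change 2 * (u 1 / 2) = u 1
    ring
  rw [SD.bds, Fin.sum_univ_three, f0, f1, f2]
  simp only [ps, Fin.val_zero, pow_zero, one_smul, Fin.val_one, pow_one, neg_smul, Fin.val_two,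
    neg_one_sq]
  abel

theorem exists_path (σ : C(Dl 2, M)) : ∃ (x y : M) (γ : Path x y), σ = PR.pathSimplex γ := by
  let h := stdSimplexHomeomorphUnitInterval
  refine ⟨σ (h.symm 0), σ (h.symm 1), ⟨⟨fun t => σ (h.symm t), by fun_prop⟩, rfl, rfl⟩, ?_⟩
  apply ContinuousMap.ext
  intro u
  have : PR.pathSimplex (⟨⟨fun t => σ (h.symm t), by fun_prop⟩, rfl, rfl⟩ :
      Path (σ (h.symm 0)) (σ (h.symm 1))) u = σ (h.symm (h u)) := ps_apply _ u (h u) rfl
  rw [this, Homeomorph.symm_apply_apply]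

end

theorem aug_iff {E : Type} [TopologicalSpace E] [PathConnectedSpace E] (c : Ch 0 E) :
    (c.sum fun _ a => a) = 0 ↔ ∃ b : Ch 1 E, bd 0 b = c := by
  have h : (c.sum fun _ a => a) = PR.wt 0 c := by
    rw [PR.wt, Finsupp.linearCombination_apply]
    simp
  rw [h]
  constructor
  · exact PR.exists_bd_zero c
  · rintro ⟨b, rfl⟩
    exact PR.wt_bd_zero b

theorem h_one {E : Type} [TopologicalSpace E] [SimplyConnectedSpace E] (c : Ch 1 E)
    (h : bd 0 c = 0) : ∃ b : Ch 2 E, bd 1 b = c := by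
  obtain ⟨e⟩ : Nonempty E := inferInstance
  have hγ : ∀ x : E, Nonempty (Path e x) := fun x => PathConnectedSpace.joined e x
  let γ : ∀ x : E, Path e x := fun x => (hγ x).some
  let K0 : Ch 0 E →ₗ[ℤ] Ch 1 E := Finsupp.linearCombination ℤ fun σ : C(Dl 1, E) =>
    ps (γ (σ (stdSimplex.vertex 0)))
  have hK0 : ∀ x : E, K0 (ksx 0 x) = ps (γ x) := by
    intro x
    change Finsupp.linearCombination ℤ _ (Finsupp.single _ 1) = _
    rw [Finsupp.linearCombination_single, one_smul]
    rfl
  have key : (R E).mkQ.comp (LinearMap.id - K0.comp (bd 0)) = 0 := by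
    apply SD.lin_ext
    intro σ
    obtain ⟨x, y, δ, rfl⟩ := exists_path σ
    rw [LinearMap.comp_apply, LinearMap.zero_apply, Submodule.mkQ_apply,
      Submodule.Quotient.mk_eq_zero, LinearMap.sub_apply, LinearMap.id_apply,
      LinearMap.comp_apply, PR.bd_pathSimplex, map_sub, hK0, hK0]
    have h1 := trans_mem (γ x) δ
    have h2 := homotopic_mem (SimplyConnectedSpace.paths_homotopic (γ y) ((γ x).trans δ))
    have h3 := add_mem h1 h2
    convert h3 using 1
    simp only [ps]
    abel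
  have h4 := LinearMap.congr_fun key c
  rw [LinearMap.comp_apply, LinearMap.zero_apply, Submodule.mkQ_apply,
    Submodule.Quotient.mk_eq_zero, LinearMap.sub_apply, LinearMap.id_apply,
    LinearMap.comp_apply, h, map_zero, sub_zero] at h4
  exact h4

end Vale.Agent.P246.T.A1h
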