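import Vale.Agent.P246.T.Spec
import Mathlib.Data.Fin.Parity

/-!
# Barycentric subdivision
-/

set_option linter.all false

namespace Vale.Agent.P246.T.SD

open Topology Set

variable {n m k N M : ℕ}

/-- the affine simplex with given vertices -/
noncomputable def aff (v : Fin (n + 1) → Dl (N + 1)) : C(Dl (n + 1), Dl (N + 1)) where
  toFun x := ⟨fun a => ∑ i, x i * v i a, fun a => Finset.sum_nonneg fun i _ =>
    mul_nonneg (stdSimplex.zero_le x i) (stdSimplex.zero_le (v i) a), by
      rw [Finset.sum_comm]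
      simp only [← Finset.mul_sum, stdSimplex.sum_eq_one, mul_one]⟩
  continuous_toFun := by
    refine Continuous.subtype_mk ?_ _
    refine continuous_pi fun a => continuous_finsetSum _ fun i _ => ?_
    exact ((continuous_apply i).comp continuous_subtype_val).mul continuous_const

theorem aff_apply (v : Fin (n + 1) → Dl (N + 1)) (x : Dl (n + 1)) (a : Fin (N + 1)) :
    aff v x a = ∑ i, x i * v i a := rfl

/-- the vertices -/
noncomputable def vt (n : ℕ) : Fin (n + 1) → Dl (n + 1) := fun i => stdSimplex.vertex i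

theorem aff_vt (x : Dl (n + 1)) : aff (vt n) x = x := by
  apply stdSimplex.ext
  funext a
  rw [aff_apply]
  simp [vt, Pi.single_apply]

theorem aff_at (v : Fin (n + 1) → Dl (N + 1)) (i : Fin (n + 1)) : aff v (vt n i) = v i := by
  apply stdSimplex.ext
  funext a
  rw [aff_apply]
  simp [vt, Pi.single_apply]

theorem aff_aff (v : Fin (n + 1) → Dl (N + 1)) (w : Fin (k + 1) → Dl (n + 1)) (x : Dl (k + 1)) :
    aff v (aff w x) = aff (fun i => aff v (w i)) x := by
  apply stdSimplex.ext
  funext a
  simp only [aff_apply, Finset.sum_mul, Finset.mul_sum]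
  rw [Finset.sum_comm]
  refine Finset.sum_congr rfl fun i _ => Finset.sum_congr rfl fun j _ => ?_
  ring

theorem face_aff (i : Fin (n + 2)) (x : Dl (n + 1)) :
    face (n + 1) i x = aff (fun j => vt (n + 1) (i.succAbove j)) x := by
  apply stdSimplex.ext
  funext a
  change stdSimplex.map (S := ℝ) i.succAbove x a = _
  rw [stdSimplex.map_coe, FunOnFinite.linearMap_apply_apply, aff_apply]
  simp only [vt, stdSimplex.vertex_coe, Pi.single_apply, mul_ite, mul_one, mul_zero]
  rw [Finset.sum_filter]
  refine Finset.sum_congr rfl fun j _ => ?_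
  simp only [eq_comm]

/-- linear chains -/
abbrev L (n N : ℕ) : Type := (Fin (n + 1) → Dl (N + 1)) →₀ ℤ

/-- the realization -/
noncomputable def real (n N : ℕ) : L n N →ₗ[ℤ] Ch n (Dl (N + 1)) :=
  Finsupp.lmapDomain ℤ ℤ fun v => aff v

theorem real_single (v : Fin (n + 1) → Dl (N + 1)) (z : ℤ) :
    real n N (Finsupp.single v z) = Finsupp.single (aff v) z := by
  rw [real, Finsupp.lmapDomain_apply, Finsupp.mapDomain_single]

theorem bds {X : Type} [TopologicalSpace X] (n : ℕ) (σ : C(Dl (n + 2), X)) :
    bd n (Finsupp.single σ 1) =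
      ∑ i : Fin (n + 2), (-1 : ℤ) ^ (i : ℕ) • Finsupp.single (σ.comp (face (n + 1) i)) (1 : ℤ) := by
  rw [T.bd_single]
  refine Finset.sum_congr rfl fun i _ => ?_
  rw [Finsupp.smul_single, smul_eq_mul, mul_one, one_mul]

theorem alt_alt {A : Type*} [AddCommGroup A] (n : ℕ) (a : Fin (n + 2) → Fin (n + 1) → A)
    (h : ∀ i j, a (i.succAbove j) (j.predAbove i) = a i j) :
    ∑ i : Fin (n + 2), (-1 : ℤ) ^ (i : ℕ) • ∑ j : Fin (n + 1), (-1 : ℤ) ^ (j : ℕ) • a i j = 0 := by
  have h1 : ∑ i : Fin (n + 2), (-1 : ℤ) ^ (i : ℕ) • ∑ j : Fin (n + 1),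
      (-1 : ℤ) ^ (j : ℕ) • a i j =
      ∑ p : Fin (n + 2) × Fin (n + 1), (-1 : ℤ) ^ ((p.1 : ℕ) + p.2) • a p.1 p.2 := by
    rw [Fintype.sum_prod_type]
    refine Finset.sum_congr rfl fun i _ => ?_
    rw [Finset.smul_sum]
    refine Finset.sum_congr rfl fun j _ => ?_
    rw [pow_add, mul_smul]
  rw [h1]
  refine Finset.sum_involution (fun p _ => (p.1.succAbove p.2, p.2.predAbove p.1)) ?_ ?_ ?_ ?_
  · rintro ⟨i, j⟩ _
    change (-1 : ℤ) ^ ((i : ℕ) + j) • a i j +
      (-1 : ℤ) ^ ((i.succAbove j : ℕ) + (j.predAbove i : ℕ)) • a (i.succAbove j) (j.predAbove i) = 0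
    rw [Fin.neg_one_pow_succAbove_add_predAbove, h, neg_smul, add_neg_cancel]
  · rintro ⟨i, j⟩ _ _ he
    exact Fin.succAbove_ne i j (congrArg Prod.fst he)
  · intro p _; exact Finset.mem_univ _
  · rintro ⟨i, j⟩ _
    exact Prod.ext (Fin.succAbove_succAbove_predAbove i j) (Fin.predAbove_predAbove_succAbove i j)

/-- linear extension is determined on the simplices -/
theorem lin_ext {α A : Type} [AddCommGroup A] {f g : (α →₀ ℤ) →ₗ[ℤ] A}
    (h : ∀ a, f (Finsupp.single a 1) = g (Finsupp.single a 1)) : f = g := by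
  apply Finsupp.lhom_ext'
  intro a
  apply LinearMap.ext_ring
  exact h a

/-- the boundary of linear chains -/
noncomputable def dT (n N : ℕ) : L (n + 1) N →ₗ[ℤ] L n N :=
  Finsupp.linearCombination ℤ fun v =>
    ∑ i : Fin (n + 2), (-1 : ℤ) ^ (i : ℕ) • Finsupp.single (fun j => v (i.succAbove j)) (1 : ℤ)

theorem dT_single (v : Fin (n + 2) → Dl (N + 1)) : dT n N (Finsupp.single v 1) =
    ∑ i : Fin (n + 2), (-1 : ℤ) ^ (i : ℕ) • Finsupp.single (fun j => v (i.succAbove j)) (1 : ℤ) := by
  rw [dT, Finsupp.linearCombination_single, one_smul]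

/-- the cone -/
noncomputable def cone (n N : ℕ) (b : Dl (N + 1)) : L n N →ₗ[ℤ] L (n + 1) N :=
  Finsupp.lmapDomain ℤ ℤ fun v => Fin.cons (α := fun _ => Dl (N + 1)) b v

theorem cone_single (b : Dl (N + 1)) (v : Fin (n + 1) → Dl (N + 1)) (z : ℤ) :
    cone n N b (Finsupp.single v z) = Finsupp.single (Fin.cons (α := fun _ => Dl (N + 1)) b v) z := by
  rw [cone, Finsupp.lmapDomain_apply, Finsupp.mapDomain_single]

theorem d_cone (b : Dl (N + 1)) (c : L (n + 1) N) :
    dT (n + 1) N (cone (n + 1) N b c) = c - cone n N b (dT n N c) := by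
  have : (dT (n + 1) N).comp (cone (n + 1) N b) =
      LinearMap.id - (cone n N b).comp (dT n N) := by
    apply lin_ext
    intro v
    rw [LinearMap.comp_apply, cone_single, dT_single, LinearMap.sub_apply, LinearMap.comp_apply,
      dT_single, map_sum, Fin.sum_univ_succ]
    simp only [LinearMap.id_apply, Fin.val_zero, pow_zero, one_smul]
    rw [sub_eq_add_neg, ← Finset.sum_neg_distrib]
    refine congrArg₂ _ ?_ (Finset.sum_congr rfl fun i _ => ?_)
    · congr 1
    · rw [map_smul, cone_single, Fin.val_succ, pow_succ, mul_neg, mul_one, neg_smul]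
      congr 3
      funext j
      refine Fin.cases ?_ (fun j => ?_) j
      · rw [Fin.succ_succAbove_zero]; rfl
      · rw [Fin.succ_succAbove_succ]; rfl
  exact LinearMap.congr_fun this c

/-- image of a linear chain -/
noncomputable def mapT (n : ℕ) (g : Dl (N + 1) → Dl (M + 1)) : L n N →ₗ[ℤ] L n M :=
  Finsupp.lmapDomain ℤ ℤ fun v => fun i => g (v i)

theorem mapT_single (g : Dl (N + 1) → Dl (M + 1)) (v : Fin (n + 1) → Dl (N + 1)) (z : ℤ) :
    mapT n g (Finsupp.single v z) = Finsupp.single (fun i => g (v i)) z := by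
  rw [mapT, Finsupp.lmapDomain_apply, Finsupp.mapDomain_single]

theorem dT_mapT (g : Dl (N + 1) → Dl (M + 1)) (c : L (n + 1) N) :
    dT n M (mapT (n + 1) g c) = mapT n g (dT n N c) := by
  have : (dT n M).comp (mapT (n + 1) g) = (mapT n g).comp (dT n N) := by
    apply lin_ext
    intro v
    rw [LinearMap.comp_apply, mapT_single, dT_single, LinearMap.comp_apply, dT_single, map_sum]
    refine Finset.sum_congr rfl fun i _ => ?_
    rw [map_smul, mapT_single]
  exact LinearMap.congr_fun this c

theorem cone_mapT (g : Dl (N + 1) → Dl (M + 1)) (b : Dl (N + 1)) (c : L n N) :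
    cone n M (g b) (mapT n g c) = mapT (n + 1) g (cone n N b c) := by
  have : (cone n M (g b)).comp (mapT n g) = (mapT (n + 1) g).comp (cone n N b) := by
    apply lin_ext
    intro v
    rw [LinearMap.comp_apply, mapT_single, cone_single, LinearMap.comp_apply, cone_single,
      mapT_single]
    congr 1
    funext j
    refine Fin.cases ?_ (fun j => ?_) j
    · rfl
    · rfl
  exact LinearMap.congr_fun this c

theorem bd_real (c : L (n + 1) N) : bd n (real (n + 1) N c) = real n N (dT n N c) := by
  have : (bd n).comp (real (n + 1) N) = (real n N).comp (dT n N) := by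
    apply lin_ext
    intro v
    rw [LinearMap.comp_apply, real_single, bds, LinearMap.comp_apply, dT_single, map_sum]
    refine Finset.sum_congr rfl fun i _ => ?_
    rw [map_smul, real_single]
    congr 2
    apply ContinuousMap.ext
    intro x
    rw [ContinuousMap.comp_apply, face_aff, aff_aff]
    simp only [aff_at]
  exact LinearMap.congr_fun this c

theorem push_real (u : Fin (N + 1) → Dl (M + 1)) (c : L n N) :
    push (aff u) n (real n N c) = real n M (mapT n (aff u) c) := by
  have : (push (aff u) n).comp (real n N) = (real n M).comp (mapT n (aff u)) := by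
    apply lin_ext
    intro v
    rw [LinearMap.comp_apply, real_single, push_single, LinearMap.comp_apply, mapT_single,
      real_single]
    congr 1
    apply ContinuousMap.ext
    intro x
    rw [ContinuousMap.comp_apply, aff_aff]
  exact LinearMap.congr_fun this c

/-- the barycentre of a tuple -/
noncomputable def bary (v : Fin (n + 1) → Dl (N + 1)) : Dl (N + 1) := aff v stdSimplex.barycenter

theorem bary_map (u : Fin (N + 1) → Dl (M + 1)) (v : Fin (n + 1) → Dl (N + 1)) :
    aff u (bary v) = bary fun i => aff u (v i) := by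
  rw [bary, aff_aff]
  rfl

/-- subdivision of linear chains -/
noncomputable def sdT : ∀ n N : ℕ, L n N →ₗ[ℤ] L n N
  | 0, _ => LinearMap.id
  | n + 1, N => Finsupp.linearCombination ℤ fun v =>
      cone n N (bary v) (sdT n N (dT n N (Finsupp.single v 1)))

/-- the homotopy on linear chains -/
noncomputable def TT : ∀ n N : ℕ, L n N →ₗ[ℤ] L (n + 1) N
  | 0, _ => 0
  | n + 1, N => Finsupp.linearCombination ℤ fun v =>
      cone (n + 1) N (bary v) (Finsupp.single v 1 - TT n N (dT n N (Finsupp.single v 1)))

theorem sdT_succ (v : Fin (n + 2) → Dl (N + 1)) : sdT (n + 1) N (Finsupp.single v 1) =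
    cone n N (bary v) (sdT n N (dT n N (Finsupp.single v 1))) := by
  rw [sdT, Finsupp.linearCombination_single, one_smul]

theorem TT_succ (v : Fin (n + 2) → Dl (N + 1)) : TT (n + 1) N (Finsupp.single v 1) =
    cone (n + 1) N (bary v) (Finsupp.single v 1 - TT n N (dT n N (Finsupp.single v 1))) := by
  rw [TT, Finsupp.linearCombination_single, one_smul]

theorem d_d (c : L (n + 2) N) : dT n N (dT (n + 1) N c) = 0 := by
  have : (dT n N).comp (dT (n + 1) N) = 0 := by
    apply lin_ext
    intro v
    rw [LinearMap.comp_apply, dT_single, map_sum, LinearMap.zero_apply]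
    simp only [map_smul, dT_single]
    apply alt_alt (n + 1) fun i j =>
      Finsupp.single (fun l => v (i.succAbove (j.succAbove l))) (1 : ℤ)
    intro i j
    congr 1
    funext l
    rw [Fin.succAbove_succAbove_succAbove_predAbove]
  exact LinearMap.congr_fun this c

theorem rel : ∀ n : ℕ, ∀ c : L (n + 1) N, dT (n + 1) N (TT (n + 1) N c) + TT n N (dT n N c) =
    c - sdT (n + 1) N c := by
  intro n
  induction n with
  | zero =>
    intro c
    have : (dT 1 N).comp (TT 1 N) + (TT 0 N).comp (dT 0 N) = LinearMap.id - sdT 1 N := by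
      apply lin_ext
      intro v
      rw [LinearMap.add_apply, LinearMap.comp_apply, LinearMap.comp_apply, TT_succ, d_cone,
        LinearMap.sub_apply, sdT_succ, sdT, TT]
      simp
    exact LinearMap.congr_fun this c
  | succ n ih =>
    intro c
    have : (dT (n + 2) N).comp (TT (n + 2) N) + (TT (n + 1) N).comp (dT (n + 1) N) =
        LinearMap.id - sdT (n + 2) N := by
      apply lin_ext
      intro v
      have h := ih (dT (n + 1) N (Finsupp.single v 1))
      rw [d_d, map_zero, add_zero] at h
      rw [LinearMap.add_apply, LinearMap.comp_apply, LinearMap.comp_apply, TT_succ, d_cone,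
        LinearMap.sub_apply, sdT_succ, map_sub, h, LinearMap.id_apply, sub_sub_cancel]
      abel
    exact LinearMap.congr_fun this c

theorem sdT_map : ∀ (n : ℕ) (u : Fin (N + 1) → Dl (M + 1)) (c : L n N),
    sdT n M (mapT n (aff u) c) = mapT n (aff u) (sdT n N c) := by
  intro n
  induction n with
  | zero => intro u c; rfl
  | succ n ih =>
    intro u c
    have : (sdT (n + 1) M).comp (mapT (n + 1) (aff u)) = (mapT (n + 1) (aff u)).comp
        (sdT (n + 1) N) := by
      apply lin_ext
      intro v
      rw [LinearMap.comp_apply, LinearMap.comp_apply, mapT_single, sdT_succ, sdT_succ,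
        ← bary_map, ← cone_mapT, ← ih, ← dT_mapT, mapT_single]
    exact LinearMap.congr_fun this c

theorem TT_map : ∀ (n : ℕ) (u : Fin (N + 1) → Dl (M + 1)) (c : L n N),
    TT n M (mapT n (aff u) c) = mapT (n + 1) (aff u) (TT n N c) := by
  intro n
  induction n with
  | zero => intro u c; rw [TT, TT]; simp
  | succ n ih =>
    intro u c
    have : (TT (n + 1) M).comp (mapT (n + 1) (aff u)) = (mapT (n + 2) (aff u)).comp
        (TT (n + 1) N) := by
      apply lin_ext
      intro v
      rw [LinearMap.comp_apply, LinearMap.comp_apply, mapT_single, TT_succ, TT_succ,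
        ← bary_map, ← cone_mapT, (mapT (n + 1) (aff u)).map_sub, ← ih, ← dT_mapT, mapT_single]
    exact LinearMap.congr_fun this c

/-! ### smallness -/

/-- all vertices are close to each other -/
def Sm (r : ℝ) (v : Fin (n + 1) → Dl (N + 1)) : Prop := ∀ i j a, |v i a - v j a| ≤ r

theorem supp_map {α A : Type} [AddCommGroup A] {S : Set α} {T : Submodule ℤ A}
    (F : (α →₀ ℤ) →ₗ[ℤ] A) (h : ∀ a ∈ S, F (Finsupp.single a 1) ∈ T) {c : α →₀ ℤ}
    (hc : c ∈ Finsupp.supported ℤ ℤ S) : F c ∈ T := by
  rw [← Finsupp.sum_single c, Finsupp.sum, map_sum]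
  apply sum_mem
  intro a ha
  have : Finsupp.single a (c a) = c a • Finsupp.single a (1 : ℤ) := by
    rw [Finsupp.smul_single, smul_eq_mul, mul_one]
  rw [this, map_smul]
  exact T.smul_mem _ (h a (hc ha))

theorem avg_le {r : ℝ} (x : Dl (n + 1)) (f : Fin (n + 1) → ℝ) (t : ℝ) (h : ∀ i, |f i - t| ≤ r) :
    |∑ i, x i * f i - t| ≤ r := by
  have e : ∑ i, x i * f i - t = ∑ i, x i * (f i - t) := by
    simp only [mul_sub, Finset.sum_sub_distrib, ← Finset.sum_mul, stdSimplex.sum_eq_one, one_mul]
  rw [e]
  calc |∑ i, x i * (f i - t)| ≤ ∑ i, |x i * (f i - t)| := Finset.abs_sum_le_sum_abs _ _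
    _ ≤ ∑ i, x i * r := Finset.sum_le_sum fun i _ => by
        rw [abs_mul, abs_of_nonneg (stdSimplex.zero_le x i)]
        exact mul_le_mul_of_nonneg_left (h i) (stdSimplex.zero_le x i)
    _ = r := by rw [← Finset.sum_mul, stdSimplex.sum_eq_one, one_mul]

theorem bary_le {r : ℝ} (v : Fin (n + 1) → Dl (N + 1)) (h : Sm r v) (j : Fin (n + 1))
    (a : Fin (N + 1)) : |v j a - bary v a| ≤ n / (n + 1) * r := by
  have e : v j a - bary v a = ∑ i : Fin (n + 1), ((n : ℝ) + 1)⁻¹ * (v j a - v i a) := by
    rw [bary, aff_apply]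
    simp only [mul_sub, Finset.sum_sub_distrib, Finset.sum_const, Finset.card_univ,
      Fintype.card_fin, nsmul_eq_mul, Nat.cast_add, Nat.cast_one]
    have hb : ∀ i : Fin (n + 1), (stdSimplex.barycenter : stdSimplex ℝ (Fin (n + 1))) i =
        ((n : ℝ) + 1)⁻¹ := by
      intro i
      change ((Fintype.card (Fin (n + 1)) : ℝ))⁻¹ = _
      rw [Fintype.card_fin]
      push_cast
      rfl
    simp only [hb]
    field_simp
  rw [e, Fin.sum_univ_succAbove _ j, sub_self, mul_zero, zero_add]
  calc |∑ i : Fin n, ((n : ℝ) + 1)⁻¹ * (v j a - v (j.succAbove i) a)|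
      ≤ ∑ i : Fin n, |((n : ℝ) + 1)⁻¹ * (v j a - v (j.succAbove i) a)| :=
        Finset.abs_sum_le_sum_abs _ _
    _ ≤ ∑ i : Fin n, ((n : ℝ) + 1)⁻¹ * r := Finset.sum_le_sum fun i _ => by
        rw [abs_mul, abs_of_nonneg (by positivity)]
        exact mul_le_mul_of_nonneg_left (h _ _ _) (by positivity)
    _ = n / (n + 1) * r := by
        rw [Finset.sum_const, Finset.card_univ, Fintype.card_fin, nsmul_eq_mul]
        ring

theorem sm_nonneg {r : ℝ} {v : Fin (n + 1) → Dl (N + 1)} (h : Sm r v) : 0 ≤ r := by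
  have := h 0 0 0
  rwa [sub_self, abs_zero] at this

theorem ratio_le (n : ℕ) : (n : ℝ) / (n + 1) ≤ ((n + 1 : ℕ) : ℝ) / ((n + 1 : ℕ) + 1) := by
  rw [div_le_div_iff₀ (by positivity) (by positivity)]
  push_cast
  nlinarith

theorem sd_small : ∀ (n : ℕ) (r : ℝ) (v : Fin (n + 1) → Dl (N + 1)), Sm r v →
    sdT n N (Finsupp.single v 1) ∈ Finsupp.supported ℤ ℤ
      {w : Fin (n + 1) → Dl (N + 1) | Sm (n / (n + 1) * r) w ∧ ∀ i, ∃ x, w i = aff v x} := by
  intro n
  induction n with
  | zero =>
    intro r v h
    rw [sdT, LinearMap.id_apply]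
    apply Finsupp.single_mem_supported
    constructor
    · intro i j a
      obtain rfl : i = j := Fin.ext (by omega)
      simp
    · intro i
      exact ⟨vt 0 i, (aff_at v i).symm⟩
  | succ n ih =>
    intro r v h
    rw [sdT_succ, dT_single, map_sum, map_sum]
    apply sum_mem
    intro i _
    rw [map_smul, map_smul]
    apply Submodule.smul_mem
    have h1 : Sm r fun j => v (i.succAbove j) := fun a b c => h _ _ _
    refine supp_map (cone n N (bary v)) ?_ (ih r _ h1)
    rintro w ⟨hw1, hw2⟩
    rw [cone_single]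
    apply Finsupp.single_mem_supported
    have hw3 : ∀ j, ∃ x, w j = aff v x := by
      intro j
      obtain ⟨x, hx⟩ := hw2 j
      refine ⟨face (n + 1) i x, ?_⟩
      rw [hx, face_aff, aff_aff]
      simp only [aff_at]
    have hr := sm_nonneg h
    have hA : ∀ j a, |w j a - bary v a| ≤ ((n + 1 : ℕ) : ℝ) / ((n + 1 : ℕ) + 1) * r := by
      intro j a
      obtain ⟨x, hx⟩ := hw3 j
      rw [hx, aff_apply]
      exact avg_le x _ _ fun i => bary_le v h i a
    constructor
    · intro p q a
      refine Fin.cases ?_ (fun p => ?_) p <;> refine Fin.cases ?_ (fun q => ?_) q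
      · rw [sub_self, abs_zero]; positivity
      · rw [abs_sub_comm]; exact hA q a
      · exact hA p a
      · exact (hw1 p q a).trans (mul_le_mul_of_nonneg_right (ratio_le n) hr)
    · intro p
      refine Fin.cases ?_ (fun p => ?_) p
      · exact ⟨_, rfl⟩
      · exact hw3 p

theorem sd_iter_small (n m : ℕ) : (sdT n n)^[m] (Finsupp.single (vt n) 1) ∈
    Finsupp.supported ℤ ℤ {w : Fin (n + 1) → Dl (n + 1) | Sm (((n : ℝ) / (n + 1)) ^ m) w} := by
  induction m with
  | zero =>
    apply Finsupp.single_mem_supported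
    intro i j a
    rw [pow_zero, abs_le]
    have h1 := stdSimplex.zero_le (vt n i) a
    have h2 := stdSimplex.zero_le (vt n j) a
    have h3 := stdSimplex.le_one (vt n i) a
    have h4 := stdSimplex.le_one (vt n j) a
    constructor <;> linarith
  | succ m ih =>
    rw [Function.iterate_succ_apply']
    refine supp_map (sdT n n) ?_ ih
    intro w hw
    refine Finsupp.supported_mono ?_ (sd_small n _ w hw)
    rintro w' ⟨h1, _⟩
    rw [mem_setOf_eq, pow_succ, mul_comm]
    exact h1

/-! ### singular chains -/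

section

variable {X Y : Type} [TopologicalSpace X] [TopologicalSpace Y]

/-- subdivision of singular chains -/
noncomputable def sd (n : ℕ) (X : Type) [TopologicalSpace X] : Ch n X →ₗ[ℤ] Ch n X :=
  Finsupp.linearCombination ℤ fun σ => push σ n (real n n (sdT n n (Finsupp.single (vt n) 1)))

/-- the homotopy on singular chains -/
noncomputable def T (n : ℕ) (X : Type) [TopologicalSpace X] : Ch n X →ₗ[ℤ] Ch (n + 1) X :=
  Finsupp.linearCombination ℤ fun σ =>
    push σ (n + 1) (real (n + 1) n (TT n n (Finsupp.single (vt n) 1)))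

theorem sd_single (σ : C(Dl (n + 1), X)) : sd n X (Finsupp.single σ 1) =
    push σ n (real n n (sdT n n (Finsupp.single (vt n) 1))) := by
  rw [sd, Finsupp.linearCombination_single, one_smul]

theorem T_single (σ : C(Dl (n + 1), X)) : T n X (Finsupp.single σ 1) =
    push σ (n + 1) (real (n + 1) n (TT n n (Finsupp.single (vt n) 1))) := by
  rw [T, Finsupp.linearCombination_single, one_smul]

theorem sd_push (f : C(X, Y)) (c : Ch n X) : sd n Y (push f n c) = push f n (sd n X c) := by
  have : (sd n Y).comp (push f n) = (push f n).comp (sd n X) := by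
    apply lin_ext
    intro σ
    rw [LinearMap.comp_apply, LinearMap.comp_apply, push_single, sd_single, sd_single, push_comp]
  exact LinearMap.congr_fun this c

theorem T_push (f : C(X, Y)) (c : Ch n X) : T n Y (push f n c) = push f (n + 1) (T n X c) := by
  have : (T n Y).comp (push f n) = (push f (n + 1)).comp (T n X) := by
    apply lin_ext
    intro σ
    rw [LinearMap.comp_apply, LinearMap.comp_apply, push_single, T_single, T_single, push_comp]
  exact LinearMap.congr_fun this c

theorem map_vt (v : Fin (n + 1) → Dl (N + 1)) : mapT n (aff v) (Finsupp.single (vt n) 1) =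
    Finsupp.single v 1 := by
  rw [mapT_single]
  simp only [aff_at]

theorem sd_real (σ : C(Dl (N + 1), X)) (c : L n N) :
    sd n X (push σ n (real n N c)) = push σ n (real n N (sdT n N c)) := by
  have : ((sd n X).comp (push σ n)).comp (real n N) =
      ((push σ n).comp (real n N)).comp (sdT n N) := by
    apply lin_ext
    intro v
    simp only [LinearMap.comp_apply]
    rw [real_single, push_single, sd_single, push_comp, push_real, ← sdT_map, map_vt]
  exact LinearMap.congr_fun this c

theorem sd_real_iter (σ : C(Dl (N + 1), X)) (c : L n N) (m : ℕ) :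
    (sd n X)^[m] (push σ n (real n N c)) = push σ n (real n N ((sdT n N)^[m] c)) := by
  induction m with
  | zero => rfl
  | succ m ih => rw [Function.iterate_succ_apply', Function.iterate_succ_apply', ih, sd_real]

theorem real_vt (n : ℕ) : real n n (Finsupp.single (vt n) 1) =
    Finsupp.single (ContinuousMap.id _) 1 := by
  rw [real_single]
  congr 1
  apply ContinuousMap.ext
  intro x
  rw [aff_vt]
  rfl

theorem single_eq (σ : C(Dl (n + 1), X)) : Finsupp.single σ (1 : ℤ) =
    push σ n (real n n (Finsupp.single (vt n) 1)) := by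
  rw [real_vt, push_single]
  rfl

theorem rel0 (c : Ch 0 X) : bd 0 (T 0 X c) = c - sd 0 X c := by
  have : (bd 0).comp (T 0 X) = LinearMap.id - sd 0 X := by
    apply lin_ext
    intro σ
    rw [LinearMap.comp_apply, T_single, LinearMap.sub_apply, sd_single, sdT, TT,
      LinearMap.id_apply, LinearMap.id_apply, ← single_eq]
    simp
  exact LinearMap.congr_fun this c

theorem rel1 (c : Ch (n + 1) X) : bd (n + 1) (T (n + 1) X c) + T n X (bd n c) =
    c - sd (n + 1) X c := by
  have : (bd (n + 1)).comp (T (n + 1) X) + (T n X).comp (bd n) =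
      LinearMap.id - sd (n + 1) X := by
    apply lin_ext
    intro σ
    rw [LinearMap.add_apply, LinearMap.comp_apply, LinearMap.comp_apply, T_single, push_bd,
      bd_real, LinearMap.sub_apply, LinearMap.id_apply, sd_single]
    have h := rel n (Finsupp.single (vt (n + 1)) (1 : ℤ))
    have e : T n X (bd n (Finsupp.single σ 1)) =
        push σ (n + 1) (real (n + 1) (n + 1) (TT n (n + 1) (dT n (n + 1)
          (Finsupp.single (vt (n + 1)) 1)))) := by
      rw [bds, dT_single, map_sum, map_sum, map_sum, map_sum]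
      refine Finset.sum_congr rfl fun i _ => ?_
      rw [map_smul, map_smul, map_smul, map_smul, T_single, push_comp]
      congr 2
      have hf : face (n + 1) i = aff (fun j => vt (n + 1) (i.succAbove j)) :=
        ContinuousMap.ext fun x => face_aff i x
      rw [hf, push_real, ← TT_map, map_vt]
    rw [e, ← map_add, ← map_add, h, map_sub, map_sub, ← single_eq]
  exact LinearMap.congr_fun this c

theorem face_swap (n : ℕ) (i : Fin (n + 3)) (j : Fin (n + 2)) :
    (face (n + 2) (i.succAbove j)).comp (face (n + 1) (j.predAbove i)) =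
      (face (n + 2) i).comp (face (n + 1) j) := by
  apply ContinuousMap.ext
  intro x
  change stdSimplex.map (S := ℝ) _ (stdSimplex.map (S := ℝ) _ x) =
    stdSimplex.map (S := ℝ) _ (stdSimplex.map (S := ℝ) _ x)
  rw [stdSimplex.map_comp_apply, stdSimplex.map_comp_apply]
  congr 1
  funext a
  exact Fin.succAbove_succAbove_succAbove_predAbove i j a

theorem bd_bd (n : ℕ) (c : Ch (n + 2) X) : bd n (bd (n + 1) c) = 0 := by
  have : (bd n).comp (bd (n + 1)) = (0 : Ch (n + 2) X →ₗ[ℤ] Ch n X) := by
    apply lin_ext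
    intro σ
    rw [LinearMap.comp_apply, bds, map_sum, LinearMap.zero_apply]
    simp only [map_smul, bds]
    apply alt_alt (n + 1) fun i j =>
      Finsupp.single ((σ.comp (face (n + 2) i)).comp (face (n + 1) j)) (1 : ℤ)
    intro i j
    rw [ContinuousMap.comp_assoc, ContinuousMap.comp_assoc, face_swap]
  exact LinearMap.congr_fun this c

/-- the identity as a subdivision operator -/
noncomputable def idOp : SdOp where
  s := fun _ _ _ => LinearMap.id
  t := fun _ _ _ => 0
  s_nat := fun _ _ _ _ _ _ _ => rfl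
  t_nat := fun _ _ _ _ _ _ _ => by simp
  s_bd := fun _ _ _ _ => rfl
  t_zero := fun _ _ _ => by simp
  t_succ := fun _ _ _ _ => by simp

theorem sd_bd (c : Ch (n + 1) X) : bd n (sd (n + 1) X c) = sd n X (bd n c) := by
  have h := rel1 (n := n) c
  have e : sd (n + 1) X c = c - (bd (n + 1) (T (n + 1) X c) + T n X (bd n c)) := by
    rw [h, sub_sub_cancel]
  rw [e, map_sub, map_add, bd_bd, zero_add]
  cases n with
  | zero => rw [rel0, sub_sub_cancel]
  | succ n =>
    have h' := rel1 (n := n) (bd (n + 1) c)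
    rw [bd_bd, map_zero, add_zero] at h'
    rw [h', sub_sub_cancel]

/-- composition with one more subdivision -/
noncomputable def stepOp (S : SdOp) : SdOp where
  s := fun M _ n => (sd n M).comp (S.s M n)
  t := fun M _ n => S.t M n + (T n M).comp (S.s M n)
  s_nat := fun M N _ _ f n c => by
    simp only [LinearMap.comp_apply]
    rw [← sd_push, S.s_nat]
  t_nat := fun M N _ _ f n c => by
    simp only [LinearMap.comp_apply, LinearMap.add_apply, map_add]
    rw [← T_push, S.s_nat, S.t_nat]
  s_bd := fun M _ n c => by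
    simp only [LinearMap.comp_apply]
    rw [sd_bd, S.s_bd]
  t_zero := fun M _ c => by
    simp only [LinearMap.comp_apply, LinearMap.add_apply, map_add]
    rw [S.t_zero, rel0]
    abel
  t_succ := fun M _ n c => by
    simp only [LinearMap.comp_apply, LinearMap.add_apply, map_add]
    have h := rel1 (n := n) (S.s M (n + 1) c)
    rw [S.t_succ, ← S.s_bd, eq_sub_of_add_eq h]
    abel

/-- iterated subdivision -/
noncomputable def iter : ℕ → SdOp
  | 0 => idOp
  | m + 1 => stepOp (iter m)

theorem iter_s (m : ℕ) (c : Ch n X) : (iter m).s X n c = (sd n X)^[m] c := by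
  induction m with
  | zero => rfl
  | succ m ih =>
    rw [Function.iterate_succ_apply', ← ih]
    rfl

theorem single_mem {A : Set X} {σ : C(Dl (n + 1), X)} (h : ∀ x, σ x ∈ A) (m : ℤ) :
    Finsupp.single σ m ∈ Con A n :=
  Finsupp.single_mem_supported ℤ m h

theorem sd_mem {A : Set X} {c : Ch n X} (hc : c ∈ Con A n) : sd n X c ∈ Con A n := by
  refine supp_map (sd n X) ?_ hc
  intro σ hσ
  rw [sd_single]
  refine push_mem (A := univ) (fun x _ => hσ x) ?_
  rw [Con, Finsupp.mem_supported]
  intro _ _ _
  trivial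

theorem sd_iter_mem {U V : Set X} {c : Ch n X} (hc : c ∈ Con U n ⊔ Con V n) (m : ℕ) :
    (sd n X)^[m] c ∈ Con U n ⊔ Con V n := by
  induction m with
  | zero => exact hc
  | succ m ih =>
    rw [Function.iterate_succ_apply']
    obtain ⟨a, ha, b, hb, hab⟩ := Submodule.mem_sup.1 ih
    rw [← hab, map_add]
    exact Submodule.add_mem_sup (sd_mem ha) (sd_mem hb)

theorem iter_add (m : ℕ) (c c' : Ch n X) :
    (sd n X)^[m] (c + c') = (sd n X)^[m] c + (sd n X)^[m] c' := by
  induction m with
  | zero => rfl
  | succ m ih => rw [Function.iterate_succ_apply', ih, map_add, Function.iterate_succ_apply',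
      Function.iterate_succ_apply']

theorem iter_smul (m : ℕ) (z : ℤ) (c : Ch n X) :
    (sd n X)^[m] (z • c) = z • (sd n X)^[m] c := by
  induction m with
  | zero => rfl
  | succ m ih => rw [Function.iterate_succ_apply', ih, map_smul, Function.iterate_succ_apply']

theorem small_single (B U V O O' : Set X) (hO : IsOpen O) (hO' : IsOpen O') (hU : O ∩ B = U)
    (hV : O' ∩ B = V) (h : B ⊆ U ∪ V) (σ : C(Dl (n + 1), X)) (hσ : ∀ x, σ x ∈ B) :
    ∃ m : ℕ, (sd n X)^[m] (Finsupp.single σ 1) ∈ Con U n ⊔ Con V n := by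
  let c : Bool → Set (Dl (n + 1)) := fun b => if b then σ ⁻¹' O else σ ⁻¹' O'
  have hc1 : ∀ b, IsOpen (c b) := by
    intro b
    cases b
    · exact hO'.preimage σ.continuous
    · exact hO.preimage σ.continuous
  have hc2 : (univ : Set (Dl (n + 1))) ⊆ ⋃ b, c b := by
    intro x _
    rcases h (hσ x) with hx | hx
    · rw [← hU] at hx
      exact mem_iUnion.2 ⟨true, hx.1⟩
    · rw [← hV] at hx
      exact mem_iUnion.2 ⟨false, hx.1⟩
  obtain ⟨δ, hδ, hδ'⟩ := lebesgue_number_lemma_of_metric isCompact_univ hc1 hc2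
  obtain ⟨m, hm⟩ := exists_pow_lt_of_lt_one hδ
    (show (n : ℝ) / (n + 1) < 1 by rw [div_lt_one (by positivity)]; linarith)
  refine ⟨m, ?_⟩
  rw [single_eq, sd_real_iter]
  have := supp_map ((push σ n).comp (real n n)) (T := Con U n ⊔ Con V n) ?_ (sd_iter_small n m)
  · exact this
  intro w hw
  rw [LinearMap.comp_apply, real_single, push_single]
  obtain ⟨b, hb⟩ := hδ' (w 0) (mem_univ _)
  have hx : ∀ x, aff w x ∈ c b := by
    intro x
    apply hb
    rw [Metric.mem_ball]
    refine lt_of_le_of_lt ?_ hm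
    rw [Subtype.dist_eq, dist_pi_le_iff (by positivity)]
    intro a
    rw [Real.dist_eq]
    exact avg_le x _ _ fun i => hw i 0 a
  cases b
  · apply Submodule.mem_sup_right
    exact single_mem (fun x => hV ▸ ⟨hx x, hσ _⟩) _
  · apply Submodule.mem_sup_left
    exact single_mem (fun x => hU ▸ ⟨hx x, hσ _⟩) _

end

theorem main : SpecSd := by
  rintro X _ B U V ⟨O, hO, hU⟩ ⟨O', hO', hV⟩ h k c hc
  suffices ∃ m : ℕ, (sd k X)^[m] c ∈ Con U k ⊔ Con V k by
    obtain ⟨m, hm⟩ := this
    refine ⟨iter m, ?_⟩
    rw [iter_s]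
    exact hm
  rw [← Finsupp.sum_single c, Finsupp.sum]
  have : ∀ s : Finset (C(Dl (k + 1), X)), (∀ σ ∈ s, ∀ x, σ x ∈ B) →
      ∃ m : ℕ, (sd k X)^[m] (∑ σ ∈ s, Finsupp.single σ (c σ)) ∈ Con U k ⊔ Con V k := by
    classical
    intro s
    induction s using Finset.induction_on with
    | empty =>
      intro _
      exact ⟨0, by rw [Finset.sum_empty]; exact zero_mem _⟩
    | insert σ s hσ ih =>
      intro hs
      obtain ⟨m, hm⟩ := small_single B U V O O' hO hO' hU hV h σ (hs σ (Finset.mem_insert_self _ _))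
      obtain ⟨m', hm'⟩ := ih fun τ hτ => hs τ (Finset.mem_insert_of_mem hτ)
      refine ⟨m + m', ?_⟩
      rw [Finset.sum_insert hσ, iter_add]
      apply add_mem
      · rw [add_comm m m', Function.iterate_add_apply]
        apply sd_iter_mem
        have : Finsupp.single σ (c σ) = c σ • Finsupp.single σ (1 : ℤ) := by
          rw [Finsupp.smul_single, smul_eq_mul, mul_one]
        rw [this, iter_smul]
        exact Submodule.smul_mem _ _ hm
      · rw [Function.iterate_add_apply]
        exact sd_iter_mem hm' m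
  exact this c.support fun σ hσ => hc hσ

end Vale.Agent.P246.T.SD
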