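import Vale.Agent.P246.T.A1a
import Vale.Agent.P246.T.A1f
import Vale.Agent.P246.T.A1h
import Vale.Agent.P246.T.SD
import Vale.Agent.P246.Bdl.B2

/-! # Block A1: from a finite model and the D(2) condition to the Fox complex -/

set_option linter.all false

namespace Vale.Agent.P246.T.A1x

open CategoryTheory

/-! ## Linear extension of equivariant cochains -/

theorem zg_smul {G : Type} [Group G] {M : Type} [AddCommGroup M] [Module (ZG G) M] (r : ZG G)
    (m : M) : r • m = r.coeff.sum fun g a => a • (elt g • m) := by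
  conv_lhs => rw [← r.sum_coeff_single]
  rw [Finsupp.sum, Finsupp.sum, Finset.sum_smul]
  refine Finset.sum_congr rfl fun g _ => ?_
  have h : (MonoidAlgebra.single g (r.coeff g) : ZG G) = (r.coeff g) • elt g := by
    rw [elt, MonoidAlgebra.smul_single, smul_eq_mul, mul_one]
  rw [h, smul_assoc]

section

variable {G E : Type} [Group G] [TopologicalSpace E] [MulAction G E] [ContinuousConstSMul G E]
  {M : Type} [AddCommGroup M] [Module (ZG G) M]

/-- the linear extension -/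
noncomputable def toLin (n : ℕ) (h : C(Dl (n + 1), E) → M)
    (hh : ∀ (g : G) σ, h ((gm g).comp σ) = elt g • h σ) : SC G n E →ₗ[ZG G] M where
  toFun c := Finsupp.linearCombination ℤ h c.un
  map_add' a b := map_add (Finsupp.linearCombination ℤ h) a.un b.un
  map_smul' r c := by
    have key : ∀ (g : G) (c : Ch n E), Finsupp.linearCombination ℤ h (push (gm g) n c) =
        elt g • Finsupp.linearCombination ℤ h c := by
      intro g c
      induction c using Finsupp.induction_linear with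
      | zero => simp only [map_zero, smul_zero]
      | add a b ha hb => simp only [map_add, ha, hb, smul_add]
      | single σ a =>
        rw [push_single, Finsupp.linearCombination_single, Finsupp.linearCombination_single, hh,
          smul_comm]
    rw [RingHom.id_apply, SC.un_smul, zg_smul r, Finsupp.sum, Finsupp.sum, map_sum]
    refine Finset.sum_congr rfl fun g _ => ?_
    rw [map_smul, key]

theorem toLin_single (n : ℕ) (h : C(Dl (n + 1), E) → M)
    (hh : ∀ (g : G) σ, h ((gm g).comp σ) = elt g • h σ) (σ : C(Dl (n + 1), E)) :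
    toLin n h hh (SC.mk G (Finsupp.single σ 1)) = h σ := by
  change Finsupp.linearCombination ℤ h (Finsupp.single σ 1) = h σ
  rw [Finsupp.linearCombination_single, one_smul]

/-- the value on a simplex, for a linear map -/
theorem lin_single (n : ℕ) (f : SC G n E →ₗ[ZG G] M) (g : G) (σ : C(Dl (n + 1), E)) :
    f (SC.mk G (Finsupp.single ((gm g).comp σ) 1)) =
      elt g • f (SC.mk G (Finsupp.single σ 1)) := by
  rw [← map_smul]
  congr 1
  apply SC.un_inj
  rw [SC.un_elt_smul, SC.un_mk, SC.un_mk, push_single]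

/-- two linear maps agree if they agree on simplices -/
theorem lin_ext (n : ℕ) {f g : SC G n E →ₗ[ZG G] M}
    (h : ∀ σ, f (SC.mk G (Finsupp.single σ 1)) = g (SC.mk G (Finsupp.single σ 1)))
    (c : SC G n E) : f c = g c := by
  have key : ∀ c : Ch n E, f (SC.mk G c) = g (SC.mk G c) := by
    intro c
    induction c using Finsupp.induction_linear with
    | zero => exact (map_zero f).trans (map_zero g).symm
    | add a b ha hb => exact ((map_add f _ _).trans (congrArg₂ _ ha hb)).trans (map_add g _ _).symm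
    | single σ a =>
      have e2 : (Finsupp.single σ a : Ch n E) = (a • Finsupp.single σ 1 : Ch n E) := by
        rw [Finsupp.smul_single, smul_eq_mul, mul_one]
      have e : (SC.mk G (Finsupp.single σ a) : SC G n E) = a • SC.mk G (Finsupp.single σ 1) := e2
      rw [e, map_zsmul, map_zsmul, h]
  exact key c.un

theorem lin_bd (n : ℕ) (f : SC G n E →ₗ[ZG G] M) (τ : C(Dl (n + 2), E)) :
    f (SC.d G n E (SC.mk G (Finsupp.single τ 1))) =
      cobd (fun σ => f (SC.mk G (Finsupp.single σ 1))) τ := by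
  have e : SC.d G n E (SC.mk G (Finsupp.single τ 1)) = ∑ i : Fin (n + 2),
      (-1 : ℤ) ^ (i : ℕ) • SC.mk G (Finsupp.single (τ.comp (face (n + 1) i)) 1) := by
    apply SC.un_inj
    rw [SC.un_d, SC.un_mk, bd_single]
    change _ = (∑ i : Fin (n + 2), (-1 : ℤ) ^ (i : ℕ) •
      (Finsupp.single (τ.comp (face (n + 1) i)) 1 : Ch n E))
    refine Finset.sum_congr rfl fun i _ => ?_
    rw [Finsupp.smul_single, smul_eq_mul, mul_one, one_mul]
  rw [e, map_sum, cobd]
  refine Finset.sum_congr rfl fun i _ => ?_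
  rw [map_zsmul]

/-- cocycles of degree three are coboundaries -/
theorem h3_lin (h3 : H3G G E) [Module.Finite (ZG G) M] (f : SC G 3 E →ₗ[ZG G] M)
    (hf : ∀ x, f (SC.d G 3 E x) = 0) : ∃ h : SC G 2 E →ₗ[ZG G] M, ∀ x, f x = h (SC.d G 2 E x) := by
  obtain ⟨h, hh, hfh⟩ := h3 M (fun σ => f (SC.mk G (Finsupp.single σ 1)))
    (fun g σ => lin_single 3 f g σ) (fun τ => by
      rw [← lin_bd]
      exact hf _)
  refine ⟨toLin 2 h hh, fun x => ?_⟩
  refine lin_ext 3 (f := f) (g := (toLin 2 h hh).comp (SC.d G 2 E)) (fun σ => ?_) x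
  rw [LinearMap.comp_apply, lin_bd]
  simp only [toLin_single]
  exact hfh σ

end

/-! ## Chain complexes -/

section Cat

variable {R : Type} [Ring R]

theorem homotopy_zero {A B : ChainComplex (ModuleCat.{0} R) ℕ} {f g : A ⟶ B} (h : Homotopy f g)
    (x : A.X 0) : (f.f 0).hom x = (B.d 1 0).hom ((h.hom 0 1).hom x) + (g.f 0).hom x := by
  have e := h.comm 0
  rw [Homotopy.dNext_zero_chainComplex, Homotopy.prevD_chainComplex, zero_add] at e
  rw [e]
  rfl

theorem homotopy_succ {A B : ChainComplex (ModuleCat.{0} R) ℕ} {f g : A ⟶ B} (h : Homotopy f g)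
    (n : ℕ) (x : A.X (n + 1)) : (f.f (n + 1)).hom x =
      (h.hom n (n + 1)).hom ((A.d (n + 1) n).hom x) +
        (B.d (n + 2) (n + 1)).hom ((h.hom (n + 1) (n + 2)).hom x) + (g.f (n + 1)).hom x := by
  have e := h.comm (n + 1)
  rw [Homotopy.dNext_succ_chainComplex, Homotopy.prevD_chainComplex] at e
  rw [e]
  rfl

theorem comm_apply {A B : ChainComplex (ModuleCat.{0} R) ℕ} (f : A ⟶ B) (n : ℕ)
    (x : A.X (n + 1)) : (B.d (n + 1) n).hom ((f.f (n + 1)).hom x) =
      (f.f n).hom ((A.d (n + 1) n).hom x) := by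
  have e := f.comm (n + 1) n
  exact LinearMap.congr_fun (congrArg ModuleCat.Hom.hom e) x

variable {S : ℕ → Type} [∀ n, AddCommGroup (S n)] [∀ n, Module R (S n)]
  {d : ∀ n, S (n + 1) →ₗ[R] S n} {P : ∀ n, Submodule R (S n)}

/-- the model as a chain complex -/
noncomputable def CC (hd : ∀ n x, d n (d (n + 1) x) = 0) (hM : IsModel S d (fun _ => ⊤) P) :
    ChainComplex (ModuleCat.{0} R) ℕ :=
  ChainComplex.of (fun n => ModuleCat.of R (P n)) (fun n => ModuleCat.ofHom (dP hM n)) (by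
    intro n
    apply ModuleCat.hom_ext
    apply LinearMap.ext
    intro x
    apply Subtype.ext
    exact hd n x.1)

theorem CC_d (hd : ∀ n x, d n (d (n + 1) x) = 0) (hM : IsModel S d (fun _ => ⊤) P) (n : ℕ)
    (x : P (n + 1)) : ((CC hd hM).d (n + 1) n).hom x = dP hM n x := by
  have e : (CC hd hM).d (n + 1) n = ModuleCat.ofHom (dP hM n) :=
    ChainComplex.of_d (fun n => ModuleCat.of R (P n)) (fun n => ModuleCat.ofHom (dP hM n)) n
  rw [e]
  rfl

end Cat

/-! ## The block -/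

/-- the augmentation -/
noncomputable def aug (E : Type) [TopologicalSpace E] : Ch 0 E →ₗ[ℤ] ℤ :=
  Finsupp.linearCombination ℤ fun _ => 1

theorem aug_eq {E : Type} [TopologicalSpace E] (c : Ch 0 E) : aug E c = c.sum fun _ a => a := by
  rw [aug, Finsupp.linearCombination_apply]
  simp

section

variable {G X E : Type} [Group G] [TopologicalSpace X] [TopologicalSpace E]
  [SimplyConnectedSpace E] [MulAction G E] [ContinuousConstSMul G E]

omit [SimplyConnectedSpace E] in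
theorem d_d (n : ℕ) (x : SC G (n + 2) E) : SC.d G n E (SC.d G (n + 1) E x) = 0 :=
  SD.bd_bd n x.un

theorem hzero (haug : ∀ c : Ch 0 E, (c.sum fun _ a => a) = 0 ↔ ∃ b : Ch 1 E, bd 0 b = c)
    {P : ∀ n, Submodule (ZG G) (SC G n E)}
    (hM : IsModel (fun n => SC G n E) (fun n => SC.d G n E) (fun _ => ⊤) P) :
    ∃ ε : P 0 →+ ℤ, Function.Surjective ε ∧ (∀ (g : G) x, ε (elt g • x) = ε x) ∧
      ∀ x, ε x = 0 ↔ ∃ y, dP hM 0 y = x := by
  let ε : P 0 →+ ℤ := (aug E).toAddMonoidHom.comp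
    ((P 0).subtype.toAddMonoidHom : P 0 →+ SC G 0 E)
  have hε : ∀ x : P 0, ε x = aug E (x.1 : SC G 0 E).un := fun _ => rfl
  have hbd : ∀ b : Ch 1 E, aug E (bd 0 b) = 0 := by
    intro b
    rw [aug_eq]
    exact (haug _).2 ⟨b, rfl⟩
  refine ⟨ε, ?_, ?_, ?_⟩
  · intro k
    obtain ⟨e⟩ : Nonempty E := inferInstance
    obtain ⟨y, hy, _, z, _, h⟩ := hM.surj 0 (SC.mk G (ksx 0 e)) trivial trivial
    refine ⟨k • ⟨y, hy⟩, ?_⟩
    have h1 : ε ⟨y, hy⟩ = 1 := by
      rw [hε]
      have h2 : (ksx 0 e : Ch 0 E) = y.un + bd 0 z.un := h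
      have h3 : aug E (ksx 0 e) = aug E y.un + aug E (bd 0 z.un) := by
        rw [← map_add, ← h2]
      rw [hbd, add_zero] at h3
      change aug E y.un = 1
      rw [← h3, ksx, aug, Finsupp.linearCombination_single, one_smul]
    rw [map_zsmul, h1, smul_eq_mul, mul_one]
  · intro g x
    change aug E (elt g • (x.1 : SC G 0 E)).un = aug E (x.1 : SC G 0 E).un
    rw [SC.un_elt_smul]
    generalize (x.1 : SC G 0 E).un = c
    induction c using Finsupp.induction_linear with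
    | zero => simp only [map_zero]
    | add a b ha hb => simp only [map_add, ha, hb]
    | single σ a =>
      rw [push_single, aug, Finsupp.linearCombination_single, Finsupp.linearCombination_single]
  · intro x
    constructor
    · intro hx
      rw [hε, aug_eq, haug] at hx
      obtain ⟨b, hb⟩ := hx
      obtain ⟨y, hy, h⟩ := hM.inj 0 x.1 x.2 trivial ⟨SC.mk G b, trivial, hb⟩
      exact ⟨⟨y, hy⟩, Subtype.ext h⟩
    · rintro ⟨y, rfl⟩
      rw [hε]
      exact hbd _

/-- the data for the algebraic D(2) property -/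
theorem data (haug : ∀ c : Ch 0 E, (c.sum fun _ a => a) = 0 ↔ ∃ b : Ch 1 E, bd 0 b = c)
    (hone : ∀ c : Ch 1 E, bd 0 c = 0 → ∃ b : Ch 2 E, bd 1 b = c)
    (hfree : ∀ n, Module.Free (ZG G) (SC G n E))
    (hhigh : ∀ i, 2 ≤ i → ∀ c : Ch (i + 1) E, bd i c = 0 → ∃ b : Ch (i + 2) E, bd (i + 1) b = c)
    (h3 : H3G G E) {P : ∀ n, Submodule (ZG G) (SC G n E)}
    (hP : IsFinModel (fun n => SC G n E) (fun n => SC.d G n E) (fun _ => ⊤) P) :
    D2Data G (CC (S := fun n => SC G n E) (d := fun n => SC.d G n E) d_d hP.toIsModel) where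
  free := hP.free
  finite := hP.fin
  bounded := by
    obtain ⟨N, hN⟩ := hP.bdd
    refine ⟨N, fun i hi => ?_⟩
    have h := hN i hi
    change Subsingleton (P i)
    rw [h]
    infer_instance
  homology_zero := by
    obtain ⟨ε, h1, h2, h3⟩ := hzero haug hP.toIsModel
    refine ⟨ε, h1, h2, fun x => (h3 x).trans ?_⟩
    exact ⟨fun ⟨y, hy⟩ => ⟨y, (CC_d d_d hP.toIsModel 0 y).trans hy⟩, fun ⟨y, hy⟩ =>
      ⟨y, (CC_d d_d hP.toIsModel 0 y).symm.trans hy⟩⟩
  homology_one := by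
    rw [exactAt_succ_iff]
    intro x hx
    have hx' : dP hP.toIsModel 0 x = 0 := (CC_d d_d hP.toIsModel 0 x).symm.trans hx
    have hx2 : SC.d G 0 E (x : P 1).1 = 0 := congrArg Subtype.val hx'
    obtain ⟨b, hb⟩ := hone (x : P 1).1 hx2
    obtain ⟨y, hy, h⟩ := hP.inj 1 (x : P 1).1 (x : P 1).2 hx2 ⟨SC.mk G b, trivial, hb⟩
    exact ⟨⟨y, hy⟩, (CC_d d_d hP.toIsModel 1 ⟨y, hy⟩).trans (Subtype.ext h)⟩
  homology_high := by
    intro i hi
    obtain ⟨j, rfl⟩ : ∃ j, i = j + 3 := ⟨i - 3, by omega⟩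
    rw [exactAt_succ_iff]
    intro x hx
    have hx' : dP hP.toIsModel (j + 2) x = 0 := (CC_d d_d hP.toIsModel (j + 2) x).symm.trans hx
    have hx2 : SC.d G (j + 2) E (x : P (j + 3)).1 = 0 := congrArg Subtype.val hx'
    obtain ⟨b, hb⟩ := hhigh (j + 2) (by omega) (x : P (j + 3)).1 hx2
    obtain ⟨y, hy, h⟩ := hP.inj (j + 3) (x : P (j + 3)).1 (x : P (j + 3)).2 hx2
      ⟨SC.mk G b, trivial, hb⟩
    exact ⟨⟨y, hy⟩, (CC_d d_d hP.toIsModel (j + 3) ⟨y, hy⟩).trans (Subtype.ext h)⟩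
  cohomology_three := by
    intro M _ _ _ φ hφ
    have hfree' := hP.free
    obtain ⟨ψ, hψ⟩ := coh (S := fun n => SC G n E) (d := fun n => SC.d G n E) d_d hP.toIsModel
      (fun n => inferInstance) (fun n => inferInstance) (M := M) 2
      (fun f hf => h3_lin h3 f hf) φ (fun x => by
        have := hφ x
        rwa [show ((CC (S := fun n => SC G n E) (d := fun n => SC.d G n E) d_d
          hP.toIsModel).d 4 3) x = dP hP.toIsModel 3 x from CC_d d_d hP.toIsModel 3 x] at this)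
    refine ⟨ψ, fun x => ?_⟩
    rw [show ((CC (S := fun n => SC G n E) (d := fun n => SC.d G n E) d_d
          hP.toIsModel).d 3 2) x = dP hP.toIsModel 2 x from CC_d d_d hP.toIsModel 2 x]
    exact hψ x

omit [Group G] [SimplyConnectedSpace E] [MulAction G E] [ContinuousConstSMul G E] in
theorem mem_univ_con {n : ℕ} (c : Ch n E) : c ∈ Con (Set.univ : Set E) n := by
  rw [Con, Finsupp.mem_supported]
  exact fun σ _ x => Set.mem_univ _

omit [SimplyConnectedSpace E] in
/-- a homotopy equivalence from the model to the Fox complex gives the quasi-isomorphism -/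
theorem qi {P : ∀ n, Submodule (ZG G) (SC G n E)}
    (hM : IsModel (fun n => SC G n E) (fun n => SC.d G n E) (fun _ => ⊤) P)
    (Pr : FinPresentation G)
    (e : HomotopyEquiv (CC (S := fun n => SC G n E) (d := fun n => SC.d G n E) d_d hM) (foxCC Pr)) :
    ∃ (ψ0 : ZG G →ₗ[ZG G] SC G 0 E) (ψ1 : (Fin Pr.gens → ZG G) →ₗ[ZG G] SC G 1 E)
      (ψ2 : (Fin Pr.rels → ZG G) →ₗ[ZG G] SC G 2 E), FoxQI Pr Set.univ ψ0 ψ1 ψ2 := by
  -- the maps in terms of elements
  let F : ∀ n, (foxCC Pr).X n →ₗ[ZG G] P n := fun n => (e.inv.f n).hom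
  let K : ∀ n, P n →ₗ[ZG G] (foxCC Pr).X n := fun n => (e.hom.f n).hom
  have hF : ∀ n (v : (foxCC Pr).X (n + 1)), dP hM n (F (n + 1) v) =
      F n (((foxCC Pr).d (n + 1) n).hom v) := fun n v =>
    (CC_d d_d hM n _).symm.trans (comm_apply e.inv n v)
  have hK : ∀ n (x : P (n + 1)), ((foxCC Pr).d (n + 1) n).hom (K (n + 1) x) =
      K n (dP hM n x) := fun n x =>
    (comm_apply e.hom n x).trans (congrArg (K n) (CC_d d_d hM n x))
  have a0 : ∀ x : P 0, ∃ y, F 0 (K 0 x) = dP hM 0 y + x := fun x =>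
    ⟨(e.homotopyHomInvId.hom 0 1).hom x, (homotopy_zero e.homotopyHomInvId x).trans
      (congrArg (· + x) (CC_d d_d hM 0 _))⟩
  have a1 : ∀ n (x : P (n + 1)), dP hM n x = 0 → ∃ y, F (n + 1) (K (n + 1) x) =
      dP hM (n + 1) y + x := by
    intro n x hx
    refine ⟨(e.homotopyHomInvId.hom (n + 1) (n + 2)).hom x,
      (homotopy_succ e.homotopyHomInvId n x).trans ?_⟩
    have h1 : ((CC (S := fun n => SC G n E) (d := fun n => SC.d G n E) d_d hM).d (n + 1) n).hom x
        = 0 := (CC_d d_d hM n x).trans hx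
    rw [h1, map_zero, zero_add]
    exact congrArg (· + x) (CC_d d_d hM (n + 1) _)
  have b0 : ∀ v : (foxCC Pr).X 0, ∃ u, K 0 (F 0 v) = ((foxCC Pr).d 1 0).hom u + v := fun v =>
    ⟨(e.homotopyInvHomId.hom 0 1).hom v, homotopy_zero e.homotopyInvHomId v⟩
  have b1 : ∀ n (v : (foxCC Pr).X (n + 1)), ((foxCC Pr).d (n + 1) n).hom v = 0 →
      ∃ u, K (n + 1) (F (n + 1) v) = ((foxCC Pr).d (n + 2) (n + 1)).hom u + v := by
    intro n v hv
    refine ⟨(e.homotopyInvHomId.hom (n + 1) (n + 2)).hom v,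
      (homotopy_succ e.homotopyInvHomId n v).trans ?_⟩
    rw [hv, map_zero, zero_add]
    rfl
  -- surjectivity and injectivity
  have s0 : ∀ x : SC G 0 E, ∃ v, ∃ y, x = (F 0 v).1 + SC.d G 0 E y := by
    intro x
    obtain ⟨y, hy, _, z, _, h⟩ := hM.surj 0 x trivial trivial
    obtain ⟨w, hw⟩ := a0 ⟨y, hy⟩
    have hw' : (F 0 (K 0 ⟨y, hy⟩)).1 = SC.d G 0 E w.1 + y := congrArg Subtype.val hw
    refine ⟨K 0 ⟨y, hy⟩, z - w.1, ?_⟩
    rw [hw', map_sub]
    change x = _
    rw [h]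
    abel
  have s1 : ∀ n (x : SC G (n + 1) E), SC.d G n E x = 0 →
      ∃ v, ((foxCC Pr).d (n + 1) n).hom v = 0 ∧
        ∃ y, x = (F (n + 1) v).1 + SC.d G (n + 1) E y := by
    intro n x hx
    obtain ⟨y, hy, hyc, z, _, h⟩ := hM.surj (n + 1) x trivial hx
    have hyc' : dP hM n ⟨y, hy⟩ = 0 := Subtype.ext hyc
    obtain ⟨w, hw⟩ := a1 n ⟨y, hy⟩ hyc'
    have hw' : (F (n + 1) (K (n + 1) ⟨y, hy⟩)).1 = SC.d G (n + 1) E w.1 + y :=
      congrArg Subtype.val hw
    refine ⟨K (n + 1) ⟨y, hy⟩, ?_, z - w.1, ?_⟩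
    · rw [hK, hyc', map_zero]
    · rw [hw', map_sub]
      change x = _
      rw [h]
      abel
  have i0 : ∀ v, (∃ y, (F 0 v).1 = SC.d G 0 E y) → ∃ u, v = ((foxCC Pr).d 1 0).hom u := by
    rintro v ⟨y, hy⟩
    obtain ⟨y', hy', h⟩ := hM.inj 0 (F 0 v).1 (F 0 v).2 trivial ⟨y, trivial, hy.symm⟩
    obtain ⟨u, hu⟩ := b0 v
    refine ⟨K 1 ⟨y', hy'⟩ - u, ?_⟩
    have h1 : dP hM 0 ⟨y', hy'⟩ = F 0 v := Subtype.ext h
    rw [map_sub, hK, h1, hu]
    abel
  have i1 : ∀ n v, ((foxCC Pr).d (n + 1) n).hom v = 0 →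
      (∃ y, (F (n + 1) v).1 = SC.d G (n + 1) E y) →
      ∃ u, v = ((foxCC Pr).d (n + 2) (n + 1)).hom u := by
    rintro n v hv ⟨y, hy⟩
    have h2 : dP hM n (F (n + 1) v) = 0 := by rw [hF, hv, map_zero]
    obtain ⟨y', hy', h⟩ := hM.inj (n + 1) (F (n + 1) v).1 (F (n + 1) v).2
      (congrArg Subtype.val h2) ⟨y, trivial, hy.symm⟩
    obtain ⟨u, hu⟩ := b1 n v hv
    refine ⟨K (n + 2) ⟨y', hy'⟩ - u, ?_⟩
    have h1 : dP hM (n + 1) ⟨y', hy'⟩ = F (n + 1) v := Subtype.ext h
    rw [map_sub, hK, h1, hu]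
    abel
  refine ⟨(P 0).subtype.comp (F 0), (P 1).subtype.comp (F 1), (P 2).subtype.comp (F 2), ?_⟩
  constructor
  · intro v
    have h := congrArg Subtype.val (hF 0 v)
    refine h.trans ?_
    change _ = (F 0 (fox1 Pr v)).1
    rw [← show ((foxCC Pr).d 1 0).hom v = fox1 Pr v from fox_d10 Pr v]
  · intro v
    have h := congrArg Subtype.val (hF 1 v)
    refine h.trans ?_
    change _ = (F 1 (fox2 Pr v)).1
    rw [← show ((foxCC Pr).d 2 1).hom v = fox2 Pr v from fox_d21 Pr v]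
  · exact fun v => mem_univ_con _
  · exact fun v => mem_univ_con _
  · exact fun v => mem_univ_con _
  · intro x _
    obtain ⟨v, y, h⟩ := s0 x
    exact ⟨v, y, mem_univ_con _, h⟩
  · rintro v ⟨y, _, h⟩
    obtain ⟨u, hu⟩ := i0 v ⟨y, h⟩
    exact ⟨u, hu.trans (fox_d10 Pr u)⟩
  · intro x _ hx
    obtain ⟨v, hv, y, h⟩ := s1 0 x hx
    exact ⟨v, (fox_d10 Pr v).symm.trans hv, y, mem_univ_con _, h⟩
  · rintro v hv ⟨y, _, h⟩
    obtain ⟨u, hu⟩ := i1 0 v ((fox_d10 Pr v).trans hv) ⟨y, h⟩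
    exact ⟨u, hu.trans (fox_d21 Pr u)⟩
  · intro x _ hx
    obtain ⟨v, hv, y, h⟩ := s1 1 x hx
    exact ⟨v, (fox_d21 Pr v).symm.trans hv, y, mem_univ_con _, h⟩
  · rintro v hv ⟨y, _, h⟩
    obtain ⟨u, hu⟩ := i1 1 v ((fox_d21 Pr v).trans hv) ⟨y, h⟩
    have := fox_subsingleton Pr 0
    rw [Subsingleton.elim u 0, map_zero] at hu
    exact hu
  · intro n x _ hx
    obtain ⟨v, hv, y, h⟩ := s1 (n + 2) x hx
    have := fox_subsingleton Pr n
    rw [Subsingleton.elim v 0, map_zero] at h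
    exact ⟨y, mem_univ_con _, h.trans (zero_add _)⟩

end

/-- BLOCK A1, from the freeness of the chains and the low dimensional homology -/
theorem main_of (hfree : ∀ {G X E : Type} [Group G] [TopologicalSpace X] [TopologicalSpace E]
      [MulAction G E] [ContinuousConstSMul G E] {p : C(E, X)} (_ : IsQuotientCoveringMap p G)
      (n : ℕ), Module.Free (ZG G) (SC G n E))
    (haug : ∀ {E : Type} [TopologicalSpace E] [PathConnectedSpace E] (c : Ch 0 E),
      (c.sum fun _ a => a) = 0 ↔ ∃ b : Ch 1 E, bd 0 b = c)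
    (hone : ∀ {E : Type} [TopologicalSpace E] [SimplyConnectedSpace E] (c : Ch 1 E),
      bd 0 c = 0 → ∃ b : Ch 2 E, bd 1 b = c) : SpecA1 := by
  intro G X E _ _ _ _ _ _ p hp hhigh h3 hP hD
  obtain ⟨P, hP⟩ := hP
  have hdat := data haug hone (fun n => hfree hp n) hhigh h3 hP
  obtain ⟨Pr, ⟨e⟩⟩ := hD _ (hdat.isD2)
  obtain ⟨ψ0, ψ1, ψ2, h⟩ := qi hP.toIsModel Pr e
  exact ⟨Pr, ψ0, ψ1, ψ2, h⟩

end Vale.Agent.P246.T.A1x

/-- BLOCK A1 -/
theorem Vale.Agent.P246.T.A1.main : Vale.Agent.P246.T.SpecA1 :=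
  Vale.Agent.P246.T.A1x.main_of (fun hp n => Vale.Agent.P246.T.A1f.free hp n)
    (fun c => Vale.Agent.P246.T.A1h.aug_iff c) (fun c h => Vale.Agent.P246.T.A1h.h_one c h)
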