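import Vale.Agent.P246.T.Spec2

/-! # Block A1, part 1: the homotopy inverse of a model -/

set_option linter.all false

namespace Vale.Agent.P246.T.A1x

variable {R : Type} [Ring R] {S : ℕ → Type} [∀ n, AddCommGroup (S n)] [∀ n, Module R (S n)]
  {d : ∀ n, S (n + 1) →ₗ[R] S n} {P : ∀ n, Submodule R (S n)}

/-- relative acyclicity -/
theorem rel (hd : ∀ n x, d n (d (n + 1) x) = 0) (hM : IsModel S d (fun _ => ⊤) P) (n : ℕ) (z : S n)
    (hz : DRel S d P n z) : ∃ y ∈ P n, ∃ w : S (n + 1), z = y - d n w := by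
  cases n with
  | zero =>
    obtain ⟨y, hy, _, w, _, h⟩ := hM.surj 0 z trivial trivial
    exact ⟨y, hy, -w, by rw [map_neg, sub_neg_eq_add]; exact h⟩
  | succ n =>
    have hz' : d n z ∈ P n := hz
    obtain ⟨y', hy', h'⟩ := hM.inj n (d n z) hz' (by
      cases n with
      | zero => trivial
      | succ n => exact hd n z) ⟨z, trivial, rfl⟩
    obtain ⟨y, hy, _, w, _, h⟩ := hM.surj (n + 1) (z - y') trivial (by
      change d n (z - y') = 0
      rw [map_sub, h', sub_self])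
    refine ⟨y + y', (P (n + 1)).add_mem hy hy', -w, ?_⟩
    rw [map_neg, sub_neg_eq_add, add_right_comm, ← h]
    abel

/-- lifting of linear maps -/
theorem lift (hd : ∀ n x, d n (d (n + 1) x) = 0) (hM : IsModel S d (fun _ => ⊤) P) (n : ℕ)
    {F : Type} [AddCommGroup F] [Module R F] [Module.Projective R F] (θ : F →ₗ[R] S n)
    (hθ : ∀ x, DRel S d P n (θ x)) :
    ∃ (y : F →ₗ[R] P n) (w : F →ₗ[R] S (n + 1)), ∀ x, θ x = y x - d n (w x) := by
  let f : (P n × S (n + 1)) →ₗ[R] S n :=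
    (P n).subtype.comp (LinearMap.fst R _ _) - (d n).comp (LinearMap.snd R _ _)
  have hf : ∀ x, θ x ∈ LinearMap.range f := by
    intro x
    obtain ⟨y, hy, w, h⟩ := rel hd hM n (θ x) (hθ x)
    exact ⟨(⟨y, hy⟩, w), h.symm⟩
  obtain ⟨g, hg⟩ := Module.projective_lifting_property f.rangeRestrict
    (θ.codRestrict (LinearMap.range f) hf) (LinearMap.surjective_rangeRestrict f)
  refine ⟨(LinearMap.fst R _ _).comp g, (LinearMap.snd R _ _).comp g, fun x => ?_⟩
  have h := congrArg Subtype.val (LinearMap.congr_fun hg x)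
  exact h.symm

/-- one stage of the homotopy inverse -/
structure St1 (S : ℕ → Type) [∀ n, AddCommGroup (S n)] [∀ n, Module R (S n)]
    (d : ∀ n, S (n + 1) →ₗ[R] S n) (P : ∀ n, Submodule R (S n)) (n : ℕ) where
  g : S n →ₗ[R] P n
  H : S n →ₗ[R] S (n + 1)
  ok : ∀ y, DCyc S d n y → y + d n (H y) = g y

theorem dcyc_d (hd : ∀ n x, d n (d (n + 1) x) = 0) (n : ℕ) (x : S (n + 1)) :
    DCyc S d n (d n x) := by
  cases n with
  | zero => trivial
  | succ n => exact hd n x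

theorem exists_g (hd : ∀ n x, d n (d (n + 1) x) = 0) (hM : IsModel S d (fun _ => ⊤) P)
    (hS : ∀ n, Module.Projective R (S n)) :
    ∃ (g : ∀ n, S n →ₗ[R] P n) (H : ∀ n, S n →ₗ[R] S (n + 1)),
      (∀ x, x + d 0 (H 0 x) = g 0 x) ∧
      ∀ n x, x + H n (d n x) + d (n + 1) (H (n + 1) x) = g (n + 1) x := by
  have h0 : ∃ s : St1 S d P 0, True := by
    obtain ⟨y, w, h⟩ := lift hd hM 0 (LinearMap.id : S 0 →ₗ[R] S 0) (fun _ => trivial)
    exact ⟨⟨y, w, fun x _ => by
      have := h x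
      rw [LinearMap.id_apply] at this
      exact (eq_sub_iff_add_eq.1 this)⟩, trivial⟩
  have h1 : ∀ n (s : St1 S d P n), ∃ t : St1 S d P (n + 1),
      ∀ x, x + s.H (d n x) + d (n + 1) (t.H x) = t.g x := by
    intro n s
    obtain ⟨y, w, h⟩ := lift hd hM (n + 1) (LinearMap.id + s.H.comp (d n) : S (n + 1) →ₗ[R] S (n + 1))
      (fun x => by
        change d n (x + s.H (d n x)) ∈ P n
        rw [map_add, s.ok _ (dcyc_d hd n x)]
        exact (s.g _).2)
    have h' : ∀ x, x + s.H (d n x) + d (n + 1) (w x) = y x := by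
      intro x
      exact eq_sub_iff_add_eq.1 (h x)
    refine ⟨⟨y, w, fun x hx => ?_⟩, h'⟩
    have hx' : d n x = 0 := hx
    have := h' x
    rw [hx', map_zero, add_zero] at this
    exact this
  choose s0 _ using h0
  choose F hF using h1
  let s : ∀ n, St1 S d P n := fun n => Nat.rec s0 F n
  refine ⟨fun n => (s n).g, fun n => (s n).H, fun x => s0.ok x trivial, fun n x => hF n (s n) x⟩

/-- the second stage -/
structure St2 (S : ℕ → Type) [∀ n, AddCommGroup (S n)] [∀ n, Module R (S n)]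
    (d : ∀ n, S (n + 1) →ₗ[R] S n) (P : ∀ n, Submodule R (S n)) (H : ∀ n, S n →ₗ[R] S (n + 1))
    (n : ℕ) where
  K : P n →ₗ[R] P (n + 1)
  L : P n →ₗ[R] S (n + 2)
  ok : ∀ y : P n, DCyc S d n y.1 → H n y.1 + d (n + 1) (L y) = K y

/-- the boundary of the model -/
def dP (hM : IsModel S d (fun _ => ⊤) P) (n : ℕ) : P (n + 1) →ₗ[R] P n :=
  ((d n).comp (P (n + 1)).subtype).codRestrict (P n) fun x => hM.d_mem n x.1 x.2

theorem exists_K (hd : ∀ n x, d n (d (n + 1) x) = 0) (hM : IsModel S d (fun _ => ⊤) P)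
    (hP : ∀ n, Module.Projective R (P n)) (g : ∀ n, S n →ₗ[R] P n)
    (H : ∀ n, S n →ₗ[R] S (n + 1)) (h0 : ∀ x, x + d 0 (H 0 x) = g 0 x)
    (h1 : ∀ n x, x + H n (d n x) + d (n + 1) (H (n + 1) x) = g (n + 1) x) :
    ∃ K : ∀ n, P n →ₗ[R] P (n + 1), ∀ n (x : P (n + 1)),
      x.1 + (K n (dP hM n x)).1 + d (n + 1) (K (n + 1) x).1 = (g (n + 1) x.1).1 := by
  have e0 : ∃ s : St2 S d P H 0, True := by
    obtain ⟨y, w, h⟩ := lift hd hM 1 ((H 0).comp (P 0).subtype) (fun x => by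
      change d 0 (H 0 x.1) ∈ P 0
      rw [← sub_eq_of_eq_add' (h0 x.1).symm]
      exact (P 0).sub_mem (g 0 x.1).2 x.2)
    exact ⟨⟨y, w, fun x _ => eq_sub_iff_add_eq.1 (h x)⟩, trivial⟩
  have e1 : ∀ n (s : St2 S d P H n), ∃ t : St2 S d P H (n + 1),
      ∀ x, x.1 + (s.K (dP hM n x)).1 + d (n + 1) (t.K x).1 = (g (n + 1) x.1).1 := by
    intro n s
    have hs : ∀ x : P (n + 1), H n (d n x.1) + d (n + 1) (s.L (dP hM n x)) = s.K (dP hM n x) :=
      fun x => s.ok (dP hM n x) (dcyc_d hd n x.1)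
    have hw : ∀ x : P (n + 1), d (n + 1) (H (n + 1) x.1 - s.L (dP hM n x)) =
        (g (n + 1) x.1).1 - x.1 - (s.K (dP hM n x)).1 := by
      intro x
      rw [map_sub, ← h1 n x.1, ← hs x]
      abel
    obtain ⟨y, w, h⟩ := lift hd hM (n + 2)
      ((H (n + 1)).comp (P (n + 1)).subtype - s.L.comp (dP hM n)) (fun x => by
        change d (n + 1) (H (n + 1) x.1 - s.L (dP hM n x)) ∈ P (n + 1)
        rw [hw]
        exact (P _).sub_mem ((P _).sub_mem (g _ _).2 x.2) (s.K _).2)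
    have h' : ∀ x, H (n + 1) x.1 - s.L (dP hM n x) + d (n + 2) (w x) = y x :=
      fun x => eq_sub_iff_add_eq.1 (h x)
    refine ⟨⟨y, w, fun x hx => ?_⟩, fun x => ?_⟩
    · have hx' : dP hM n x = 0 := Subtype.ext hx
      have := h' x
      rw [hx', map_zero, sub_zero] at this
      exact this
    · change x.1 + (s.K (dP hM n x)).1 + d (n + 1) (y x).1 = _
      rw [← h' x, map_add, hw, hd, add_zero]
      abel
  choose s0 _ using e0
  choose F hF using e1
  let s : ∀ n, St2 S d P H n := fun n => Nat.rec s0 F n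
  exact ⟨fun n => (s n).K, fun n x => hF n (s n) x⟩

/-- a cocycle on the model is a coboundary as soon as the same holds on `S` -/
theorem coh (hd : ∀ n x, d n (d (n + 1) x) = 0) (hM : IsModel S d (fun _ => ⊤) P)
    (hS : ∀ n, Module.Projective R (S n)) (hP : ∀ n, Module.Projective R (P n))
    {M : Type} [AddCommGroup M] [Module R M] (n : ℕ)
    (hc : ∀ f : S (n + 1) →ₗ[R] M, (∀ x, f (d (n + 1) x) = 0) →
      ∃ h : S n →ₗ[R] M, ∀ x, f x = h (d n x))
    (φ : P (n + 1) →ₗ[R] M) (hφ : ∀ x, φ (dP hM (n + 1) x) = 0) :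
    ∃ ψ : P n →ₗ[R] M, ∀ x, φ x = ψ (dP hM n x) := by
  obtain ⟨g, H, h0, h1⟩ := exists_g hd hM hS
  obtain ⟨K, hK⟩ := exists_K hd hM hP g H h0 h1
  have hgd : ∀ m (x : S (m + 1)), g m (d m x) = dP hM m (g (m + 1) x) := by
    intro m x
    apply Subtype.ext
    change (g m (d m x)).1 = d m (g (m + 1) x).1
    rw [← h1 m x, map_add, map_add, hd, add_zero]
    cases m with
    | zero => exact (h0 _).symm
    | succ m => rw [← h1 m (d (m + 1) x), hd, map_zero, add_zero]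
  obtain ⟨h, hh⟩ := hc (φ.comp (g (n + 1))) (fun x => by
    rw [LinearMap.comp_apply, hgd, hφ])
  refine ⟨h.comp (P n).subtype - φ.comp (K n), fun x => ?_⟩
  have e1 : g (n + 1) x.1 = x + K n (dP hM n x) + dP hM (n + 1) (K (n + 1) x) :=
    Subtype.ext (hK n x).symm
  have e2 := hh x.1
  rw [LinearMap.comp_apply, e1, map_add, map_add, hφ, add_zero] at e2
  rw [LinearMap.sub_apply, LinearMap.comp_apply, LinearMap.comp_apply]
  exact eq_sub_of_add_eq e2

end Vale.Agent.P246.T.A1x
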