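import Vale.Agent.P246.T.Spec2
import Vale.Agent.P246.Bdl.B2

/-! # P246, topological version, block A1: the algebraic part -/

namespace Vale.Agent.P246.T.A1

open CategoryTheory

section Alg

variable {R : Type} [Ring R]

/-! ### homotopies, elementwise -/

theorem htpy_zero {K L : ChainComplex (ModuleCat.{0} R) ℕ} {f g : K ⟶ L} (h : Homotopy f g)
    (x : K.X 0) :
    (f.f 0).hom x = (g.f 0).hom x + (L.d 1 0).hom ((h.hom 0 1).hom x) := by
  have h1 := h.comm 0
  rw [Homotopy.dNext_zero_chainComplex, Homotopy.prevD_chainComplex, zero_add] at h1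
  have h2 := LinearMap.congr_fun (congrArg ModuleCat.Hom.hom h1) x
  rw [h2]
  simp only [ModuleCat.hom_add, ModuleCat.hom_comp, LinearMap.add_apply, LinearMap.comp_apply]
  rw [add_comm]

theorem htpy_succ {K L : ChainComplex (ModuleCat.{0} R) ℕ} {f g : K ⟶ L} (h : Homotopy f g)
    (n : ℕ) (x : K.X (n + 1)) :
    (f.f (n + 1)).hom x = (g.f (n + 1)).hom x +
      (h.hom n (n + 1)).hom ((K.d (n + 1) n).hom x) +
      (L.d (n + 2) (n + 1)).hom ((h.hom (n + 1) (n + 2)).hom x) := by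
  have h1 := h.comm (n + 1)
  rw [Homotopy.dNext_succ_chainComplex, Homotopy.prevD_chainComplex] at h1
  have h2 := LinearMap.congr_fun (congrArg ModuleCat.Hom.hom h1) x
  rw [h2]
  simp only [ModuleCat.hom_add, ModuleCat.hom_comp, LinearMap.add_apply, LinearMap.comp_apply]
  abel

theorem comm_el {K L : ChainComplex (ModuleCat.{0} R) ℕ} (f : K ⟶ L) (n : ℕ)
    (x : K.X (n + 1)) :
    (L.d (n + 1) n).hom ((f.f (n + 1)).hom x) = (f.f n).hom ((K.d (n + 1) n).hom x) := by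
  have h := LinearMap.congr_fun (congrArg ModuleCat.Hom.hom (f.comm (n + 1) n)) x
  simpa only [ModuleCat.hom_comp, LinearMap.comp_apply] using h

theorem he_surj0 {K L : ChainComplex (ModuleCat.{0} R) ℕ} (e : HomotopyEquiv K L) (x : L.X 0) :
    ∃ v, ∃ y, x = (e.hom.f 0).hom v + (L.d 1 0).hom y := by
  have h := htpy_zero e.homotopyInvHomId x
  refine ⟨(e.inv.f 0).hom x, -((e.homotopyInvHomId.hom 0 1).hom x), ?_⟩
  rw [map_neg]
  have h1 : (e.hom.f 0).hom ((e.inv.f 0).hom x) = ((e.inv ≫ e.hom).f 0).hom x := rfl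
  rw [h1, h]
  change x = (x + _) + _
  abel

theorem he_inj0 {K L : ChainComplex (ModuleCat.{0} R) ℕ} (e : HomotopyEquiv K L) (v : K.X 0)
    (y : L.X 1) (h : (e.hom.f 0).hom v = (L.d 1 0).hom y) : ∃ u, (K.d 1 0).hom u = v := by
  have h0 := htpy_zero e.homotopyHomInvId v
  refine ⟨(e.inv.f 1).hom y - (e.homotopyHomInvId.hom 0 1).hom v, ?_⟩
  rw [map_sub, comm_el e.inv 0 y, ← h]
  have h1 : (e.inv.f 0).hom ((e.hom.f 0).hom v) = ((e.hom ≫ e.inv).f 0).hom v := rfl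
  rw [h1, h0]
  change (v + _) - _ = v
  abel

theorem he_surj {K L : ChainComplex (ModuleCat.{0} R) ℕ} (e : HomotopyEquiv K L) (n : ℕ)
    (x : L.X (n + 1)) (hx : (L.d (n + 1) n).hom x = 0) :
    ∃ v, (K.d (n + 1) n).hom v = 0 ∧
      ∃ y, x = (e.hom.f (n + 1)).hom v + (L.d (n + 2) (n + 1)).hom y := by
  have h := htpy_succ e.homotopyInvHomId n x
  refine ⟨(e.inv.f (n + 1)).hom x, ?_, -((e.homotopyInvHomId.hom (n + 1) (n + 2)).hom x), ?_⟩
  · rw [comm_el e.inv n x, hx, map_zero]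
  · rw [map_neg]
    have h1 : (e.hom.f (n + 1)).hom ((e.inv.f (n + 1)).hom x) =
      ((e.inv ≫ e.hom).f (n + 1)).hom x := rfl
    rw [h1, h, hx, map_zero, add_zero]
    change x = (x + _) + _
    abel

theorem he_inj {K L : ChainComplex (ModuleCat.{0} R) ℕ} (e : HomotopyEquiv K L) (n : ℕ)
    (v : K.X (n + 1)) (hv : (K.d (n + 1) n).hom v = 0) (y : L.X (n + 2))
    (h : (e.hom.f (n + 1)).hom v = (L.d (n + 2) (n + 1)).hom y) :
    ∃ u, (K.d (n + 2) (n + 1)).hom u = v := by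
  have h0 := htpy_succ e.homotopyHomInvId n v
  refine ⟨(e.inv.f (n + 2)).hom y - (e.homotopyHomInvId.hom (n + 1) (n + 2)).hom v, ?_⟩
  rw [map_sub, comm_el e.inv (n + 1) y, ← h]
  have h1 : (e.inv.f (n + 1)).hom ((e.hom.f (n + 1)).hom v) =
    ((e.hom ≫ e.inv).f (n + 1)).hom v := rfl
  rw [h1, h0, hv, map_zero, add_zero]
  change (v + _) - _ = v
  abel

variable {S : ℕ → Type} [∀ n, AddCommGroup (S n)] [∀ n, Module R (S n)]
  (d : ∀ n, S (n + 1) →ₗ[R] S n) (hdd : ∀ n x, d n (d (n + 1) x) = 0)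

/-- the chain complex with given modules and boundary maps -/
noncomputable def cx : ChainComplex (ModuleCat.{0} R) ℕ :=
  ChainComplex.of (fun n => ModuleCat.of R (S n)) (fun n => ModuleCat.ofHom (d n)) (by
    intro n
    apply ModuleCat.hom_ext
    apply LinearMap.ext
    intro x
    exact hdd n x)

theorem cx_d' (n : ℕ) : (cx d hdd).d (n + 1) n = ModuleCat.ofHom (d n) :=
  ChainComplex.of_d (fun n => ModuleCat.of R (S n)) (fun n => ModuleCat.ofHom (d n)) n

theorem cx_d (n : ℕ) (x : S (n + 1)) : ((cx d hdd).d (n + 1) n).hom x = d n x :=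
  LinearMap.congr_fun (congrArg ModuleCat.Hom.hom (cx_d' d hdd n)) x

variable {P : ∀ n, Submodule R (S n)}

/-- the restricted boundary map -/
noncomputable def dP (hP : ∀ n, ∀ x ∈ P (n + 1), d n x ∈ P n) (n : ℕ) : P (n + 1) →ₗ[R] P n :=
  (d n).restrict (hP n)

theorem dP_coe (hP : ∀ n, ∀ x ∈ P (n + 1), d n x ∈ P n) (n : ℕ) (x : P (n + 1)) :
    (dP d hP n x : S n) = d n x := rfl

/-- the subcomplex -/
noncomputable def sub (hP : ∀ n, ∀ x ∈ P (n + 1), d n x ∈ P n) :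
    ChainComplex (ModuleCat.{0} R) ℕ :=
  cx (S := fun n => P n) (dP d hP) (fun n x => Subtype.ext (hdd n (x : S (n + 2))))

theorem sub_d (hP : ∀ n, ∀ x ∈ P (n + 1), d n x ∈ P n) (n : ℕ) (x : P (n + 1)) :
    ((sub d hdd hP).d (n + 1) n).hom x = dP d hP n x :=
  cx_d (S := fun n => P n) (dP d hP) _ n x

/-- the inclusion -/
noncomputable def inc (hP : ∀ n, ∀ x ∈ P (n + 1), d n x ∈ P n) : sub d hdd hP ⟶ cx d hdd where
  f n := ModuleCat.ofHom (P n).subtype
  comm' := by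
    rintro i j hij
    obtain rfl : j + 1 = i := hij
    apply ModuleCat.hom_ext
    apply LinearMap.ext
    intro x
    exact (cx_d d hdd j (x : P (j + 1)).1).trans
      (congrArg (fun z : P j => (z : S j)) (sub_d d hdd hP j x)).symm

theorem inc_f (hP : ∀ n, ∀ x ∈ P (n + 1), d n x ∈ P n) (n : ℕ) (x : P n) :
    ((inc d hdd hP).f n).hom x = (x : S n) := rfl

theorem inc_quasiIso (h : IsModel S d (fun _ => ⊤) P) : QuasiIso (inc d hdd h.d_mem) := by
  apply chainComplex_quasiIso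
  · rintro x ⟨y, hy⟩
    obtain ⟨z, hz, hzx⟩ := h.inj 0 (x : P 0).1 (x : P 0).2 trivial
      ⟨y, Submodule.mem_top, (cx_d d hdd 0 y).symm.trans hy⟩
    refine ⟨(⟨z, hz⟩ : P 1), ?_⟩
    exact (sub_d d hdd h.d_mem 0 ⟨z, hz⟩).trans (Subtype.ext hzx)
  · intro y
    obtain ⟨x, hx, -, z, -, hz⟩ := h.surj 0 y Submodule.mem_top trivial
    exact ⟨(⟨x, hx⟩ : P 0), z, hz.trans (congrArg (fun w : S 0 => x + w)
      (cx_d d hdd 0 z).symm)⟩
  · rintro i x hx ⟨y, hy⟩
    have hx' : d i (x : P (i + 1)).1 = 0 :=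
      congrArg (fun w : P i => (w : S i)) ((sub_d d hdd h.d_mem i x).symm.trans hx)
    obtain ⟨z, hz, hzx⟩ := h.inj (i + 1) (x : P (i + 1)).1 (x : P (i + 1)).2 hx'
      ⟨y, Submodule.mem_top, (cx_d d hdd (i + 1) y).symm.trans hy⟩
    refine ⟨(⟨z, hz⟩ : P (i + 2)), ?_⟩
    exact (sub_d d hdd h.d_mem (i + 1) ⟨z, hz⟩).trans (Subtype.ext hzx)
  · intro i y hy
    obtain ⟨x, hx, hx0, z, -, hz⟩ := h.surj (i + 1) y Submodule.mem_top
      ((cx_d d hdd i y).symm.trans hy)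
    refine ⟨(⟨x, hx⟩ : P (i + 1)), ?_, z, ?_⟩
    · exact (sub_d d hdd h.d_mem i ⟨x, hx⟩).trans (Subtype.ext hx0)
    · exact hz.trans (congrArg (fun w : S (i + 1) => x + w) (cx_d d hdd (i + 1) z).symm)

theorem inc_equiv (h : IsModel S d (fun _ => ⊤) P) (hS : ∀ n, Module.Free R (S n))
    (hP : ∀ n, Module.Free R (P n)) :
    ∃ e : HomotopyEquiv (sub d hdd h.d_mem) (cx d hdd), e.hom = inc d hdd h.d_mem := by
  have hK : ∀ i, Projective ((sub d hdd h.d_mem).X i) := by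
    intro i
    have : Module.Free R ((sub d hdd h.d_mem).X i) := hP i
    exact projective_of_free' _
  have hL : ∀ i, Projective ((cx d hdd).X i) := by
    intro i
    have : Module.Free R ((cx d hdd).X i) := hS i
    exact projective_of_free' _
  exact (ChainComplex.quasiIso_iff_of_projective _).1 (inc_quasiIso d hdd h)

include hdd in
/-- the third cohomology of the model vanishes -/
theorem coh (h : IsModel S d (fun _ => ⊤) P) (hS : ∀ n, Module.Free R (S n))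
    (hP : ∀ n, Module.Free R (P n)) (M : Type) [AddCommGroup M] [Module R M]
    (H : ∀ f : S 3 →ₗ[R] M, (∀ x, f (d 3 x) = 0) → ∃ k : S 2 →ₗ[R] M, ∀ x, f x = k (d 2 x))
    (φ : P 3 →ₗ[R] M) (hφ : ∀ x, φ (dP d h.d_mem 3 x) = 0) :
    ∃ ψ : P 2 →ₗ[R] M, ∀ x, φ x = ψ (dP d h.d_mem 2 x) := by
  obtain ⟨e, he⟩ := inc_equiv d hdd h hS hP
  let J : ∀ n, S n →ₗ[R] P n := fun n => (e.inv.f n).hom
  have hJ : ∀ n x, dP d h.d_mem n (J (n + 1) x) = J n (d n x) := by
    intro n x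
    have h1 := comm_el e.inv n x
    exact (sub_d d hdd h.d_mem n _).symm.trans (h1.trans (congrArg (J n) (cx_d d hdd n x)))
  let D : ∀ n, P n →ₗ[R] P (n + 1) := fun n => (e.homotopyHomInvId.hom n (n + 1)).hom
  have hD : ∀ n (x : P (n + 1)), J (n + 1) (x : S (n + 1)) =
      x + D n (dP d h.d_mem n x) + dP d h.d_mem (n + 1) (D (n + 1) x) := by
    intro n x
    have h1 := htpy_succ e.homotopyHomInvId n x
    have h2 : ((e.hom ≫ e.inv).f (n + 1)).hom x = J (n + 1) (x : S (n + 1)) := by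
      rw [he]
      rfl
    rw [h2] at h1
    rw [h1]
    have h3 := sub_d d hdd h.d_mem n x
    have h4 := sub_d d hdd h.d_mem (n + 1) (D (n + 1) x)
    exact congrArg₂ (fun a b => x + a + b) (congrArg (D n) h3) h4
  obtain ⟨k, hk⟩ := H (φ ∘ₗ J 3) (by
    intro x
    rw [LinearMap.comp_apply, ← hJ, hφ])
  refine ⟨k ∘ₗ (P 2).subtype - φ ∘ₗ D 2, ?_⟩
  intro x
  have h1 := hk x
  rw [LinearMap.comp_apply, hD, map_add, map_add, hφ, add_zero] at h1
  rw [LinearMap.sub_apply, LinearMap.comp_apply, LinearMap.comp_apply]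
  change φ x = k (d 2 x) - _
  rw [← h1]
  abel

end Alg

end Vale.Agent.P246.T.A1
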