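import Vale.Agent.P246.T.PR
import Vale.Agent.P246.T.SD

/-! # Corollaries of the prism operator, bookkeeping for `RCyc`, `Null`, `HZero` -/

namespace Vale.Agent.P246.T.PR

open Topology Metric Set

variable {M N L : Type} [TopologicalSpace M] [TopologicalSpace N] [TopologicalSpace L]

theorem bd_bd (n : ℕ) (c : Ch (n + 2) M) : bd n (bd (n + 1) c) = 0 := SD.bd_bd n c

/-! ### `Con` -/

section Con

variable {A B C : Set M} {n : ℕ}

theorem single_mem {σ : C(Dl (n + 1), M)} (h : ∀ x, σ x ∈ A) (m : ℤ) :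
    Finsupp.single σ m ∈ Con A n := Finsupp.single_mem_supported _ _ h

theorem Con_mono (h : A ⊆ B) : Con A n ≤ Con B n :=
  Finsupp.supported_mono fun _ hσ x => h (hσ x)

theorem Con_univ (c : Ch n M) : c ∈ Con univ n := by
  rw [Con, Finsupp.mem_supported]
  exact fun _ _ _ => mem_univ _

theorem Con_univ' : (Con univ n : Submodule ℤ (Ch n M)) = ⊤ := eq_top_iff.2 fun c _ => Con_univ c

theorem Con_empty {c : Ch n M} (hc : c ∈ Con (∅ : Set M) n) : c = 0 := by
  rw [Con, Finsupp.mem_supported] at hc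
  rw [← Finsupp.support_eq_empty]
  refine Finset.eq_empty_of_forall_notMem fun σ hσ => ?_
  exact hc hσ (stdSimplex.vertex (0 : Fin (n + 1)))

theorem Con_ind {P : Ch n M → Prop} (h0 : P 0) (ha : ∀ a b, P a → P b → P (a + b))
    (hs : ∀ (m : ℤ) (σ : C(Dl (n + 1), M)), (∀ x, σ x ∈ A) → P (Finsupp.single σ m)) {c : Ch n M}
    (hc : c ∈ Con A n) : P c := by
  rw [Con, Finsupp.mem_supported] at hc
  rw [← Finsupp.sum_single c, Finsupp.sum]
  refine Finset.sum_induction _ P ha h0 fun σ hσ => hs _ _ (hc hσ)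

theorem bd_mem {c : Ch (n + 1) M} (hc : c ∈ Con A (n + 1)) : bd n c ∈ Con A n := by
  refine Con_ind (P := fun c => bd n c ∈ Con A n) ?_ ?_ ?_ hc
  · rw [map_zero]; exact Submodule.zero_mem _
  · intro a b ha hb; rw [map_add]; exact Submodule.add_mem _ ha hb
  · intro m σ h
    rw [bd_single]
    exact Submodule.sum_mem _ fun i _ => single_mem (fun x => h (face (n + 1) i x)) _

end Con

/-! ### Bookkeeping -/

section Book

variable {A A' B B' C : Set M} {n : ℕ} {c c' : Ch n M}

theorem rcyc_of_con (hc : c ∈ Con A n) : RCyc A n c := by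
  cases n with
  | zero => trivial
  | succ n => exact bd_mem hc

theorem rcyc_bd (b : Ch (n + 1) M) : RCyc A n (bd n b) := by
  cases n with
  | zero => trivial
  | succ n =>
    change bd n (bd (n + 1) b) ∈ Con A n
    rw [bd_bd]; exact Submodule.zero_mem _

theorem rcyc_add (h : RCyc A n c) (h' : RCyc A n c') : RCyc A n (c + c') := by
  cases n with
  | zero => trivial
  | succ n => change bd n (c + c') ∈ _; rw [map_add]; exact Submodule.add_mem _ h h'

theorem rcyc_smul (m : ℤ) (h : RCyc A n c) : RCyc A n (m • c) := by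
  cases n with
  | zero => trivial
  | succ n => change bd n (m • c) ∈ _; rw [map_smul]; exact Submodule.smul_mem _ _ h

theorem rcyc_neg (h : RCyc A n c) : RCyc A n (-c) := by
  cases n with
  | zero => trivial
  | succ n => change bd n (-c) ∈ _; rw [map_neg]; exact Submodule.neg_mem _ h

theorem rcyc_sub (h : RCyc A n c) (h' : RCyc A n c') : RCyc A n (c - c') := by
  rw [sub_eq_add_neg]; exact rcyc_add h (rcyc_neg h')

theorem rcyc_zero : RCyc A n (0 : Ch n M) := rcyc_of_con (Submodule.zero_mem _)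

theorem rcyc_mono (h : A ⊆ A') (hc : RCyc A n c) : RCyc A' n c := by
  cases n with
  | zero => trivial
  | succ n => exact Con_mono h hc

theorem rcyc_empty : RCyc (∅ : Set M) n c ↔ Cyc n c := by
  cases n with
  | zero => exact Iff.rfl
  | succ n => exact ⟨fun h => Con_empty h, fun h => by
      change bd n c ∈ _; rw [show bd n c = 0 from h]; exact Submodule.zero_mem _⟩

theorem cyc_rcyc (h : Cyc n c) : RCyc A n c := rcyc_mono (empty_subset _) (rcyc_empty.2 h)

theorem null_zero : Null B A n (0 : Ch n M) :=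
  ⟨0, Submodule.zero_mem _, by rw [map_zero, sub_zero]; exact Submodule.zero_mem _⟩

theorem null_add (h : Null B A n c) (h' : Null B A n c') : Null B A n (c + c') := by
  obtain ⟨b, hb, h⟩ := h
  obtain ⟨b', hb', h'⟩ := h'
  refine ⟨b + b', Submodule.add_mem _ hb hb', ?_⟩
  rw [map_add, add_sub_add_comm]
  exact Submodule.add_mem _ h h'

theorem null_smul (m : ℤ) (h : Null B A n c) : Null B A n (m • c) := by
  obtain ⟨b, hb, h⟩ := h
  refine ⟨m • b, Submodule.smul_mem _ _ hb, ?_⟩
  rw [map_smul, ← smul_sub]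
  exact Submodule.smul_mem _ _ h

theorem null_neg (h : Null B A n c) : Null B A n (-c) := by
  rw [← neg_one_smul ℤ]; exact null_smul _ h

theorem null_sub (h : Null B A n c) (h' : Null B A n c') : Null B A n (c - c') := by
  rw [sub_eq_add_neg]; exact null_add h (null_neg h')

theorem null_of_con (h : c ∈ Con A n) : Null B A n c :=
  ⟨0, Submodule.zero_mem _, by rwa [map_zero, sub_zero]⟩

theorem null_bd {b : Ch (n + 1) M} (h : b ∈ Con B (n + 1)) : Null B A n (bd n b) :=
  ⟨b, h, by rw [sub_self]; exact Submodule.zero_mem _⟩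

theorem null_mono (hB : B ⊆ B') (hA : A ⊆ A') (h : Null B A n c) : Null B' A' n c := by
  obtain ⟨b, hb, h⟩ := h
  exact ⟨b, Con_mono hB hb, Con_mono hA h⟩

theorem null_rcyc (h : Null B A n c) : RCyc A n c := by
  obtain ⟨b, hb, h⟩ := h
  have := rcyc_add (rcyc_of_con h) (rcyc_bd (A := A) b)
  rwa [sub_add_cancel] at this

theorem null_con (hAB : A ⊆ B) (h : Null B A n c) : c ∈ Con B n := by
  obtain ⟨b, hb, h⟩ := h
  have := Submodule.add_mem _ (Con_mono hAB h) (bd_mem hb)
  rwa [sub_add_cancel] at this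

/-- two chains which differ by a null chain are null at the same time -/
theorem null_iff (h : Null B A n (c - c')) : Null B A n c ↔ Null B A n c' := by
  constructor
  · intro h1
    have := null_sub h1 h
    rwa [sub_sub_cancel] at this
  · intro h1
    have := null_add h h1
    rwa [sub_add_cancel] at this

theorem null_push {f : C(M, N)} {D E : Set N} (hB : ∀ x ∈ B, f x ∈ D) (hA : ∀ x ∈ A, f x ∈ E)
    (h : Null B A n c) : Null D E n (push f n c) := by
  obtain ⟨b, hb, h⟩ := h
  refine ⟨push f (n + 1) b, push_mem hB hb, ?_⟩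
  rw [push_bd, ← map_sub]
  exact push_mem hA h

theorem rcyc_push {f : C(M, N)} {E : Set N} (hA : ∀ x ∈ A, f x ∈ E) (h : RCyc A n c) :
    RCyc E n (push f n c) := by
  cases n with
  | zero => trivial
  | succ n => change bd n (push f (n + 1) c) ∈ _; rw [push_bd]; exact push_mem hA h

/-- the exact sequence of a triple, middle -/
theorem hzero_mid (hCA : C ⊆ A) (hAB : A ⊆ B) (h1 : HZero A C n) (h2 : HZero B A n) :
    HZero B C n := by
  intro c hc hr
  obtain ⟨b, hb, hcb⟩ := h2 c hc (rcyc_mono hCA hr)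
  have := h1 _ hcb (rcyc_sub hr (rcyc_bd b))
  have h3 := null_add (null_mono hAB Subset.rfl this) (null_bd hb)
  rwa [sub_add_cancel] at h3

/-- the exact sequence of a triple, `H(B, C) = 0` and `H(A, C) = 0` in the degree below -/
theorem hzero_right (hCA : C ⊆ A) (hAB : A ⊆ B) (h1 : HZero B C (n + 1)) (h2 : HZero A C n) :
    HZero B A (n + 1) := by
  intro c hc hr
  obtain ⟨a, ha, h3⟩ := h2 (bd n c) hr (rcyc_bd c)
  have h4 := h1 (c - a) (Submodule.sub_mem _ hc (Con_mono hAB ha)) (by
    change bd n (c - a) ∈ _; rw [map_sub]; exact h3)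
  have h5 := null_add (null_mono Subset.rfl hCA h4) (null_of_con (B := B) ha)
  rwa [sub_add_cancel] at h5

theorem hzero_right_zero (hCA : C ⊆ A) (h1 : HZero B C 0) : HZero B A 0 :=
  fun c hc _ => null_mono Subset.rfl hCA (h1 c hc trivial)

/-- the exact sequence of a triple, `H(B, A) = 0` in the degree above and `H(B, C) = 0` -/
theorem hzero_left (hCA : C ⊆ A) (hAB : A ⊆ B) (h1 : HZero B A (n + 1)) (h2 : HZero B C n) :
    HZero A C n := by
  intro c hc hr
  obtain ⟨b, hb, h3⟩ := h2 c (Con_mono hAB hc) hr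
  obtain ⟨e, he, h4⟩ := h1 b hb (by
    change bd n b ∈ _
    have := Submodule.sub_mem _ hc (Con_mono hCA h3)
    rwa [sub_sub_cancel] at this)
  refine ⟨b - bd (n + 1) e, h4, ?_⟩
  rw [map_sub, bd_bd, sub_zero]
  exact h3

/-- `H(A, A) = 0` -/
theorem hzero_self : HZero A A n := fun _ hc _ => null_of_con hc

end Book

/-! ### Chains of a subspace -/

section Sub

/-- the inclusion of a subset -/
def inc (B : Set M) : C(B, M) := ⟨Subtype.val, continuous_subtype_val⟩

variable {B A : Set M} {n : ℕ}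

theorem inc_apply (x : B) : inc B x = x := rfl

theorem inc_comp_inj {k : ℕ} {σ τ : C(Dl k, B)} (h : (inc B).comp σ = (inc B).comp τ) :
    σ = τ := by
  ext x
  exact congrArg (fun f : C(Dl k, M) => f x) h

theorem push_injective {f : C(M, N)} (hf : Function.Injective f) (n : ℕ) :
    Function.Injective (push f n) := by
  refine Finsupp.mapDomain_injective fun σ τ h => ?_
  ext x
  exact hf (congrArg (fun g : C(Dl (n + 1), N) => g x) h)

theorem push_inc_injective (n : ℕ) : Function.Injective (push (inc B) n) :=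
  push_injective Subtype.val_injective n

theorem push_inc_mem (c : Ch n B) : push (inc B) n c ∈ Con B n :=
  push_mem (A := univ) (fun x _ => x.2) (Con_univ c)

theorem exists_push_inc {c : Ch n M} (hc : c ∈ Con B n) : ∃ c' : Ch n B, push (inc B) n c' = c := by
  refine Con_ind (P := fun c => ∃ c' : Ch n B, push (inc B) n c' = c) ⟨0, map_zero _⟩ ?_ ?_ hc
  · rintro a b ⟨a', rfl⟩ ⟨b', rfl⟩
    exact ⟨a' + b', map_add _ _ _⟩
  · intro m σ h
    refine ⟨Finsupp.single ⟨fun x => ⟨σ x, h x⟩, Continuous.subtype_mk σ.continuous _⟩ m, ?_⟩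
    rw [push_single]
    rfl

theorem push_mem_iff {f : C(M, N)} (hf : Function.Injective f) {D : Set N} {c : Ch n M} :
    push f n c ∈ Con D n ↔ c ∈ Con (f ⁻¹' D) n := by
  constructor
  · intro h
    rw [Con, Finsupp.mem_supported] at h ⊢
    intro σ hσ x
    have h1 : f.comp σ ∈ (push f n c).support := by
      rw [Finsupp.mem_support_iff]
      have h2 : (push f n c) (f.comp σ) = c σ := by
        change (Finsupp.mapDomain (fun σ : C(Dl (n + 1), M) => f.comp σ) c) (f.comp σ) = c σ
        refine Finsupp.mapDomain_apply (fun σ τ h => ?_) _ _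
        ext x
        exact hf (congrArg (fun g : C(Dl (n + 1), N) => g x) h)
      rw [h2]
      exact Finsupp.mem_support_iff.1 hσ
    exact h h1 x
  · exact fun h => push_mem (fun x hx => hx) h

theorem push_inc_mem_iff {c : Ch n B} :
    push (inc B) n c ∈ Con A n ↔ c ∈ Con (Subtype.val ⁻¹' A) n :=
  push_mem_iff (f := inc B) Subtype.val_injective

theorem rcyc_inc_iff {c : Ch n B} :
    RCyc A n (push (inc B) n c) ↔ RCyc (Subtype.val ⁻¹' A : Set B) n c := by
  cases n with
  | zero => exact Iff.rfl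
  | succ n =>
    change bd n _ ∈ _ ↔ bd n _ ∈ _
    rw [push_bd, push_inc_mem_iff]

theorem null_inc_iff {c : Ch n B} :
    Null B A n (push (inc B) n c) ↔ Null univ (Subtype.val ⁻¹' A : Set B) n c := by
  constructor
  · rintro ⟨b, hb, h⟩
    obtain ⟨b', rfl⟩ := exists_push_inc hb
    refine ⟨b', Con_univ _, ?_⟩
    rw [push_bd, ← map_sub, push_inc_mem_iff] at h
    exact h
  · rintro ⟨b, _, h⟩
    refine ⟨push (inc B) (n + 1) b, push_inc_mem b, ?_⟩
    rw [push_bd, ← map_sub, push_inc_mem_iff]
    exact h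

/-- relative homology of a pair of subsets is that of the subspace -/
theorem hzero_inc_iff : HZero B A n ↔ HZero univ (Subtype.val ⁻¹' A : Set B) n := by
  constructor
  · intro h c _ hr
    exact null_inc_iff.1 (h _ (push_inc_mem c) (rcyc_inc_iff.2 hr))
  · intro h c hc hr
    obtain ⟨c', rfl⟩ := exists_push_inc hc
    exact null_inc_iff.2 (h c' (Con_univ _) (rcyc_inc_iff.1 hr))

end Sub

/-! ### The chain homotopy of a homotopy of maps -/

section Htpy

/-- the map `id × f` -/
def pI (f : C(M, N)) : C(I × M, I × N) := ⟨fun q => (q.1, f q.2), by fun_prop⟩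

/-- the map at time `t` -/
def at' (H : C(I × M, N)) (t : I) : C(M, N) := ⟨fun x => H (t, x), by fun_prop⟩

theorem at'_apply (H : C(I × M, N)) (t : I) (x : M) : at' H t x = H (t, x) := rfl

/-- the chain homotopy of a homotopy -/
noncomputable def hD (H : C(I × M, N)) (n : ℕ) : Ch n M →ₗ[ℤ] Ch (n + 1) N :=
  Finsupp.linearCombination ℤ fun σ : C(Dl (n + 1), M) => pc (n + 1) (H.comp (pI σ))

variable (H : C(I × M, N)) {n : ℕ} {A : Set M} {A' : Set N}

theorem hD_single (σ : C(Dl (n + 1), M)) (m : ℤ) :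
    hD H n (Finsupp.single σ m) = m • pc (n + 1) (H.comp (pI σ)) := by
  rw [hD, Finsupp.linearCombination_single]

theorem bd_hD_zero (c : Ch 0 M) :
    bd 0 (hD H 0 c) = push (at' H 1) 0 c - push (at' H 0) 0 c := by
  induction c using Finsupp.induction_linear with
  | zero => simp only [map_zero, sub_zero]
  | add a b ha hb => simp only [map_add, ha, hb]; abel
  | single σ m =>
    rw [hD_single, map_smul, bd_pc, push_single, push_single]
    simp only [pc, Finset.univ_eq_empty, Finset.sum_empty, smul_zero, Finset.sum_const_zero,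
      sub_zero, smul_sub, Finsupp.smul_single, smul_eq_mul, mul_one]
    rfl

theorem bd_hD (c : Ch (n + 1) M) : bd (n + 1) (hD H (n + 1) c) =
    push (at' H 1) (n + 1) c - push (at' H 0) (n + 1) c - hD H n (bd n c) := by
  induction c using Finsupp.induction_linear with
  | zero => simp only [map_zero, sub_zero]
  | add a b ha hb => simp only [map_add, ha, hb]; abel
  | single σ m =>
    rw [hD_single, map_smul, bd_pc, push_single, push_single, bd_single, map_sum]
    simp only [hD_single]
    rw [smul_sub, smul_sub, Finset.smul_sum]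
    simp only [Finsupp.smul_single, smul_eq_mul, mul_one, smul_smul]
    rfl

theorem hD_mem (h : ∀ t, ∀ x ∈ A, H (t, x) ∈ A') {c : Ch n M} (hc : c ∈ Con A n) :
    hD H n c ∈ Con A' (n + 1) := by
  refine Con_ind (P := fun c => hD H n c ∈ Con A' (n + 1)) ?_ ?_ ?_ hc
  · rw [map_zero]; exact Submodule.zero_mem _
  · intro a b ha hb; rw [map_add]; exact Submodule.add_mem _ ha hb
  · intro m σ hσ
    rw [hD_single]
    exact Submodule.smul_mem _ _ (pc_mem _ _ fun t x => h t _ (hσ x))

theorem push_hD (f : C(N, L)) (c : Ch n M) : push f (n + 1) (hD H n c) = hD (f.comp H) n c := by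
  induction c using Finsupp.induction_linear with
  | zero => simp only [map_zero]
  | add a b ha hb => simp only [map_add, ha, hb]
  | single σ m =>
    rw [hD_single, hD_single, map_smul, push_pc, ContinuousMap.comp_assoc]

theorem hD_push (f : C(L, M)) (c : Ch n L) : hD H n (push f n c) = hD (H.comp (pI f)) n c := by
  induction c using Finsupp.induction_linear with
  | zero => simp only [map_zero]
  | add a b ha hb => simp only [map_add, ha, hb]
  | single σ m =>
    rw [push_single, hD_single, hD_single]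
    rfl

variable {H} {B : Set M} {B' : Set N}

/-- homotopic maps of pairs agree on relative homology -/
theorem null_htpy (hB : ∀ t, ∀ x ∈ B, H (t, x) ∈ B') (hA : ∀ t, ∀ x ∈ A, H (t, x) ∈ A')
    {c : Ch n M} (hc : c ∈ Con B n) (hr : RCyc A n c) :
    Null B' A' n (push (at' H 1) n c - push (at' H 0) n c) := by
  refine ⟨hD H n c, hD_mem H hB hc, ?_⟩
  cases n with
  | zero => rw [bd_hD_zero, sub_self]; exact Submodule.zero_mem _
  | succ n =>
    rw [bd_hD, sub_sub_cancel]
    exact hD_mem H hA hr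

/-- a homotopy from the identity which pushes `B` into `A` and preserves `A` -/
theorem hzero_of_htpy {H : C(I × M, M)} (h0 : ∀ x, H (0, x) = x)
    (hB : ∀ t, ∀ x ∈ B, H (t, x) ∈ B) (hA : ∀ t, ∀ x ∈ A, H (t, x) ∈ A)
    (h1 : ∀ x ∈ B, H (1, x) ∈ A) (n : ℕ) : HZero B A n := by
  intro c hc hr
  have h2 := null_htpy hB hA hc hr
  have h3 : at' H 0 = ContinuousMap.id M := by ext x; exact h0 x
  rw [h3, push_id] at h2
  have h4 : Null B A n (push (at' H 1) n c) := null_of_con (push_mem h1 hc)
  have h5 := null_sub h4 h2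
  rwa [sub_sub_cancel] at h5

/-- the same for a homotopy which is defined on `B` only -/
theorem hzero_of_htpy_sub {A B : Set M} {ρ : C(I × B, B)} (h0 : ∀ x, ρ (0, x) = x)
    (hA : ∀ t (x : B), (x : M) ∈ A → (ρ (t, x) : M) ∈ A) (h1 : ∀ x, (ρ (1, x) : M) ∈ A) (n : ℕ) :
    HZero B A n :=
  hzero_inc_iff.2 (hzero_of_htpy h0 (fun _ _ _ => mem_univ _) (fun t x hx => hA t x hx)
    (fun x _ => h1 x) n)

end Htpy

/-! ### Degree zero, contractible spaces -/

section Wt

/-- the sum of the coefficients -/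
noncomputable def wt (n : ℕ) : Ch n M →ₗ[ℤ] ℤ := Finsupp.linearCombination ℤ fun _ => (1 : ℤ)

theorem wt_single (n : ℕ) (σ : C(Dl (n + 1), M)) (m : ℤ) : wt n (Finsupp.single σ m) = m := by
  rw [wt, Finsupp.linearCombination_single, smul_eq_mul, mul_one]

theorem wt_push (f : C(M, N)) (n : ℕ) (c : Ch n M) : wt n (push f n c) = wt n c := by
  induction c using Finsupp.induction_linear with
  | zero => simp only [map_zero]
  | add a b ha hb => simp only [map_add, ha, hb]
  | single σ m => rw [push_single, wt_single, wt_single]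

/-- `1` if `n` is even, `0` if `n` is odd: the alternating sum of `n + 1` ones -/
theorem alt_sum (n : ℕ) :
    ∑ i : Fin (n + 1), (-1 : ℤ) ^ (i : ℕ) = if Even n then 1 else 0 := by
  rw [Fin.sum_univ_eq_sum_range (fun i => (-1 : ℤ) ^ i)]
  induction n with
  | zero => simp
  | succ n ih =>
    rw [Finset.sum_range_succ, ih]
    rcases Nat.even_or_odd n with h | h
    · rw [if_pos h, if_neg (Nat.not_even_iff_odd.2 h.add_one), h.add_one.neg_one_pow]; norm_num
    · rw [if_neg (Nat.not_even_iff_odd.2 h), if_pos h.add_one, h.add_one.neg_one_pow]; norm_num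

theorem wt_bd (n : ℕ) (c : Ch (n + 1) M) :
    wt n (bd n c) = (if Even n then 0 else 1) * wt (n + 1) c := by
  induction c using Finsupp.induction_linear with
  | zero => simp only [map_zero, mul_zero]
  | add a b ha hb => simp only [map_add, ha, hb, mul_add]
  | single σ m =>
    rw [bd_single, map_sum, wt_single]
    simp only [wt_single]
    rw [← Finset.mul_sum, alt_sum, mul_comm]
    congr 1
    rcases Nat.even_or_odd n with h | h
    · rw [if_neg (Nat.not_even_iff_odd.2 h.add_one), if_pos h]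
    · rw [if_pos h.add_one, if_neg (Nat.not_even_iff_odd.2 h)]

theorem wt_bd_zero (c : Ch 1 M) : wt 0 (bd 0 c) = 0 := by
  rw [wt_bd]; simp

theorem bd_ksx (n : ℕ) (x : M) : bd n (ksx (n + 1) x) = (if Even n then 0 else 1) • ksx n x := by
  rw [ksx, bd_single, ksx]
  have h : ∀ i : Fin (n + 2), (Finsupp.single ((ContinuousMap.const (Dl (n + 2)) x).comp
      (face (n + 1) i)) (1 * (-1 : ℤ) ^ (i : ℕ)) : Ch n M) =
      (-1 : ℤ) ^ (i : ℕ) • Finsupp.single (ContinuousMap.const (Dl (n + 1)) x) (1 : ℤ) := by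
    intro i
    rw [Finsupp.smul_single, smul_eq_mul, mul_one, one_mul]
    rfl
  rw [Finset.sum_congr rfl fun i _ => h i, ← Finset.sum_smul, alt_sum]
  rcases Nat.even_or_odd n with h | h
  · rw [if_neg (Nat.not_even_iff_odd.2 h.add_one), if_pos h, zero_smul, zero_smul]
  · rw [if_pos h.add_one, if_neg (Nat.not_even_iff_odd.2 h), one_smul, one_smul]

theorem push_const (x : N) (n : ℕ) (c : Ch n M) :
    push (ContinuousMap.const M x) n c = wt n c • ksx n x := by
  induction c using Finsupp.induction_linear with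
  | zero => simp only [map_zero, zero_smul]
  | add a b ha hb => simp only [map_add, ha, hb, add_smul]
  | single σ m =>
    rw [push_single, wt_single, ksx, Finsupp.smul_single, smul_eq_mul, mul_one]
    rfl

/-- the reduced homology of `B` vanishes -/
structure Acyc (B : Set M) : Prop where
  succ : ∀ n, ∀ c ∈ Con B (n + 1), bd n c = 0 → ∃ b ∈ Con B (n + 2), bd (n + 1) b = c
  zero : ∀ c ∈ Con B 0, wt 0 c = 0 → ∃ b ∈ Con B 1, bd 0 b = c

theorem acyc_inc_iff {B : Set M} : Acyc B ↔ Acyc (univ : Set B) := by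
  constructor
  · intro h
    refine ⟨fun n c _ hc => ?_, fun c _ hc => ?_⟩
    · obtain ⟨b, hb, h1⟩ := h.succ n _ (push_inc_mem c) (by rw [push_bd, hc, map_zero])
      obtain ⟨b', rfl⟩ := exists_push_inc hb
      rw [push_bd] at h1
      exact ⟨b', Con_univ _, push_inc_injective _ h1⟩
    · obtain ⟨b, hb, h1⟩ := h.zero _ (push_inc_mem c) (by rw [wt_push, hc])
      obtain ⟨b', rfl⟩ := exists_push_inc hb
      rw [push_bd] at h1
      exact ⟨b', Con_univ _, push_inc_injective _ h1⟩
  · intro h
    refine ⟨fun n c hB hc => ?_, fun c hB hc => ?_⟩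
    · obtain ⟨c', rfl⟩ := exists_push_inc hB
      rw [push_bd] at hc
      obtain ⟨b, hb, h1⟩ := h.succ n c' (Con_univ _) (push_inc_injective _ (by rw [hc, map_zero]))
      exact ⟨_, push_inc_mem b, by rw [push_bd, h1]⟩
    · obtain ⟨c', rfl⟩ := exists_push_inc hB
      rw [wt_push] at hc
      obtain ⟨b, hb, h1⟩ := h.zero c' (Con_univ _) hc
      exact ⟨_, push_inc_mem b, by rw [push_bd, h1]⟩

/-- a space which contracts to a point is acyclic -/
theorem acyc_of_htpy {x : M} {H : C(I × M, M)} (h0 : ∀ y, H (0, y) = y) (h1 : ∀ y, H (1, y) = x) :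
    Acyc (univ : Set M) := by
  have e0 : at' H 0 = ContinuousMap.id M := by ext y; exact h0 y
  have e1 : at' H 1 = ContinuousMap.const M x := by ext y; exact h1 y
  constructor
  · intro n c _ hc
    have h2 := bd_hD H c
    rw [e0, e1, push_id, hc, map_zero, sub_zero, push_const] at h2
    have h3 := wt_bd n c
    rw [hc, map_zero] at h3
    rcases Nat.even_or_odd n with h | h
    · refine ⟨wt (n + 1) c • ksx (n + 2) x - hD H (n + 1) c, Con_univ _, ?_⟩
      rw [map_sub, h2, map_smul, bd_ksx, if_neg (Nat.not_even_iff_odd.2 h.add_one), one_smul]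
      abel
    · rw [if_neg (Nat.not_even_iff_odd.2 h), one_mul] at h3
      refine ⟨-hD H (n + 1) c, Con_univ _, ?_⟩
      rw [map_neg, h2, ← h3, zero_smul]
      abel
  · intro c _ hc
    refine ⟨-hD H 0 c, Con_univ _, ?_⟩
    rw [map_neg, bd_hD_zero, e0, e1, push_id, push_const, hc, zero_smul]
    abel

theorem acyc_contractible [ContractibleSpace M] : Acyc (univ : Set M) := by
  obtain ⟨x, ⟨F⟩⟩ := id_nullhomotopic M
  exact acyc_of_htpy (x := x) (H := F.toContinuousMap) (fun y => F.apply_zero y)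
    (fun y => F.apply_one y)

theorem acyc_contractible_sub {B : Set M} [ContractibleSpace B] : Acyc B :=
  acyc_inc_iff.2 acyc_contractible

theorem acyc_convex {V : Type} [AddCommGroup V] [Module ℝ V] [TopologicalSpace V]
    [ContinuousAdd V] [ContinuousSMul ℝ V] {B : Set V} (hB : Convex ℝ B) (hne : B.Nonempty) :
    Acyc B := by
  have := hB.contractibleSpace hne
  exact acyc_contractible_sub

/-- absolute cycles of positive degree bound, in a contractible space -/
theorem exists_bd [ContractibleSpace M] (n : ℕ) (c : Ch (n + 1) M) (hc : bd n c = 0) :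
    ∃ b : Ch (n + 2) M, bd (n + 1) b = c := by
  obtain ⟨b, -, h⟩ := acyc_contractible.succ n c (Con_univ _) hc
  exact ⟨b, h⟩

/-- a path as a singular simplex -/
noncomputable def pathSimplex {x y : M} (γ : Path x y) : C(Dl 2, M) :=
  ⟨fun t => γ ⟨t 1, t.2.1 1, by
    have := t.2.2
    rw [Fin.sum_univ_two] at this
    have h0 := t.2.1 0
    change t.1 1 ≤ 1
    linarith⟩, γ.continuous.comp (Continuous.subtype_mk
      ((continuous_apply (1 : Fin 2)).comp continuous_subtype_val) _)⟩

theorem bd_pathSimplex {x y : M} (γ : Path x y) :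
    bd 0 (Finsupp.single (pathSimplex γ) 1) = ksx 0 y - ksx 0 x := by
  have key : ∀ (i : Fin 2) (z : M), (∀ u : Dl 1, pathSimplex γ (face 1 i u) = z) →
      (pathSimplex γ).comp (face 1 i) = ContinuousMap.const _ z := fun i z h =>
    ContinuousMap.ext h
  have hu : ∀ u : Dl 1, u 0 = 1 := fun u => by
    have := u.2.2
    rwa [Fin.sum_univ_one] at this
  have h0 : (pathSimplex γ).comp (face 1 0) = ContinuousMap.const _ y := by
    refine key 0 y fun u => ?_
    have : (⟨(face 1 0 u) 1, (face 1 0 u).2.1 1, by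
        have := (face 1 0 u).2.2
        rw [Fin.sum_univ_two] at this
        have h0 := (face 1 0 u).2.1 0
        change (face 1 0 u).1 1 ≤ 1
        linarith⟩ : I) = 1 := by
      apply Subtype.ext
      change (stdSimplex.map (S := ℝ) (Fin.succAbove 0) u) 1 = 1
      rw [stdSimplex.map_coe, FunOnFinite.linearMap_apply_apply]
      have : (Finset.univ.filter fun i : Fin 1 => (0 : Fin 2).succAbove i = 1) = {0} := by decide
      rw [this, Finset.sum_singleton]
      exact hu u
    change γ _ = y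
    rw [this, γ.target]
  have h1 : (pathSimplex γ).comp (face 1 1) = ContinuousMap.const _ x := by
    refine key 1 x fun u => ?_
    have : (⟨(face 1 1 u) 1, (face 1 1 u).2.1 1, by
        have := (face 1 1 u).2.2
        rw [Fin.sum_univ_two] at this
        have h0 := (face 1 1 u).2.1 0
        change (face 1 1 u).1 1 ≤ 1
        linarith⟩ : I) = 0 := by
      apply Subtype.ext
      change (stdSimplex.map (S := ℝ) (Fin.succAbove 1) u) 1 = 0
      rw [stdSimplex.map_coe, FunOnFinite.linearMap_apply_apply]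
      have : (Finset.univ.filter fun i : Fin 1 => (1 : Fin 2).succAbove i = 1) = ∅ := by decide
      rw [this, Finset.sum_empty]
    change γ _ = x
    rw [this, γ.source]
  rw [bd_single, Fin.sum_univ_two, h0, h1, ksx, ksx]
  simp [sub_eq_add_neg]

/-- a `0`-chain is a combination of points -/
theorem ch0 (σ : C(Dl 1, M)) : ∃ x, σ = ContinuousMap.const _ x := by
  refine ⟨σ (stdSimplex.vertex 0), ContinuousMap.ext fun u => ?_⟩
  have : u = stdSimplex.vertex 0 := Subsingleton.elim _ _
  rw [this]
  rfl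

theorem zero_chain [PathConnectedSpace M] (x : M) (c : Ch 0 M) :
    ∃ b : Ch 1 M, bd 0 b = c - wt 0 c • ksx 0 x := by
  induction c using Finsupp.induction_linear with
  | zero => exact ⟨0, by simp⟩
  | add a b ha hb =>
    obtain ⟨a', ha⟩ := ha
    obtain ⟨b', hb⟩ := hb
    exact ⟨a' + b', by rw [map_add, ha, hb, map_add, add_smul]; abel⟩
  | single σ m =>
    obtain ⟨y, rfl⟩ := ch0 σ
    obtain ⟨γ⟩ := PathConnectedSpace.joined x y
    refine ⟨m • Finsupp.single (pathSimplex γ) 1, ?_⟩
    rw [map_smul, bd_pathSimplex, wt_single, smul_sub, ksx, ksx, Finsupp.smul_single, smul_eq_mul,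
      mul_one]

/-- degree zero, path connected space -/
theorem exists_bd_zero [PathConnectedSpace M] (c : Ch 0 M) (hc : wt 0 c = 0) :
    ∃ b : Ch 1 M, bd 0 b = c := by
  obtain ⟨x⟩ := (inferInstance : Nonempty M)
  obtain ⟨b, hb⟩ := zero_chain x c
  exact ⟨b, by rw [hb, hc, zero_smul, sub_zero]⟩

theorem hzero_zero {A B : Set M} (hB : IsPathConnected B) {x : M} (hx : x ∈ A) (hAB : A ⊆ B) :
    HZero B A 0 := by
  intro c hc _
  have := isPathConnected_iff_pathConnectedSpace.1 hB
  obtain ⟨c', rfl⟩ := exists_push_inc hc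
  obtain ⟨b, hb⟩ := zero_chain (⟨x, hAB hx⟩ : B) c'
  refine ⟨push (inc B) 1 b, push_inc_mem b, ?_⟩
  rw [push_bd, ← map_sub, hb, sub_sub_cancel, map_smul]
  refine Submodule.smul_mem _ _ ?_
  rw [ksx, push_single]
  exact single_mem (fun _ => hx) 1

variable {A B : Set M}

theorem hzero_of_acyc (hA : Acyc A) (hB : Acyc B) (hAB : A ⊆ B) (hne : A.Nonempty) :
    ∀ n, HZero B A n := by
  obtain ⟨x, hx⟩ := hne
  have hk : ∀ n, ksx n x ∈ Con A n := fun n => single_mem (fun _ => hx) 1
  intro n c hc hr
  rcases n with _ | n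
  · obtain ⟨b, hb, h1⟩ := hB.zero (c - wt 0 c • ksx 0 x)
      (Submodule.sub_mem _ hc (Submodule.smul_mem _ _ (Con_mono hAB (hk 0)))) (by
        rw [map_sub, map_smul, ksx, wt_single, smul_eq_mul, mul_one, sub_self])
    refine ⟨b, hb, ?_⟩
    rw [h1, sub_sub_cancel]
    exact Submodule.smul_mem _ _ (hk 0)
  · obtain ⟨a, ha, h1⟩ : ∃ a ∈ Con A (n + 1), bd n a = bd n c := by
      rcases n with _ | n
      · exact hA.zero _ hr (wt_bd_zero c)
      · exact hA.succ _ _ hr (bd_bd _ c)
    obtain ⟨b, hb, h2⟩ := hB.succ n (c - a) (Submodule.sub_mem _ hc (Con_mono hAB ha)) (by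
      rw [map_sub, h1, sub_self])
    refine ⟨b, hb, ?_⟩
    rw [h2, sub_sub_cancel]
    exact ha

theorem acyc_of_hzero (hA : Acyc A) (h : ∀ n, HZero B A n) (hAB : A ⊆ B) : Acyc B := by
  constructor
  · intro n c hc h0
    obtain ⟨b, hb, h1⟩ := h (n + 1) c hc (by change bd n c ∈ _; rw [h0]; exact Submodule.zero_mem _)
    obtain ⟨a, ha, h2⟩ := hA.succ n _ h1 (by rw [map_sub, h0, bd_bd, sub_zero])
    exact ⟨a + b, Submodule.add_mem _ (Con_mono hAB ha) hb, by rw [map_add, h2, sub_add_cancel]⟩
  · intro c hc h0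
    obtain ⟨b, hb, h1⟩ := h 0 c hc trivial
    obtain ⟨a, ha, h2⟩ := hA.zero _ h1 (by rw [map_sub, h0, wt_bd_zero, sub_zero])
    exact ⟨a + b, Submodule.add_mem _ (Con_mono hAB ha) hb, by rw [map_add, h2, sub_add_cancel]⟩

theorem acyc_of_hzero_left (hB : Acyc B) (h : ∀ n, HZero B A n) (hAB : A ⊆ B) : Acyc A := by
  constructor
  · intro n c hc h0
    obtain ⟨b, hb, h1⟩ := hB.succ n c (Con_mono hAB hc) h0
    obtain ⟨e, he, h2⟩ := h (n + 2) b hb (by change bd (n + 1) b ∈ _; rw [h1]; exact hc)
    exact ⟨_, h2, by rw [map_sub, h1, bd_bd, sub_zero]⟩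
  · intro c hc h0
    obtain ⟨b, hb, h1⟩ := hB.zero c (Con_mono hAB hc) h0
    obtain ⟨e, he, h2⟩ := h 1 b hb (by change bd 0 b ∈ _; rw [h1]; exact hc)
    exact ⟨_, h2, by rw [map_sub, h1, bd_bd, sub_zero]⟩

theorem acyc_singleton (x : M) : Acyc ({x} : Set M) :=
  haveI : Unique ({x} : Set M) := Set.uniqueSingleton x
  acyc_contractible_sub

/-- image of an acyclic set under an embedding-like map -/
theorem acyc_of_retract {f : C(M, N)} {g : C(N, M)} (h : ∀ x, g (f x) = x)
    (hN : Acyc (univ : Set N)) : Acyc (univ : Set M) := by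
  have hgf : ∀ n (c : Ch n M), push g n (push f n c) = c := fun n c => by
    rw [← push_comp, show g.comp f = ContinuousMap.id M from ContinuousMap.ext h, push_id]
  constructor
  · intro n c _ h0
    obtain ⟨b, _, h1⟩ := hN.succ n (push f (n + 1) c) (Con_univ _) (by rw [push_bd, h0, map_zero])
    exact ⟨push g _ b, Con_univ _, by rw [push_bd, h1, hgf]⟩
  · intro c _ h0
    obtain ⟨b, _, h1⟩ := hN.zero (push f 0 c) (Con_univ _) (by rw [wt_push, h0])
    exact ⟨push g _ b, Con_univ _, by rw [push_bd, h1, hgf]⟩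

end Wt

end Vale.Agent.P246.T.PR
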