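import Vale.Agent.P246.T.Spec2
import Vale.Agent.P246.T.PR2
import Vale.Agent.P246.T.A1h

/-! # P246-T, block A2: normalisation of the quasi-isomorphism in degrees 0 and 1 -/

open Topology Set

namespace Vale.Agent.P246.T.A2

open PR (Con_univ wt wt_single wt_push wt_bd_zero bd_ksx exists_bd_zero)

section Alg

variable {G : Type} [Group G] {E : Type} [TopologicalSpace E] [MulAction G E]
  [ContinuousConstSMul G E] {Pr : FinPresentation G}
  {ψ0 : ZG G →ₗ[ZG G] SC G 0 E} {ψ1 : (Fin Pr.gens → ZG G) →ₗ[ZG G] SC G 1 E}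
  {ψ2 : (Fin Pr.rels → ZG G) →ₗ[ZG G] SC G 2 E}

theorem lmap_single {R : Type} [Ring R] {a : ℕ} {M : Type} [AddCommGroup M] [Module R M]
    (v : Fin a → M) (i : Fin a) : lmap v (Pi.single i (1 : R)) = v i := by
  rw [lmap, Fintype.linearCombination_apply_single, one_smul]

theorem ext_pi {R : Type} [Ring R] {a : ℕ} {M : Type} [AddCommGroup M] [Module R M]
    {f g : (Fin a → R) →ₗ[R] M} (h : ∀ i, f (Pi.single i (1 : R)) = g (Pi.single i 1)) :
    f = g := by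
  refine LinearMap.pi_ext' fun i => LinearMap.ext_ring ?_
  exact h i

theorem fox12 (v : Fin Pr.rels → ZG G) : fox1 Pr (fox2 Pr v) = 0 := by
  have : (fox1 Pr).comp (fox2 Pr) = 0 := by
    refine ext_pi fun j => ?_
    rw [LinearMap.comp_apply, fox2, lmap_single, LinearMap.zero_apply, fox1, lmap,
      Fintype.linearCombination_apply]
    simpa only [smul_eq_mul] using fox_rel Pr j
  exact LinearMap.congr_fun this v

theorem neg (h : FoxQI Pr univ ψ0 ψ1 ψ2) : FoxQI Pr univ (-ψ0) (-ψ1) (-ψ2) where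
  c1 v := by rw [LinearMap.neg_apply, LinearMap.neg_apply, map_neg, h.c1]
  c2 v := by rw [LinearMap.neg_apply, LinearMap.neg_apply, map_neg, h.c2]
  m0 _ := Con_univ _
  m1 _ := Con_univ _
  m2 _ := Con_univ _
  s0 x hx := by
    obtain ⟨v, y, hy, e⟩ := h.s0 x hx
    exact ⟨-v, y, hy, by rw [LinearMap.neg_apply, map_neg, neg_neg]; exact e⟩
  i0 v := by
    rintro ⟨y, -, e⟩
    exact h.i0 v ⟨-y, Con_univ _, by
      rw [map_neg, ← e, LinearMap.neg_apply, SC.un_neg, neg_neg]⟩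
  s1 x hx hc := by
    obtain ⟨v, hv, y, hy, e⟩ := h.s1 x hx hc
    exact ⟨-v, by rw [map_neg, hv, neg_zero], y, hy, by
      rw [LinearMap.neg_apply, map_neg, neg_neg]; exact e⟩
  i1 v hv := by
    rintro ⟨y, -, e⟩
    exact h.i1 v hv ⟨-y, Con_univ _, by
      rw [map_neg, ← e, LinearMap.neg_apply, SC.un_neg, neg_neg]⟩
  s2 x hx hc := by
    obtain ⟨v, hv, y, hy, e⟩ := h.s2 x hx hc
    exact ⟨-v, by rw [map_neg, hv, neg_zero], y, hy, by
      rw [LinearMap.neg_apply, map_neg, neg_neg]; exact e⟩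
  i2 v hv := by
    rintro ⟨y, -, e⟩
    exact h.i2 v hv ⟨-y, Con_univ _, by
      rw [map_neg, ← e, LinearMap.neg_apply, SC.un_neg, neg_neg]⟩
  s3 := h.s3

/-- change of a quasi-isomorphism by a chain homotopy -/
theorem htpy (h : FoxQI Pr univ ψ0 ψ1 ψ2) (H0 : ZG G →ₗ[ZG G] SC G 1 E)
    (H1 : (Fin Pr.gens → ZG G) →ₗ[ZG G] SC G 2 E)
    (H2 : (Fin Pr.rels → ZG G) →ₗ[ZG G] SC G 3 E)
    {φ0 : ZG G →ₗ[ZG G] SC G 0 E} {φ1 : (Fin Pr.gens → ZG G) →ₗ[ZG G] SC G 1 E}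
    {φ2 : (Fin Pr.rels → ZG G) →ₗ[ZG G] SC G 2 E}
    (e0 : ∀ v, ψ0 v = φ0 v + SC.d G 0 E (H0 v))
    (e1 : ∀ v, ψ1 v = φ1 v + SC.d G 1 E (H1 v) + H0 (fox1 Pr v))
    (e2 : ∀ v, ψ2 v = φ2 v + SC.d G 2 E (H2 v) + H1 (fox2 Pr v)) :
    FoxQI Pr univ φ0 φ1 φ2 := by
  have dd : ∀ (n : ℕ) (c : SC G (n + 2) E), SC.d G n E (SC.d G (n + 1) E c) = 0 := fun n c =>
    SC.un_inj (by rw [SC.un_d, SC.un_d, PR.bd_bd]; rfl)
  have f0 : ∀ v, φ0 v = ψ0 v - SC.d G 0 E (H0 v) := fun v => by rw [e0]; abel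
  have f1 : ∀ v, φ1 v = ψ1 v - SC.d G 1 E (H1 v) - H0 (fox1 Pr v) := fun v => by rw [e1]; abel
  have f2 : ∀ v, φ2 v = ψ2 v - SC.d G 2 E (H2 v) - H1 (fox2 Pr v) := fun v => by rw [e2]; abel
  constructor
  · intro v
    rw [f1, f0, map_sub, map_sub, dd, sub_zero, h.c1]
  · intro v
    rw [f2, f1, map_sub, map_sub, dd, sub_zero, h.c2, fox12, map_zero, sub_zero]
  · exact fun _ => Con_univ _
  · exact fun _ => Con_univ _
  · exact fun _ => Con_univ _
  · intro x hx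
    obtain ⟨v, y, hy, e⟩ := h.s0 x hx
    refine ⟨v, (H0 v).un + y, Con_univ _, ?_⟩
    rw [e, e0, SC.un_add, SC.un_d, map_add]; abel
  · rintro v ⟨y, -, e⟩
    refine h.i0 v ⟨y + (H0 v).un, Con_univ _, ?_⟩
    rw [e0, SC.un_add, SC.un_d, map_add, e]
  · intro x hx hc
    obtain ⟨v, hv, y, hy, e⟩ := h.s1 x hx hc
    refine ⟨v, hv, (H1 v).un + y, Con_univ _, ?_⟩
    rw [e, e1, hv, map_zero, add_zero, SC.un_add, SC.un_d, map_add]; abel
  · rintro v hv ⟨y, -, e⟩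
    refine h.i1 v hv ⟨y + (H1 v).un, Con_univ _, ?_⟩
    rw [e1, hv, map_zero, add_zero, SC.un_add, SC.un_d, map_add, e]
  · intro x hx hc
    obtain ⟨v, hv, y, hy, e⟩ := h.s2 x hx hc
    refine ⟨v, hv, (H2 v).un + y, Con_univ _, ?_⟩
    rw [e, e2, hv, map_zero, add_zero, SC.un_add, SC.un_d, map_add]; abel
  · rintro v hv ⟨y, -, e⟩
    refine h.i2 v hv ⟨y + (H2 v).un, Con_univ _, ?_⟩
    rw [e2, hv, map_zero, add_zero, SC.un_add, SC.un_d, map_add, e]
  · exact h.s3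

/-- the augmentation of the group ring -/
noncomputable def aug (r : ZG G) : ℤ := r.coeff.sum fun _ a => a

theorem wt_smul {n : ℕ} (r : ZG G) (c : SC G n E) : wt n (r • c).un = aug r * wt n c.un := by
  rw [SC.un_smul, aug, Finsupp.sum, Finsupp.sum, map_sum, Finset.sum_mul]
  refine Finset.sum_congr rfl fun g _ => ?_
  rw [map_smul, wt_push, smul_eq_mul]

/-- the image of `1` has augmentation `1` or `-1` -/
theorem wt_one (h : FoxQI Pr univ ψ0 ψ1 ψ2) (e : E) :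
    wt 0 (ψ0 1).un = 1 ∨ wt 0 (ψ0 1).un = -1 := by
  obtain ⟨v, y, -, hv⟩ := h.s0 (ksx 0 e) (Con_univ _)
  have h1 : ψ0 v = v • ψ0 1 := by rw [← map_smul, smul_eq_mul, mul_one]
  have h2 : (1 : ℤ) = aug v * wt 0 (ψ0 1).un := by
    have := congrArg (wt 0) hv
    rw [map_add, wt_bd_zero, add_zero, h1, wt_smul, ksx, wt_single] at this
    exact this
  exact Int.isUnit_iff.1 (IsUnit.of_mul_eq_one_right _ h2.symm)

theorem un_phi0_single (e : E) (g : G) : (phi0 G e (elt g)).un = ksx 0 (g • e) := by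
  rw [phi0, LinearMap.toSpanSingleton_apply, SC.un_elt_smul, SC.un_mk, ksx, push_single]
  rfl

theorem un_phi0_one (e : E) : (phi0 G e 1).un = ksx 0 e := by
  rw [phi0, LinearMap.toSpanSingleton_apply, one_smul, SC.un_mk]

theorem bd_psx {a b : E} (γ : Path a b) : bd 0 (psx γ) = ksx 0 b - ksx 0 a := by
  have hp : psx γ = Finsupp.single (PR.pathSimplex γ) 1 := rfl
  rw [hp, PR.bd_pathSimplex]

end Alg

/-- `H_1 = 0` for simply connected spaces -/
def H1Zero : Prop := ∀ (E : Type) [TopologicalSpace E] [SimplyConnectedSpace E] (c : Ch 1 E),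
  bd 0 c = 0 → ∃ b : Ch 2 E, bd 1 b = c

theorem of_pos (hH : H1Zero) {G E : Type} [Group G] [TopologicalSpace E] [SimplyConnectedSpace E]
    [MulAction G E] [ContinuousConstSMul G E] (Pr : FinPresentation G)
    (ψ0 : ZG G →ₗ[ZG G] SC G 0 E) (ψ1 : (Fin Pr.gens → ZG G) →ₗ[ZG G] SC G 1 E)
    (ψ2 : (Fin Pr.rels → ZG G) →ₗ[ZG G] SC G 2 E) (h : FoxQI Pr univ ψ0 ψ1 ψ2)
    (e : E) (α : ∀ i, Path e (Pr.x i • e)) (hw : wt 0 (ψ0 1).un = 1) :
    ∃ c : Fin Pr.rels → Ch 2 E,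
    ∀ c' : Fin Pr.rels → Ch 2 E, (∀ j, ∃ t : Ch 3 E, c' j = c j + bd 2 t) →
      (∀ j, bd 1 (c' j) = (phi1 Pr.x α (foxWord Pr.x (Pr.r j).toWord)).un) ∧
      FoxQI Pr univ (phi0 G e) (phi1 Pr.x α) (lmap fun j => SC.mk G (c' j)) := by
  obtain ⟨a0, ha0⟩ := exists_bd_zero ((ψ0 1).un - ksx 0 e) (by
    rw [map_sub, hw, ksx, wt_single, sub_self])
  set H0 : ZG G →ₗ[ZG G] SC G 1 E :=
    LinearMap.toSpanSingleton (ZG G) (SC G 1 E) (SC.mk G a0) with hH0
  have e0 : ∀ v, ψ0 v = phi0 G e v + SC.d G 0 E (H0 v) := by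
    have : ψ0 = phi0 G e + (SC.d G 0 E).comp H0 := by
      refine LinearMap.ext_ring (SC.un_inj ?_)
      rw [LinearMap.add_apply, LinearMap.comp_apply, SC.un_add, SC.un_d, un_phi0_one, hH0,
        LinearMap.toSpanSingleton_apply, one_smul, SC.un_mk, ha0]
      abel
    intro v
    exact LinearMap.congr_fun this v
  have hcyc : ∀ i : Fin Pr.gens, bd 0 ((ψ1 (Pi.single i 1)).un - psx (α i) -
      (H0 (fox1 Pr (Pi.single i 1))).un) = 0 := by
    intro i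
    have h1 := h.c1 (Pi.single i 1)
    have h2 : bd 0 (ψ1 (Pi.single i 1)).un = (ψ0 (fox1 Pr (Pi.single i 1))).un := by
      rw [← h1, SC.un_d]
    rw [map_sub, map_sub, h2, e0, SC.un_add, SC.un_d, bd_psx, fox1, lmap_single, map_sub,
      SC.un_sub, un_phi0_single, un_phi0_one]
    abel
  choose b1 hb1 using fun i => hH E _ (hcyc i)
  set H1 : (Fin Pr.gens → ZG G) →ₗ[ZG G] SC G 2 E := lmap fun i => SC.mk G (b1 i) with hH1
  have e1 : ∀ v, ψ1 v = phi1 Pr.x α v + SC.d G 1 E (H1 v) + H0 (fox1 Pr v) := by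
    have : ψ1 = phi1 Pr.x α + (SC.d G 1 E).comp H1 + H0.comp (fox1 Pr) := by
      refine ext_pi fun i => SC.un_inj ?_
      rw [LinearMap.add_apply, LinearMap.add_apply, LinearMap.comp_apply, LinearMap.comp_apply,
        SC.un_add, SC.un_add, SC.un_d, hH1, lmap_single, SC.un_mk, hb1, phi1, lmap_single,
        SC.un_mk]
      abel
    intro v
    exact LinearMap.congr_fun this v
  refine ⟨fun j => (ψ2 (Pi.single j 1)).un - (H1 (fox2 Pr (Pi.single j 1))).un,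
    fun c' hc' => ?_⟩
  choose t ht using hc'
  have hQ : FoxQI Pr univ (phi0 G e) (phi1 Pr.x α) (lmap fun j => SC.mk G (c' j)) := by
    refine htpy h H0 H1 (lmap fun j => SC.mk G (-t j)) e0 e1 ?_
    have : ψ2 = (lmap fun j => SC.mk G (c' j)) +
        (SC.d G 2 E).comp (lmap fun j => SC.mk G (-t j)) + H1.comp (fox2 Pr) := by
      refine ext_pi fun j => SC.un_inj ?_
      rw [LinearMap.add_apply, LinearMap.add_apply, LinearMap.comp_apply, LinearMap.comp_apply,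
        SC.un_add, SC.un_add, SC.un_d, lmap_single, lmap_single, SC.un_mk, SC.un_mk, ht, map_neg]
      have key : ∀ a b c : Ch 2 E, a = a - b + c + -c + b := fun a b c => by abel
      exact key _ _ _
    intro v
    exact LinearMap.congr_fun this v
  refine ⟨fun j => ?_, hQ⟩
  have := hQ.c2 (Pi.single j 1)
  rw [lmap_single, fox2, lmap_single] at this
  rw [← this, SC.un_d, SC.un_mk]

theorem main_of (hH : H1Zero) : SpecA2 := by
  intro G E _ _ _ _ _ Pr ψ0 ψ1 ψ2 h e α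
  rcases wt_one h e with hw | hw
  · exact of_pos hH Pr ψ0 ψ1 ψ2 h e α hw
  · refine of_pos hH Pr (-ψ0) (-ψ1) (-ψ2) (neg h) e α ?_
    rw [LinearMap.neg_apply, SC.un_neg, map_neg, hw, neg_neg]

theorem main : SpecA2 := main_of fun _ _ _ c hc => A1h.h_one c hc

end Vale.Agent.P246.T.A2
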