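import Vale.Agent.P246.T.Spec2

/-! # P246-T, block AC: the fundamental group acts on the universal cover -/

open Topology Set

namespace Vale.Agent.P246.T.AC

variable {E Z : Type} [TopologicalSpace E] [TopologicalSpace Z]

/-- The source of a local homeomorphism to a locally path connected space is locally path
connected. -/
theorem locallyPathConnectedSpace [LocallyPathConnectedSpace Z] {p : E → Z}
    (hp : IsLocalHomeomorph p) : LocallyPathConnectedSpace E where
  path_connected_basis e := by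
    rw [Filter.hasBasis_self]
    intro t ht
    obtain ⟨φ, he, -⟩ := hp e
    have h0 : φ.symm (φ e) = e := φ.left_inv he
    have h1 : φ.target ∩ φ.symm ⁻¹' t ∈ 𝓝 (φ e) := by
      refine Filter.inter_mem (φ.open_target.mem_nhds (φ.map_source he)) ?_
      exact (φ.continuousAt_symm (φ.map_source he)).preimage_mem_nhds (by rwa [h0])
    obtain ⟨V, ⟨hV, hVc⟩, hVs⟩ := (path_connected_basis (φ e)).mem_iff.1 h1
    have hVs' : V ⊆ φ.target ∩ φ.symm ⁻¹' t := hVs
    refine ⟨φ.symm '' V, ?_, hVc.image' (φ.continuousOn_symm.mono fun x hx => (hVs' hx).1), ?_⟩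
    · have h2 : φ.source ∩ φ ⁻¹' V ∈ 𝓝 e :=
        Filter.inter_mem (φ.open_source.mem_nhds he) ((φ.continuousAt he).preimage_mem_nhds hV)
      refine Filter.mem_of_superset h2 fun x hx => ⟨φ x, hx.2, φ.left_inv hx.1⟩
    · rintro _ ⟨x, hx, rfl⟩
      exact (hVs' hx).2

/-- uniqueness of lifts -/
theorem lift_unique [PreconnectedSpace E] {Y : Type} [TopologicalSpace Y] {q : Y → Z}
    (hq : IsCoveringMap q) {g g' : E → Y} (hg : Continuous g) (hg' : Continuous g')
    (h : ∀ x, q (g x) = q (g' x)) (e₀ : E) (h₀ : g e₀ = g' e₀) : g = g' :=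
  hq.eq_of_comp_eq hg hg' (funext h) e₀ h₀

/-- the action of the deck group -/
abbrev deckAction (p : E → Z) : MulAction (Deck p) E where
  smul h x := h.1 x
  one_smul _ := rfl
  mul_smul _ _ _ := rfl

attribute [local instance] deckAction

omit [TopologicalSpace Z] in
theorem deck_smul (p : E → Z) (h : Deck p) (x : E) : h • x = h.1 x := rfl

theorem exists_deck [SimplyConnectedSpace E] [LocallyPathConnectedSpace E] {p : E → Z}
    (hp : IsCoveringMap p) {e₁ e₂ : E} (h : p e₁ = p e₂) : ∃ d : Deck p, d • e₂ = e₁ := by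
  obtain ⟨a, ⟨ha1, ha2⟩, -⟩ := hp.existsUnique_continuousMap_lifts ⟨p, hp.continuous⟩ e₂ e₁ h
  obtain ⟨b, ⟨hb1, hb2⟩, -⟩ := hp.existsUnique_continuousMap_lifts ⟨p, hp.continuous⟩ e₁ e₂ h.symm
  have ha : ∀ x, p (a x) = p x := fun x => congrFun ha2 x
  have hb : ∀ x, p (b x) = p x := fun x => congrFun hb2 x
  have hba : (fun x => b (a x)) = id :=
    lift_unique hp (b.continuous.comp a.continuous) continuous_id
      (fun x => by rw [hb, ha]; rfl) e₂ (by simp [ha1, hb1])
  have hab : (fun x => a (b x)) = id :=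
    lift_unique hp (a.continuous.comp b.continuous) continuous_id
      (fun x => by rw [ha, hb]; rfl) e₁ (by simp [ha1, hb1])
  exact ⟨⟨⟨⟨a, b, congr_fun hba, congr_fun hab⟩, a.continuous, b.continuous⟩, ha⟩, ha1⟩

theorem isQuotientCoveringMap_deck [SimplyConnectedSpace E] [LocallyPathConnectedSpace E]
    [PathConnectedSpace Z] {p : E → Z} (hp : IsCoveringMap p) :
    IsQuotientCoveringMap p (Deck p) := by
  rw [isQuotientCoveringMap_iff_isCoveringMap_and]
  have hfree : ∀ (d d' : Deck p) (x : E), d • x = d' • x → d = d' := by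
    intro d d' x hx
    have := lift_unique hp (g := d.1) (g' := d'.1) d.1.continuous d'.1.continuous
      (fun y => by rw [d.2 y, d'.2 y]) x hx
    exact Subtype.ext (Homeomorph.ext (congr_fun this))
  refine ⟨hp, ?_, ⟨fun d => d.1.continuous⟩, ⟨fun d d' x hx => hfree d d' x hx⟩, ?_⟩
  · intro z
    obtain ⟨e₀⟩ : Nonempty E := inferInstance
    obtain ⟨γ⟩ := PathConnectedSpace.joined (p e₀) z
    obtain ⟨Γ, h1, h2⟩ := hp.exists_path_lifts ⟨γ, γ.continuous⟩ e₀ (by simp)
    exact ⟨Γ 1, (congr_fun h1 1).trans γ.target⟩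
  · intro e₁ e₂
    constructor
    · intro h
      obtain ⟨d, hd⟩ := exists_deck hp h
      exact ⟨d, hd⟩
    · rintro ⟨d, hd⟩
      rw [← hd]
      exact d.2 e₂

theorem main : SpecAct := by
  rintro G X _ _ _ _ _ x ⟨e⟩ ⟨E, tE, p, hp, hE, hH, hcoh⟩
  have hlpc : LocallyPathConnectedSpace E := locallyPathConnectedSpace hp.isLocalHomeomorph
  have hq := isQuotientCoveringMap_deck hp
  obtain ⟨y, hy⟩ := hq.surjective x
  let φ : G ≃* Deck p :=
    e.symm.trans ((hq.fundamentalGroupEquiv (x := x) ⟨y, hy⟩).trans (MulEquiv.inv' (Deck p)).symm)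
  let A : MulAction G E := MulAction.compHom E φ.toMonoidHom
  have hA : ∀ (g : G) (y : E), g • y = (φ g).1 y := fun g y => rfl
  have hC : ContinuousConstSMul G E := ⟨fun g => (φ g).1.continuous⟩
  refine ⟨E, tE, A, hC, ⟨p, hp.continuous⟩, hE, ?_, hH, ?_⟩
  · rw [isQuotientCoveringMap_iff_isCoveringMap_and] at hq ⊢
    obtain ⟨h1, h2, -, h4, h5⟩ := hq
    refine ⟨h1, h2, hC, ⟨fun g g' y h => ?_⟩, fun {e₁ e₂} => ?_⟩
    · exact φ.injective (h4.right_cancel' _ _ _ h)
    · change p e₁ = p e₂ ↔ _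
      rw [h5]
      constructor
      · rintro ⟨d, hd⟩
        refine ⟨φ.symm d, ?_⟩
        change (φ (φ.symm d)).1 e₂ = e₁
        rw [MulEquiv.apply_symm_apply]
        exact hd
      · rintro ⟨g, hg⟩
        exact ⟨φ g, hg⟩
  · intro M _ _ _ f hf hcob
    let R : ZG (Deck p) ≃+* ZG G := (MonoidAlgebra.domCongr ℤ ℤ φ.symm).toRingEquiv
    let hM : Module (ZG (Deck p)) M := Module.compHom M R.toRingHom
    have hsm : ∀ (r : ZG (Deck p)) (m : M), r • m = R r • m := fun _ _ => rfl
    have hR : ∀ d : Deck p, R (elt d) = elt (φ.symm d) := fun d =>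
      MonoidAlgebra.domCongr_single (R := ℤ) φ.symm d (1 : ℤ)
    have hfin : Module.Finite (ZG (Deck p)) M := by
      obtain ⟨s, hs⟩ := Module.Finite.fg_top (R := ZG G) (M := M)
      refine ⟨⟨s, eq_top_iff.2 fun m _ => ?_⟩⟩
      have hm : m ∈ Submodule.span (ZG G) (s : Set M) := by rw [hs]; trivial
      induction hm using Submodule.span_induction with
      | mem m hm => exact Submodule.subset_span hm
      | zero => exact Submodule.zero_mem _
      | add a b _ _ ha hb => exact Submodule.add_mem _ (ha trivial) (hb trivial)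
      | smul r a _ ha =>
        have h1 : r • a = R.symm r • a := by rw [hsm, RingEquiv.apply_symm_apply]
        rw [h1]
        exact Submodule.smul_mem _ _ (ha trivial)
    have hmap : ∀ {n : ℕ} (d : Deck p) (σ : C(Dl n, E)),
        deckMap d σ = (gm (φ.symm d)).comp σ := by
      intro n d σ
      refine ContinuousMap.ext fun x => ?_
      change d.1 (σ x) = (φ (φ.symm d)).1 (σ x)
      rw [MulEquiv.apply_symm_apply]
    obtain ⟨h, h1, h2⟩ := hcoh M f (fun d σ => by rw [hmap, hf, hsm, hR]) hcob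
    refine ⟨h, fun g σ => ?_, h2⟩
    have h3 := h1 (φ g) σ
    rwa [hmap, hsm, hR, MulEquiv.symm_apply_apply] at h3

end Vale.Agent.P246.T.AC
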