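import Vale.Agent.P246.T.Spec2

/-! # P246, topological version: assembly -/

namespace Vale.Agent.P246.T

open Topology Metric Set

section

variable {G E F : Type} [Group G] [TopologicalSpace E] [MulAction G E] [ContinuousConstSMul G E]
  [TopologicalSpace F] [MulAction G F] [ContinuousConstSMul G F]

theorem push_smul (f : C(F, E)) (hf : ∀ (g : G) y, f (g • y) = g • f y) (n : ℕ) (r : ZG G)
    (c : SC G n F) : push f n (r • c).un = (r • SC.mk G (push f n c.un)).un := by
  rw [SC.un_smul, SC.un_smul, SC.un_mk, Finsupp.sum, Finsupp.sum, map_sum]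
  refine Finset.sum_congr rfl fun g _ => ?_
  rw [map_smul, ← push_comp, ← push_comp]
  congr 3
  ext z
  exact hf g z

theorem push_lmap (f : C(F, E)) (hf : ∀ (g : G) y, f (g • y) = g • f y) (n : ℕ) {a : ℕ}
    (u : Fin a → SC G n F) (v : Fin a → ZG G) :
    push f n (lmap u v).un = (lmap (fun i => SC.mk G (push f n (u i).un)) v).un := by
  have h : ∀ s : Finset (Fin a), push f n (∑ i ∈ s, v i • u i : SC G n F).un =
      (∑ i ∈ s, v i • SC.mk G (push f n (u i).un) : SC G n E).un := by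
    classical
    intro s
    induction s using Finset.induction_on with
    | empty => exact map_zero (push f n)
    | insert i s hi ih =>
      rw [Finset.sum_insert hi, Finset.sum_insert hi, SC.un_add, SC.un_add, map_add, ih,
        push_smul f hf]
  exact h Finset.univ

end

/-- BLOCK CY (the CW structure of the presentation complex). -/
def SpecCY' : Prop := ∀ (G X E : Type) [Group G] [TopologicalSpace X] [T2Space X]
  [TopologicalSpace E] [MulAction G E] [ContinuousConstSMul G E] (p : C(E, X)),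
  IsQuotientCoveringMap p G → ∀ (Pr : FinPresentation G) (c : PresCx Pr p), c.Good →
  Built ∅ c.Y ∧ ∃ _ : CWComplex (univ : Set c.Y), CWComplex.Finite (univ : Set c.Y) ∧
    ∀ m > 2, IsEmpty (RelCWComplex.cell (univ : Set c.Y) m)

theorem asm (hCWB : SpecCWB) (hAct : SpecAct) (hMX : SpecMX) (hA1 : SpecA1) (hA2 : SpecA2)
    (hWC : SpecWC) (hYD : SpecYD) (hYC : SpecYC) (hCY : SpecCY') (hYP : SpecYP) (hYH : SpecYH)
    (hEW : SpecEW) (hRV : SpecRV) (hRH : SpecRH) (hDN : SpecDown) (hCV : SpecConv)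
    (hWh : SpecWh) : SpecTop := by
  intro G _ hG X _ _ _ _ _ x he hD
  obtain ⟨hB, hcpt, hlpc⟩ := hCWB X
  have hpc : PathConnectedSpace X := PathConnectedSpace.of_locallyPathConnectedSpace
  obtain ⟨E, _, _, _, p, hsc, hp, hH, hH3⟩ := hAct G X x he hD
  obtain ⟨P, hP⟩ := hMX G X E p hp hB
  obtain ⟨Pr, ψ0, ψ1, ψ2, hψ⟩ := hA1 G X E p hp hH hH3 ⟨P, hP⟩ hG
  obtain ⟨e⟩ : Nonempty E := inferInstance
  have hα : ∀ i, Nonempty (Path e (Pr.x i • e)) := fun i => PathConnectedSpace.joined _ _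
  let α : ∀ i, Path e (Pr.x i • e) := fun i => (hα i).some
  obtain ⟨W⟩ := hWC
  obtain ⟨c, hc⟩ := hA2 G E Pr ψ0 ψ1 ψ2 hψ e (α)
  have hc0 := (hc c fun j => ⟨0, by simp⟩).1
  have hrel : ∀ j, wval Pr.x (Pr.r j).toWord = 1 := by
    intro j
    have h1 : Pr.r j ∈ (FreeGroup.lift Pr.x).ker := by
      rw [Pr.ker_eq]; exact Subgroup.subset_normalClosure ⟨j, rfl⟩
    have h2 : ∀ w : List (Fin Pr.gens × Bool), wval Pr.x w = FreeGroup.lift Pr.x (FreeGroup.mk w) := by
      intro w
      induction w with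
      | nil => rw [wval]; exact (map_one (FreeGroup.lift Pr.x)).symm
      | cons l w ih =>
        rw [wval, ih, lval]
        simp only [FreeGroup.lift_mk, List.map_cons, List.prod_cons]
        cases l.2 <;> rfl
    rw [h2, FreeGroup.mk_toWord]
    exact h1
  have hδ : ∀ j, ∃ δ : C(Dk 2, E), BdryWord Pr.x α (Pr.r j).toWord δ ∧ ∃ t : Ch 3 E,
      push δ 2 zeta2 + ksx 2 e + W.cor G E Pr.gens Pr.x e α (Pr.r j).toWord = c j + bd 2 t :=
    fun j => hYD W G E _ Pr.x e α _ (hrel j) (c j) (hc0 j)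
  choose δ hδ1 hδ2 using hδ
  obtain ⟨y, hy, hye, hya, hyb⟩ := hYC G X E p hp Pr e α δ hδ1
  obtain ⟨hpW, hscW, ⟨hX⟩, f, hf, hfg, h, hfh, hhf⟩ := hEW G X E p hp Pr.gens Pr.rels
  have := hscW hsc
  have hbuilt := hCY G (X × WW Pr.gens Pr.rels) (EW G E Pr.gens Pr.rels) (pW G Pr.gens Pr.rels p)
    hpW Pr y hy
  have hscY := hYP G (X × WW Pr.gens Pr.rels) (EW G E Pr.gens Pr.rels) (pW G Pr.gens Pr.rels p)
    hpW Pr y hy
  have hQ := hYH W G (X × WW Pr.gens Pr.rels) (EW G E Pr.gens Pr.rels) (pW G Pr.gens Pr.rels p)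
    hpW Pr y hy
  have hQE := (hc (fun j => push f 2 (y.zface W j)) (fun j => by
    obtain ⟨t, ht⟩ := hδ2 j
    refine ⟨t, ?_⟩
    rw [← ht, PresCx.zface, map_add, map_add]
    congr 1
    · congr 1
      · rw [← push_comp]
        congr 1
        congr 1
        ext z
        rw [ContinuousMap.comp_apply, hf, hyb]
      · rw [ksx, push_single, ksx]
        congr 1
        ext z
        simp [hf, hye]
    · refine W.nat G _ E f hfg _ _ _ _ _ _ ?_ ?_ _
      · rw [hf, hye]
      · intro i t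
        rw [hf, hya])).2
  have hHZ : ∀ k, HZero univ (pW G Pr.gens Pr.rels p ⁻¹' y.Y) k := by
    refine hRV G E (EW G E Pr.gens Pr.rels) f hfg ⟨h, hfh, hhf⟩ Pr _ _ _ _ _ _ _ hQ hQE ?_ ?_ ?_
    · intro v
      rw [phi0, phi0, LinearMap.toSpanSingleton_apply, LinearMap.toSpanSingleton_apply,
        SC.un_smul, SC.un_smul, SC.un_mk, SC.un_mk, Finsupp.sum, Finsupp.sum, map_sum]
      refine Finset.sum_congr rfl fun g _ => ?_
      rw [map_smul, ksx, ksx, push_single, push_single, push_single]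
      congr 2
      ext z
      simp only [ContinuousMap.comp_apply, ContinuousMap.const_apply]
      change g • e = f (g • y.e)
      rw [hfg, hf, hye]
    · intro v
      rw [phi1, phi1, push_lmap f hfg]
      congr 3
      funext i
      rw [SC.un_mk, psx, psx, push_single]
      congr 2
      ext z
      simp only [ContinuousMap.comp_apply]
      change α i _ = f (y.a i _)
      rw [hf, hya]
    · intro v
      rw [push_lmap f hfg]
      rfl
  have hL := hRH (EW G E Pr.gens Pr.rels) (pW G Pr.gens Pr.rels p ⁻¹' y.Y) hHZ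
  have hL2 : ∀ n, Lft y.Y n := fun n => hCV _ _ n (hDN G _ _ (pW G Pr.gens Pr.rels p) hpW y.Y n (hL n))
  obtain ⟨hbY, hcw, hfin, hdim⟩ := hbuilt
  refine ⟨y.Y, inferInstance, inferInstance, hcw, hfin, hdim, ?_⟩
  exact hWh X (X × WW Pr.gens Pr.rels) y.Y hB hbY hL2 ⟨hX⟩

end Vale.Agent.P246.T
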