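import Vale.Agent.P246.T.BSa

/-! # P246, topological version, block BS: the homotopy fibre is simply connected. -/

namespace Vale.Agent.P246.T.BS

open CategoryTheory Set Topology

/-! ### Commuting loops in a space with a multiplication (copy of P223/MT/CommA) -/

theorem alg {G : Type*} [Groupoid G] {y c : G} (w1 w2 : y ⟶ c) (f1 f2 : (y ⟶ y) → (c ⟶ c))
    (h1 : ∀ a, a ≫ w1 = w1 ≫ f1 a) (h2 : ∀ a, a ≫ w2 = w2 ≫ f2 a)
    (hc : ∀ a b, f1 a ≫ f2 b = f2 b ≫ f1 a) (a b : y ⟶ y) : a ≫ b = b ≫ a := by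
  have e1 : ∀ a, f1 a = Groupoid.inv w1 ≫ a ≫ w1 := fun a => by rw [h1]; simp
  have e2 : ∀ a, f2 a = Groupoid.inv w2 ≫ a ≫ w2 := fun a => by rw [h2]; simp
  have key : f2 (w2 ≫ Groupoid.inv w1 ≫ b ≫ w1 ≫ Groupoid.inv w2) = f1 b := by
    rw [e2, e1]; simp
  have h3 := hc a (w2 ≫ Groupoid.inv w1 ≫ b ≫ w1 ≫ Groupoid.inv w2)
  rw [key, e1, e1] at h3
  have h4 := congrArg (fun q => w1 ≫ q ≫ Groupoid.inv w1) h3
  simpa using h4

section

variable {Y : Type*} [TopologicalSpace Y]

/-- The inclusion of the first factor. -/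
def in1 (y0 : Y) : C(Y, Y × Y) := ⟨fun y => (y, y0), by fun_prop⟩

/-- The inclusion of the second factor. -/
def in2 (y0 : Y) : C(Y, Y × Y) := ⟨fun y => (y0, y), by fun_prop⟩

theorem prod_comm {y0 : Y} (p q : Path y0 y0) :
    (((p.prod (Path.refl y0)).trans ((Path.refl y0).prod q) : Path (y0, y0) (y0, y0))).Homotopic
      (((Path.refl y0).prod q).trans (p.prod (Path.refl y0))) := by
  rw [Path.trans_prod_eq_prod_trans, Path.trans_prod_eq_prod_trans]
  exact ⟨Path.Homotopic.prodHomotopy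
    ((Path.Homotopy.transRefl p).trans (Path.Homotopy.reflTrans p).symm)
    ((Path.Homotopy.reflTrans q).trans (Path.Homotopy.transRefl q).symm)⟩

/-- The image of a loop under the multiplication by the base point. -/
def M1 (μ : C(Y × Y, Y)) {y0 : Y} (p : Path y0 y0) : Path (μ (y0, y0)) (μ (y0, y0)) :=
  p.map (μ.comp (in1 y0)).continuous

/-- The image of a loop under the multiplication by the base point. -/
def M2 (μ : C(Y × Y, Y)) {y0 : Y} (p : Path y0 y0) : Path (μ (y0, y0)) (μ (y0, y0)) :=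
  p.map (μ.comp (in2 y0)).continuous

theorem M_comm (μ : C(Y × Y, Y)) {y0 : Y} (p q : Path y0 y0) :
    ((M1 μ p).trans (M2 μ q)).Homotopic ((M2 μ q).trans (M1 μ p)) := by
  have := (prod_comm p q).map μ
  rw [Path.map_trans, Path.map_trans] at this
  exact this

theorem comm (y0 : Y) (μ : C(Y × Y, Y))
    (H1 : ContinuousMap.Homotopy (ContinuousMap.id Y) (μ.comp (in1 y0)))
    (H2 : ContinuousMap.Homotopy (ContinuousMap.id Y) (μ.comp (in2 y0)))
    (p q : Path y0 y0) : (p.trans q).Homotopic (q.trans p) := by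
  let W1 : Path y0 (μ (y0, y0)) := H1.evalAt y0
  let W2 : Path y0 (μ (y0, y0)) := H2.evalAt y0
  have h1 : ∀ a : Path y0 y0, (a.trans W1).Homotopic (W1.trans (M1 μ a)) := fun a => by
    have := Path.Homotopic.map_trans_evalAt H1 a
    rw [show a.map (ContinuousMap.id Y).continuous = a by ext; rfl] at this
    exact this
  have h2 : ∀ a : Path y0 y0, (a.trans W2).Homotopic (W2.trans (M2 μ a)) := fun a => by
    have := Path.Homotopic.map_trans_evalAt H2 a
    rw [show a.map (ContinuousMap.id Y).continuous = a by ext; rfl] at this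
    exact this
  let X0 : FundamentalGroupoid Y := ⟨y0⟩
  let X1 : FundamentalGroupoid Y := ⟨μ (y0, y0)⟩
  let w1 : X0 ⟶ X1 := Path.Homotopic.Quotient.mk W1
  let w2 : X0 ⟶ X1 := Path.Homotopic.Quotient.mk W2
  let f1 : (X0 ⟶ X0) → (X1 ⟶ X1) := fun a => Path.Homotopic.Quotient.map a (μ.comp (in1 y0))
  let f2 : (X0 ⟶ X0) → (X1 ⟶ X1) := fun a => Path.Homotopic.Quotient.map a (μ.comp (in2 y0))
  have key := alg (G := FundamentalGroupoid Y) w1 w2 f1 f2 (fun a => by
      obtain ⟨a, rfl⟩ := Path.Homotopic.Quotient.mk_surjective a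
      exact Path.Homotopic.Quotient.eq.mpr (h1 a)) (fun a => by
      obtain ⟨a, rfl⟩ := Path.Homotopic.Quotient.mk_surjective a
      exact Path.Homotopic.Quotient.eq.mpr (h2 a)) (fun a b => by
      obtain ⟨a, rfl⟩ := Path.Homotopic.Quotient.mk_surjective a
      obtain ⟨b, rfl⟩ := Path.Homotopic.Quotient.mk_surjective b
      exact Path.Homotopic.Quotient.eq.mpr (M_comm μ a b))
    (Path.Homotopic.Quotient.mk p) (Path.Homotopic.Quotient.mk q)
  exact Path.Homotopic.Quotient.eq.mp key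

end

/-! ### The space of loops -/

section

variable {B : Type} [TopologicalSpace B]

/-- projection of the line to the interval -/
noncomputable def pr : C(ℝ, I) := ⟨projIcc 0 1 zero_le_one, continuous_projIcc⟩

theorem pr_of_le {t : ℝ} (h : t ≤ 0) : pr t = 0 := projIcc_of_le_left zero_le_one h

theorem pr_of_ge {t : ℝ} (h : 1 ≤ t) : pr t = 1 := projIcc_of_right_le zero_le_one h

theorem pr_coe (t : I) : pr (t : ℝ) = t := projIcc_val zero_le_one t

/-- The loops at `a`. -/
abbrev Om (a : B) : Type := {γ : C(I, B) // γ 0 = a ∧ γ 1 = a}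

/-- The constant loop. -/
def om0 (a : B) : Om a := ⟨ContinuousMap.const I a, rfl, rfl⟩

/-- Multiplication. -/
noncomputable def mul (a : B) : C(Om a × Om a, Om a) :=
  let K : C((Om a × Om a) × I, B) := ⟨fun z => if (z.2 : ℝ) ≤ 1 / 2 then z.1.1.1 (pr (2 * z.2))
    else z.1.2.1 (pr (2 * z.2 - 1)), by
      refine Continuous.if_le ?_ ?_ ?_ continuous_const ?_
      · fun_prop
      · fun_prop
      · fun_prop
      · intro z hz
        rw [hz, pr_of_ge (by norm_num), pr_of_le (by norm_num), z.1.1.2.2, z.1.2.2.1]⟩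
  ⟨fun z => ⟨K.curry z, by
      change (if ((0 : I) : ℝ) ≤ 1 / 2 then z.1.1 (pr (2 * ((0 : I) : ℝ)))
        else z.2.1 (pr (2 * ((0 : I) : ℝ) - 1))) = a
      rw [if_pos (by norm_num), pr_of_le (by norm_num), z.1.2.1], by
      change (if ((1 : I) : ℝ) ≤ 1 / 2 then z.1.1 (pr (2 * ((1 : I) : ℝ)))
        else z.2.1 (pr (2 * ((1 : I) : ℝ) - 1))) = a
      rw [if_neg (by norm_num), pr_of_ge (by norm_num), z.2.2.2]⟩,
    K.curry.continuous.subtype_mk _⟩

theorem mul_apply (a : B) (x y : Om a) (t : I) : (mul a (x, y)).1 t =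
    if (t : ℝ) ≤ 1 / 2 then x.1 (pr (2 * t)) else y.1 (pr (2 * t - 1)) := rfl

/-- A family of reparametrised loops. -/
noncomputable def repar (a : B) (φ : C(I × I, ℝ)) (h0 : ∀ s, φ (s, 0) ≤ 0)
    (h1 : ∀ s, 1 ≤ φ (s, 1)) : C(I × Om a, Om a) :=
  let K : C((I × Om a) × I, B) := ⟨fun z => z.1.2.1 (pr (φ (z.1.1, z.2))), by fun_prop⟩
  ⟨fun z => ⟨K.curry z, by
      change z.2.1 (pr (φ (z.1, 0))) = a
      rw [pr_of_le (h0 _), z.2.2.1], by
      change z.2.1 (pr (φ (z.1, 1))) = a
      rw [pr_of_ge (h1 _), z.2.2.2]⟩,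
    K.curry.continuous.subtype_mk _⟩

theorem repar_apply (a : B) (φ : C(I × I, ℝ)) (h0 : ∀ s, φ (s, 0) ≤ 0)
    (h1 : ∀ s, 1 ≤ φ (s, 1)) (s : I) (x : Om a) (t : I) :
    (repar a φ h0 h1 (s, x)).1 t = x.1 (pr (φ (s, t))) := rfl

theorem om_ext {a : B} {x y : Om a} (h : ∀ t, x.1 t = y.1 t) : x = y :=
  Subtype.ext (ContinuousMap.ext h)

/-- Right unit. -/
noncomputable def htp1 (a : B) :
    ContinuousMap.Homotopy (ContinuousMap.id (Om a)) ((mul a).comp (in1 (om0 a))) where
  toContinuousMap := repar a ⟨fun z => (1 + (z.1 : ℝ)) * z.2, by fun_prop⟩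
    (fun s => by simp) (fun s => by simpa using s.2.1)
  map_zero_left := fun x => om_ext fun t => by
    change x.1 (pr ((1 + ((0 : I) : ℝ)) * t)) = x.1 t
    rw [show (1 + ((0 : I) : ℝ)) * t = t by simp, pr_coe]
  map_one_left := fun x => om_ext fun t => by
    change x.1 (pr ((1 + ((1 : I) : ℝ)) * t)) = if (t : ℝ) ≤ 1 / 2 then x.1 (pr (2 * t)) else a
    split_ifs with h
    · norm_num
    · rw [pr_of_ge, x.2.2]
      push Not at h
      norm_num
      linarith

/-- Left unit. -/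
noncomputable def htp2 (a : B) :
    ContinuousMap.Homotopy (ContinuousMap.id (Om a)) ((mul a).comp (in2 (om0 a))) where
  toContinuousMap := repar a ⟨fun z => (1 + (z.1 : ℝ)) * z.2 - z.1, by fun_prop⟩
    (fun s => by simpa using s.2.1) (fun s => by simp)
  map_zero_left := fun x => om_ext fun t => by
    change x.1 (pr ((1 + ((0 : I) : ℝ)) * t - ((0 : I) : ℝ))) = x.1 t
    rw [show (1 + ((0 : I) : ℝ)) * t - ((0 : I) : ℝ) = t by simp, pr_coe]
  map_one_left := fun x => om_ext fun t => by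
    change x.1 (pr ((1 + ((1 : I) : ℝ)) * t - ((1 : I) : ℝ))) =
      if (t : ℝ) ≤ 1 / 2 then a else x.1 (pr (2 * t - 1))
    split_ifs with h
    · rw [pr_of_le, x.2.1]
      norm_num
      linarith
    · norm_num

theorem comm_Om (a : B) (p p' : Path (om0 a) (om0 a)) : (p.trans p').Homotopic (p'.trans p) :=
  comm (om0 a) (mul a) (htp1 a) (htp2 a) p p'

end

/-! ### The homotopy fibre -/

section

variable {B : Type} [TopologicalSpace B] {A : Set B} {a : B}

/-- The homotopy fibre. -/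
abbrev Fi (A : Set B) (a : B) : Type := ↥(ev a ⁻¹' A)

theorem fi_ext {x y : Fi A a} (h : ∀ t, x.1.1 t = y.1.1 t) : x = y :=
  Subtype.ext (Subtype.ext (ContinuousMap.ext h))

/-- The inclusion of the space of loops. -/
def inc (ha : a ∈ A) : C(Om a, Fi A a) :=
  ⟨fun x => ⟨⟨x.1, x.2.1⟩, by
    change x.1 1 ∈ A
    rw [x.2.2]
    exact ha⟩, by fun_prop⟩

/-- A family of elements of the homotopy fibre. -/
noncomputable def mk {T : Type} [TopologicalSpace T] (K : C(T × I, B)) (h0 : ∀ t, K (t, 0) = a)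
    (h1 : ∀ t, K (t, 1) ∈ A) : C(T, Fi A a) :=
  ⟨fun t => ⟨⟨K.curry t, h0 t⟩, h1 t⟩, (K.curry.continuous.subtype_mk _).subtype_mk _⟩

theorem mk_apply {T : Type} [TopologicalSpace T] (K : C(T × I, B)) (h0 : ∀ t, K (t, 0) = a)
    (h1 : ∀ t, K (t, 1) ∈ A) (t : T) (s : I) : (mk K h0 h1 t).1.1 s = K (t, s) := rfl

/-- Every loop of the homotopy fibre is homotopic to a loop of loops. -/
theorem exists_loop [SimplyConnectedSpace A] (ha : a ∈ A)
    (l : Path (inc ha (om0 a)) (inc ha (om0 a))) :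
    ∃ w : Path (om0 a) (om0 a), l.Homotopic (w.map (inc ha).continuous) := by
  -- the end point loop
  let e : Path (⟨a, ha⟩ : A) ⟨a, ha⟩ :=
    { toFun := fun s => ⟨(l s).1.1 1, (l s).2⟩
      continuous_toFun := by
        refine Continuous.subtype_mk ?_ _
        fun_prop
      source' := by
        rw [l.source]; rfl
      target' := by
        rw [l.target]; rfl }
  obtain ⟨h⟩ : e.Homotopic (Path.refl _) := SimplyConnectedSpace.paths_homotopic _ _
  have hh0 : ∀ s, (h (0, s) : B) = (l s).1.1 1 := fun s =>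
    congrArg Subtype.val (h.map_zero_left s)
  have hh1 : ∀ s, (h (1, s) : B) = a := fun s => congrArg Subtype.val (h.map_one_left s)
  have hs0 : ∀ v, (h (v, 0) : B) = a := fun v => by
    rw [h.source]
  have hs1 : ∀ v, (h (v, 1) : B) = a := fun v => by
    rw [h.target]
  -- the homotopy
  let K : C((I × I) × I, B) := ⟨fun z => if (z.2 : ℝ) * (1 + z.1.1) ≤ 1 then
      (l z.1.2).1.1 (pr (z.2 * (1 + z.1.1))) else (h (pr (z.2 * (1 + z.1.1) - 1), z.1.2) : B), by
    refine Continuous.if_le ?_ ?_ ?_ continuous_const ?_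
    · fun_prop
    · fun_prop
    · fun_prop
    · intro z hz
      rw [hz, pr_of_ge le_rfl, pr_of_le (by norm_num), hh0]⟩
  have hK0 : ∀ z, K (z, 0) = a := fun z => by
    change (if ((0 : I) : ℝ) * (1 + z.1) ≤ 1 then (l z.2).1.1 (pr (((0 : I) : ℝ) * (1 + z.1)))
      else (h (pr (((0 : I) : ℝ) * (1 + z.1) - 1), z.2) : B)) = a
    rw [if_pos (by simp), pr_of_le (by simp)]
    exact (l z.2).1.2
  have hK1 : ∀ z, K (z, 1) ∈ A := fun z => by
    change (if ((1 : I) : ℝ) * (1 + z.1) ≤ 1 then (l z.2).1.1 (pr (((1 : I) : ℝ) * (1 + z.1)))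
      else (h (pr (((1 : I) : ℝ) * (1 + z.1) - 1), z.2) : B)) ∈ A
    split_ifs with hc
    · rw [pr_of_ge (by simpa using z.1.2.1)]
      exact (l z.2).2
    · exact (h _).2
  have hK11 : ∀ s, K ((1, s), 1) = a := fun s => by
    change (if ((1 : I) : ℝ) * (1 + ((1 : I) : ℝ)) ≤ 1 then
      (l s).1.1 (pr (((1 : I) : ℝ) * (1 + ((1 : I) : ℝ)))) else
      (h (pr (((1 : I) : ℝ) * (1 + ((1 : I) : ℝ)) - 1), s) : B)) = a
    rw [if_neg (by norm_num), pr_of_ge (by norm_num), hh1]
  have hKs : ∀ (u s t : I), (s = 0 ∨ s = 1) → K ((u, s), t) = a := by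
    intro u s t hs
    have hl : l s = inc ha (om0 a) := by
      rcases hs with rfl | rfl
      · exact l.source
      · exact l.target
    have hhs : ∀ v, (h (v, s) : B) = a := by
      rcases hs with rfl | rfl
      · exact hs0
      · exact hs1
    change (if (t : ℝ) * (1 + u) ≤ 1 then (l s).1.1 (pr (t * (1 + u))) else
      (h (pr (t * (1 + u) - 1), s) : B)) = a
    split_ifs
    · rw [hl]; rfl
    · exact hhs _
  have hK00 : ∀ s t, K ((0, s), t) = (l s).1.1 t := by
    intro s t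
    change (if (t : ℝ) * (1 + ((0 : I) : ℝ)) ≤ 1 then (l s).1.1 (pr (t * (1 + ((0 : I) : ℝ)))) else
      (h (pr (t * (1 + ((0 : I) : ℝ)) - 1), s) : B)) = (l s).1.1 t
    rw [if_pos (by simpa using t.2.2)]
    norm_num
    rw [pr_coe]
  let L : C(I × I, Fi A a) := mk K hK0 hK1
  let w : Path (om0 a) (om0 a) :=
    { toFun := fun s => ⟨K.curry (1, s), hK0 _, hK11 s⟩
      continuous_toFun := by
        refine Continuous.subtype_mk ?_ _
        exact K.curry.continuous.comp (by fun_prop)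
      source' := om_ext fun t => hKs 1 0 t (Or.inl rfl)
      target' := om_ext fun t => hKs 1 1 t (Or.inr rfl) }
  refine ⟨w, ⟨⟨⟨L, fun s => ?_, fun s => ?_⟩, fun u s hs => ?_⟩⟩⟩
  · exact fi_ext fun t => hK00 s t
  · exact fi_ext fun t => rfl
  · refine fi_ext fun t => ?_
    have h1 : K ((u, s), t) = a := hKs u s t (by simpa using hs)
    have h2 : (l s).1.1 t = a := by
      rw [← hK00]; exact hKs 0 s t (by simpa using hs)
    exact h1.trans h2.symm

theorem comm_Fi [SimplyConnectedSpace A] (ha : a ∈ A)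
    (p p' : Path (inc ha (om0 a)) (inc ha (om0 a))) : (p.trans p').Homotopic (p'.trans p) := by
  obtain ⟨w, hw⟩ := exists_loop ha p
  obtain ⟨w', hw'⟩ := exists_loop ha p'
  have h := (comm_Om a w w').map (inc ha)
  rw [Path.map_trans, Path.map_trans] at h
  exact ((hw.hcomp hw').trans h).trans (hw'.symm.hcomp hw.symm)

/-- The homotopy fibre is path connected. -/
theorem pathConnected [SimplyConnectedSpace B] [PathConnectedSpace A] (ha : a ∈ A) :
    PathConnectedSpace (Fi A a) := by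
  have key : ∀ y : Fi A a, Joined (inc ha (om0 a)) y := by
    intro y
    let al : Path (⟨a, ha⟩ : A) ⟨y.1.1 1, y.2⟩ := PathConnectedSpace.somePath _ _
    let al' : Path a (y.1.1 1) := al.map continuous_subtype_val
    let ga : Path a (y.1.1 1) := ⟨y.1.1, y.1.2, rfl⟩
    obtain ⟨h⟩ : ga.Homotopic al' := SimplyConnectedSpace.paths_homotopic _ _
    -- from `al'` to `y`
    let K1 : C(I × I, B) := h.toContinuousMap
    have e0 : ∀ v, K1 (v, 0) = a := fun v => h.source v
    have e1 : ∀ v, K1 (v, 1) = y.1.1 1 := fun v => h.target v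
    let L1 : C(I, Fi A a) := mk K1 e0 fun v => by rw [e1]; exact y.2
    let K2 : C(I × I, B) := ⟨fun z => al' (z.1 * z.2), by fun_prop⟩
    let L2 : C(I, Fi A a) := mk K2 (fun v => by
        change al' (v * 0) = a
        rw [mul_zero]; exact al'.source) fun v => by
        change al' (v * 1) ∈ A
        exact (al _).2
    have j1 : Joined (L1 0) (L1 1) := ⟨⟨L1, rfl, rfl⟩⟩
    have j2 : Joined (L2 0) (L2 1) := ⟨⟨L2, rfl, rfl⟩⟩
    have i1 : L1 0 = y := fi_ext fun t => by
      exact h.map_zero_left t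
    have i2 : L1 1 = L2 1 := fi_ext fun t => by
      change h (1, t) = al' (1 * t)
      rw [one_mul]; exact h.map_one_left t
    have i3 : L2 0 = inc ha (om0 a) := fi_ext fun t => by
      change al' (0 * t) = a
      rw [zero_mul]; exact al'.source
    rw [← i3, ← i1]
    exact j2.trans (by rw [← i2]; exact j1.symm)
  exact ⟨⟨inc ha (om0 a)⟩, fun x y => (key x).symm.trans (key y)⟩

end

/-! ### Chains in a subspace -/

section

variable {M : Type} [TopologicalSpace M] (S : Set M)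

/-- The inclusion. -/
def sub : C(S, M) := ⟨Subtype.val, continuous_subtype_val⟩

theorem comp_sub_injective (n : ℕ) :
    Function.Injective fun σ : C(Dl (n + 1), S) => (sub S).comp σ := by
  intro σ τ h
  ext x
  exact congrArg (fun f : C(Dl (n + 1), M) => f x) h

theorem push_sub_injective (n : ℕ) : Function.Injective (push (sub S) n) :=
  Finsupp.mapDomain_injective (comp_sub_injective S n)

theorem exists_push {n : ℕ} {b : Ch n M} (hb : b ∈ Con S n) : ∃ b' : Ch n S, push (sub S) n b' = b := by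
  refine ⟨Finsupp.comapDomain _ b (comp_sub_injective S n).injOn, ?_⟩
  refine Finsupp.mapDomain_comapDomain _ (comp_sub_injective S n) b ?_
  intro σ hσ
  exact ⟨⟨fun x => ⟨σ x, hb hσ x⟩, by fun_prop⟩, rfl⟩

end

theorem main : SpecBase := by
  intro B _ _ A _ a ha hH
  have hpc : PathConnectedSpace (Fi A a) := pathConnected ha
  refine simply (inc ha (om0 a)) (comm_Fi ha) fun σ hσ => ?_
  obtain ⟨b, hb, hb1⟩ := hH (push (sub (ev a ⁻¹' A)) 1 (Finsupp.single σ 1)) (by
    rw [push_single]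
    exact Finsupp.single_mem_supported ℤ _ fun x => (σ x).2) (by
    rw [push_bd, hσ, map_zero])
  obtain ⟨b', rfl⟩ := exists_push _ hb
  rw [push_bd] at hb1
  exact ⟨b', push_sub_injective _ 1 hb1⟩

end Vale.Agent.P246.T.BS
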