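import Vale.Agent.P246.T.Spec

/-! # P246, topological version, block BS: a path connected space with commutative fundamental
group and vanishing first homology is simply connected. -/

namespace Vale.Agent.P246.T.BS

open CategoryTheory Set Topology

variable {F : Type} [TopologicalSpace F]

abbrev Qt {F : Type} [TopologicalSpace F] (x y : F) : Type := Path.Homotopic.Quotient x y

instance (k : ℕ) : ContractibleSpace (Dl (k + 1)) :=
  (convex_stdSimplex ℝ (Fin (k + 1))).contractibleSpace ⟨_, (stdSimplex.vertex (S := ℝ) 0).2⟩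

instance : ContractibleSpace I :=
  (convex_Icc (0 : ℝ) 1).contractibleSpace ⟨0, ⟨le_rfl, zero_le_one⟩⟩

noncomputable def q [PathConnectedSpace F] (f0 x : F) : Qt f0 x :=
  .mk (PathConnectedSpace.somePath f0 x)

/-- The class of the loop through the images of two points. -/
noncomputable def g [PathConnectedSpace F] (f0 : F) {Z : Type} [TopologicalSpace Z]
    [PathConnectedSpace Z] (σ : C(Z, F)) (x y : Z) : Qt f0 f0 :=
  ((q f0 (σ x)).trans (.mk ((PathConnectedSpace.somePath x y).map σ.continuous))).trans
    (q f0 (σ y)).symm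

theorem map_eq {Z : Type} [TopologicalSpace Z] [SimplyConnectedSpace Z] (σ : C(Z, F)) {x y : Z}
    (p p' : Path x y) :
    (.mk (p.map σ.continuous) : Qt (σ x) (σ y)) = .mk (p'.map σ.continuous) :=
  Path.Homotopic.Quotient.eq.2 ((SimplyConnectedSpace.paths_homotopic p p').map σ)

section

variable [PathConnectedSpace F] (f0 : F) {Z Z' : Type} [TopologicalSpace Z]
  [TopologicalSpace Z'] [PathConnectedSpace Z']

theorem g_trans [SimplyConnectedSpace Z] (σ : C(Z, F)) (x y z : Z) :
    (g f0 σ x y).trans (g f0 σ y z) = g f0 σ x z := by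
  have h := map_eq σ (PathConnectedSpace.somePath x z)
    ((PathConnectedSpace.somePath x y).trans (PathConnectedSpace.somePath y z))
  rw [Path.map_trans, Path.Homotopic.Quotient.mk_trans] at h
  rw [g, g, g, h]
  grind

theorem g_comp [SimplyConnectedSpace Z] (σ : C(Z, F)) (φ : C(Z', Z)) (x y : Z') :
    g f0 (σ.comp φ) x y = g f0 σ (φ x) (φ y) := by
  have h := map_eq σ (PathConnectedSpace.somePath (φ x) (φ y))
    ((PathConnectedSpace.somePath x y).map φ.continuous)
  rw [g, g, h]
  rfl

theorem g_path (σ : C(I, F)) {x y : F} (hx : σ 0 = x) (hy : σ 1 = y) :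
    g f0 σ 0 1 = ((q f0 x).trans (.mk ⟨σ, hx, hy⟩)).trans (q f0 y).symm := by
  subst hx
  subst hy
  let p : Path (0 : I) 1 := ⟨ContinuousMap.id I, rfl, rfl⟩
  have h := map_eq σ (PathConnectedSpace.somePath (0 : I) 1) p
  rw [g, h]
  rfl

/-- The target of the cocycle. -/
abbrev V (f0 : F) : Type := Additive (Abelianization (FundamentalGroup F f0))

/-- The class in `V`. -/
noncomputable def cls (f0 : F) (a : Qt f0 f0) : V f0 :=
  Additive.ofMul (Abelianization.of (show FundamentalGroup F f0 from a))

theorem cls_trans (a b : Qt f0 f0) : cls f0 (a.trans b) = cls f0 a + cls f0 b := by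
  have h : (show FundamentalGroup F f0 from a.trans b) =
      (show FundamentalGroup F f0 from b) * (show FundamentalGroup F f0 from a) := rfl
  rw [cls, h, map_mul, ofMul_mul, add_comm]
  rfl

/-- The cochain. -/
noncomputable def coch : Ch 1 F →ₗ[ℤ] V f0 :=
  Finsupp.linearCombination ℤ fun σ : C(Dl 2, F) =>
    cls f0 (g f0 σ (stdSimplex.vertex 0) (stdSimplex.vertex 1))

theorem coch_single (σ : C(Dl 2, F)) (m : ℤ) : coch f0 (Finsupp.single σ m) =
    m • cls f0 (g f0 σ (stdSimplex.vertex 0) (stdSimplex.vertex 1)) :=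
  Finsupp.linearCombination_single ℤ m σ

theorem face_vertex (k : ℕ) (i : Fin (k + 1)) (j : Fin k) :
    face k i (stdSimplex.vertex j) = stdSimplex.vertex (i.succAbove j) :=
  stdSimplex.map_vertex _ _

theorem coch_bd (b : Ch 2 F) : coch f0 (bd 1 b) = 0 := by
  induction b using Finsupp.induction_linear with
  | zero => rw [map_zero, map_zero]
  | add a b ha hb => rw [map_add, map_add, ha, hb, add_zero]
  | single τ m =>
    have e : ∀ i : Fin 3, cls f0 (g f0 (τ.comp (face 2 i)) (stdSimplex.vertex 0)
        (stdSimplex.vertex 1)) = cls f0 (g f0 τ (stdSimplex.vertex (i.succAbove 0))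
          (stdSimplex.vertex (i.succAbove 1))) := fun i => by
      rw [g_comp, face_vertex, face_vertex]
    have h := cls_trans f0 (g f0 τ (stdSimplex.vertex 0) (stdSimplex.vertex 1))
      (g f0 τ (stdSimplex.vertex 1) (stdSimplex.vertex 2))
    rw [g_trans] at h
    rw [bd_single, map_sum, Fin.sum_univ_three]
    simp only [coch_single, e]
    have s1 : (0 : Fin 3).succAbove (0 : Fin 2) = 1 := rfl
    have s2 : (0 : Fin 3).succAbove (1 : Fin 2) = 2 := rfl
    have s3 : (1 : Fin 3).succAbove (0 : Fin 2) = 0 := rfl
    have s4 : (1 : Fin 3).succAbove (1 : Fin 2) = 2 := rfl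
    have s5 : (2 : Fin 3).succAbove (0 : Fin 2) = 0 := rfl
    have s6 : (2 : Fin 3).succAbove (1 : Fin 2) = 1 := rfl
    rw [s1, s2, s3, s4, s5, s6, h]
    norm_num

end

/-- The parameter of the edge. -/
noncomputable def par : C(Dl 2, I) := ⟨stdSimplexHomeomorphUnitInterval, by fun_prop⟩

theorem par_zero : par (stdSimplex.vertex 0) = 0 := stdSimplexHomeomorphUnitInterval_zero

theorem par_one : par (stdSimplex.vertex 1) = 1 := stdSimplexHomeomorphUnitInterval_one

theorem conj_cancel {x y : F} (a : Qt x y) (b : Qt y y)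
    (h : (a.trans b).trans a.symm = .refl x) : b = .refl y := by
  have h1 : a.symm.trans (((a.trans b).trans a.symm).trans a) = b := by
    simp only [Path.Homotopic.Quotient.trans_assoc, Path.Homotopic.Quotient.symm_trans,
      Path.Homotopic.Quotient.trans_refl]
    rw [← Path.Homotopic.Quotient.trans_assoc, Path.Homotopic.Quotient.symm_trans,
      Path.Homotopic.Quotient.refl_trans]
  rw [← h1, h, Path.Homotopic.Quotient.refl_trans, Path.Homotopic.Quotient.symm_trans]

theorem simply [PathConnectedSpace F] (f0 : F)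
    (hcomm : ∀ p p' : Path f0 f0, (p.trans p').Homotopic (p'.trans p))
    (hH : ∀ σ : C(Dl 2, F), bd 0 (Finsupp.single σ 1) = 0 →
      ∃ b : Ch 2 F, bd 1 b = Finsupp.single σ 1) : SimplyConnectedSpace F := by
  have hab : ∀ a b : FundamentalGroup F f0, a * b = b * a := by
    intro a b
    obtain ⟨p, rfl⟩ := Path.Homotopic.Quotient.mk_surjective a
    obtain ⟨p', rfl⟩ := Path.Homotopic.Quotient.mk_surjective b
    exact Path.Homotopic.Quotient.eq.2 (hcomm p' p)
  have hinj : ∀ a : FundamentalGroup F f0, cls f0 a = 0 → a = 1 := by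
    intro a ha
    have h1 : Abelianization.of a = 1 := ha
    let _ : CommGroup (FundamentalGroup F f0) :=
      { (inferInstance : Group (FundamentalGroup F f0)) with mul_comm := hab }
    have h2 := congrArg (Abelianization.lift (MonoidHom.id (FundamentalGroup F f0))) h1
    simpa using h2
  have hloop : ∀ p : Path f0 f0, p.Homotopic (Path.refl f0) := by
    intro p
    let σ : C(Dl 2, F) := (p : C(I, F)).comp par
    have hcyc : bd 0 (Finsupp.single σ 1) = 0 := by
      have h0 : σ.comp (face 1 0) = σ.comp (face 1 1) := by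
        have h00 : ∀ i : Fin 2, ∀ x : Dl 1, par (face 1 i x) = 0 ∨ par (face 1 i x) = 1 := by
          intro i x
          have hx : x = stdSimplex.vertex 0 := Subsingleton.elim _ _
          rw [hx, face_vertex]
          fin_cases i
          · exact Or.inr par_one
          · exact Or.inl par_zero
        have h01 : ∀ i : Fin 2, ∀ x : Dl 1, p (par (face 1 i x)) = f0 := by
          intro i x
          rcases h00 i x with h | h
          · rw [h]; exact p.source
          · rw [h]; exact p.target
        ext x
        change p (par (face 1 0 x)) = p (par (face 1 1 x))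
        rw [h01, h01]
      rw [bd_single, Fin.sum_univ_two, h0]
      simp
    obtain ⟨b, hb⟩ := hH σ hcyc
    have h1 := coch_bd f0 b
    rw [hb, coch_single, one_smul, g_comp, par_zero, par_one,
      g_path f0 (p : C(I, F)) p.source p.target] at h1
    have h2 := hinj _ h1
    have h3 : ((q f0 f0).trans (.mk p)).trans (q f0 f0).symm = (.refl f0 : Qt f0 f0) := h2
    exact Path.Homotopic.Quotient.eq.1 (conj_cancel _ _ h3)
  rw [simply_connected_iff_loops_nullhomotopic]
  refine ⟨inferInstance, fun x γ => ?_⟩
  have h1 := hloop (((PathConnectedSpace.somePath f0 x).trans γ).trans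
    (PathConnectedSpace.somePath f0 x).symm)
  have h2 := Path.Homotopic.Quotient.eq.2 h1
  exact Path.Homotopic.Quotient.eq.1 (conj_cancel (q f0 x) _ h2)

end Vale.Agent.P246.T.BS
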