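import Vale.Agent.P246.T.CC.CC2

/-! # Block CC -/

namespace Vale.Agent.P246.T.CC

theorem main1 : SpecCC1 := cc1

theorem main2 : SpecCC2 := cc2

end Vale.Agent.P246.T.CC
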