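import Vale.Agent.P246.T.PR2
import Vale.Agent.P246.T.CC.CC1

/-! # P246-T, block CL: the homology of a family of cells -/

namespace Vale.Agent.P246.T.CL

open Topology Metric Set PR

/-! ### Subdivision -/

section Sd

variable {M : Type} [TopologicalSpace M] (S : SdOp) {A : Set M} {n : ℕ} {c : Ch n M}

theorem s_mem (hc : c ∈ Con A n) : S.s M n c ∈ Con A n := by
  obtain ⟨c', rfl⟩ := exists_push_inc hc
  rw [← S.s_nat]
  exact push_inc_mem _

theorem t_mem (hc : c ∈ Con A n) : S.t M n c ∈ Con A (n + 1) := by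
  obtain ⟨c', rfl⟩ := exists_push_inc hc
  rw [← S.t_nat]
  exact push_inc_mem _

theorem null_sd (hr : RCyc A n c) : Null univ A n (c - S.s M n c) := by
  refine ⟨S.t M n c, Con_univ _, ?_⟩
  cases n with
  | zero => rw [S.t_zero, sub_self]; exact Submodule.zero_mem _
  | succ n => rw [S.t_succ, sub_sub_cancel]; exact t_mem S hr

theorem rcyc_s (hr : RCyc A n c) : RCyc A n (S.s M n c) := by
  cases n with
  | zero => trivial
  | succ n =>
    change bd n (S.s M (n + 1) c) ∈ Con A n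
    rw [S.s_bd]
    exact s_mem S hr

theorem null_sum {B : Set M} {ι : Type*} (s : Finset ι) (f : ι → Ch n M)
    (h : ∀ i ∈ s, Null B A n (f i)) : Null B A n (∑ i ∈ s, f i) :=
  Finset.sum_induction _ _ (fun _ _ => null_add) null_zero h

end Sd

/-! ### The cube -/

section Cube

/-- the open cube -/
def ob (n : ℕ) : Set (Dk n) := {x | ‖(x : Fin n → ℝ)‖ < 1}

/-- the outer part of the cube -/
def out (n : ℕ) : Set (Dk n) := {x | 1 / 2 < ‖(x : Fin n → ℝ)‖}

theorem isOpen_ob (n : ℕ) : IsOpen (ob n) := isOpen_lt (CC.continuous_nm n) continuous_const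

theorem isOpen_out (n : ℕ) : IsOpen (out n) := isOpen_lt continuous_const (CC.continuous_nm n)

theorem ob_or_out {n : ℕ} (x : Dk n) : x ∈ ob n ∨ x ∈ out n := by
  by_cases h : ‖(x : Fin n → ℝ)‖ < 1
  · exact Or.inl h
  · right
    change 1 / 2 < ‖(x : Fin n → ℝ)‖
    linarith [not_lt.1 h]

theorem expd_out {n : ℕ} {x : Dk n} (hx : x ∈ out n) : expd n 1 x ∈ bdk n := by
  have hx' : 1 / 2 < ‖(x : Fin n → ℝ)‖ := hx
  change ‖((1 + ((1 : I) : ℝ)) / max 1 ((1 + ((1 : I) : ℝ)) * ‖(x : Fin n → ℝ)‖)) •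
    (x : Fin n → ℝ)‖ = 1
  have h0 : ((1 : I) : ℝ) = 1 := rfl
  have h1 : (1 : ℝ) ≤ (1 + 1) * ‖(x : Fin n → ℝ)‖ := by linarith
  have h2 : 0 < (1 + 1) * ‖(x : Fin n → ℝ)‖ := by linarith
  rw [h0, max_eq_right h1, norm_smul, Real.norm_of_nonneg (by positivity), div_mul_eq_mul_div,
    div_self h2.ne']

/-- the expansion of the cube, as a homotopy -/
noncomputable def EH (n : ℕ) : C(I × Dk n, Dk n) :=
  ⟨fun q => expd n q.1 q.2, CC.continuous_expd n⟩

/-- the expansion of the cube -/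
noncomputable def ee (n : ℕ) : C(Dk n, Dk n) := at' (EH n) 1

theorem ee_apply {n : ℕ} (x : Dk n) : ee n x = expd n 1 x := rfl

theorem at_EH_zero (n : ℕ) : at' (EH n) 0 = ContinuousMap.id (Dk n) :=
  ContinuousMap.ext fun x => CC.expd_zero n x

theorem ee_out {n : ℕ} {k : ℕ} {c : Ch k (Dk n)} (hc : c ∈ Con (out n) k) :
    push (ee n) k c ∈ Con (bdk n) k := push_mem (fun _ hx => expd_out hx) hc

theorem bdk_out (n : ℕ) : bdk n ⊆ out n := fun x hx => by
  have h : ‖(x : Fin n → ℝ)‖ = 1 := hx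
  change 1 / 2 < ‖(x : Fin n → ℝ)‖
  rw [h]
  norm_num

theorem null_ee {n : ℕ} {k : ℕ} {c : Ch k (Dk n)} (hr : RCyc (bdk n) k c) :
    Null univ (bdk n) k (push (ee n) k c - c) := by
  have h := null_htpy (H := EH n) (B := univ) (B' := univ) (A := bdk n) (A' := bdk n)
    (fun _ _ _ => mem_univ _) (fun t x hx => by
      change expd n t x ∈ bdk n
      rw [CC.expd_bd n t x hx]
      exact hx) (Con_univ c) hr
  rwa [at_EH_zero, push_id] at h

end Cube

/-! ### Cells -/

/-- a family of cells attached to `A`, whose union with `A` is the whole space -/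
structure Cells {M : Type} [TopologicalSpace M] (n : ℕ) {Γ : Type} (A : Set M)
    (φ : Γ → C(Dk n, M)) : Prop where
  bdry : ∀ g x, x ∈ bdk n → φ g x ∈ A
  int : ∀ g x, x ∈ ob n → φ g x ∉ A
  cover : ∀ y, y ∈ A ∨ ∃ g x, φ g x = y
  inj : ∀ g g' (x x' : Dk n), x ∈ ob n → x' ∈ ob n → φ g x = φ g' x' → g = g' ∧ x = x'
  openV : ∀ g (U : Set (Dk n)), IsOpen U → U ⊆ ob n → IsOpen (φ g '' U)
  openW : IsOpen {y | ∀ g x, φ g x = y → x ∈ out n}
  htpy : ∃ ρ : C(I × M, M), (∀ y, ρ (0, y) = y) ∧ (∀ t, ∀ y ∈ A, ρ (t, y) = y) ∧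
    ∀ t g x, ρ (t, φ g x) = φ g (expd n t x)

section Main

variable {M : Type} [TopologicalSpace M] {n : ℕ} {Γ : Type} {A : Set M} {φ : Γ → C(Dk n, M)}

/-- the union of the open cells -/
def VV (φ : Γ → C(Dk n, M)) : Set M := ⋃ g, φ g '' ob n

/-- the complement of the inner parts of the cells -/
def WW (φ : Γ → C(Dk n, M)) : Set M := {y | ∀ g x, φ g x = y → x ∈ out n}

theorem isOpen_VV (h : Cells n A φ) : IsOpen (VV φ) :=
  isOpen_iUnion fun g => h.openV g _ (isOpen_ob n) Subset.rfl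

theorem bdk_or (x : Dk n) : x ∈ ob n ∨ x ∈ bdk n := CC.lt_or x

theorem A_sub_WW (h : Cells n A φ) : A ⊆ WW φ := by
  rintro y hy g x rfl
  rcases bdk_or x with h1 | h1
  · exact absurd hy (h.int g x h1)
  · exact bdk_out n h1

theorem out_WW (h : Cells n A φ) {g : Γ} {x : Dk n} (hx : x ∈ out n) : φ g x ∈ WW φ := by
  intro g' x' he
  rcases bdk_or x with h1 | h1
  · rcases bdk_or x' with h2 | h2
    · rw [(h.inj _ _ _ _ h2 h1 he).2]
      exact hx
    · exact bdk_out n h2
  · exact A_sub_WW h (h.bdry g x h1) g' x' he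

theorem cover_VW (h : Cells n A φ) : (univ : Set M) ⊆ VV φ ∪ WW φ := by
  intro y _
  rcases h.cover y with hy | ⟨g, x, rfl⟩
  · exact Or.inr (A_sub_WW h hy)
  · rcases ob_or_out x with h1 | h1
    · exact Or.inl (mem_iUnion.2 ⟨g, x, h1, rfl⟩)
    · exact Or.inr (out_WW h h1)

instance preDl (k : ℕ) : PreconnectedSpace (Dl (k + 1)) :=
  isPreconnected_iff_preconnectedSpace.1 (convex_stdSimplex ℝ (Fin (k + 1))).isPreconnected

/-- a simplex in the union of the open cells lies in one of them -/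
theorem exists_sheet (h : Cells n A φ) {k : ℕ} (τ : C(Dl (k + 1), M)) (hτ : ∀ x, τ x ∈ VV φ) :
    ∃ g, ∃ σ : C(Dl (k + 1), Dk n), (∀ x, σ x ∈ ob n) ∧ (φ g).comp σ = τ := by
  obtain ⟨g, hg⟩ := mem_iUnion.1 (hτ (stdSimplex.vertex 0))
  have hopen : ∀ g', IsOpen (τ ⁻¹' (φ g' '' ob n)) := fun g' =>
    (h.openV g' _ (isOpen_ob n) Subset.rfl).preimage τ.continuous
  have hcl : IsClopen (τ ⁻¹' (φ g '' ob n)) := by
    refine ⟨?_, hopen g⟩
    have : (τ ⁻¹' (φ g '' ob n))ᶜ = ⋃ (g' : Γ) (_ : g' ≠ g), τ ⁻¹' (φ g' '' ob n) := by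
      ext x
      simp only [mem_compl_iff, mem_iUnion]
      constructor
      · intro hx
        obtain ⟨g', hg'⟩ := mem_iUnion.1 (hτ x)
        exact ⟨g', fun he => hx (he ▸ hg'), hg'⟩
      · rintro ⟨g', hne, y, hy, hyx⟩ ⟨z, hz, hzx⟩
        exact hne (h.inj _ _ _ _ hy hz (hyx.trans hzx.symm)).1
    rw [← isOpen_compl_iff, this]
    exact isOpen_iUnion fun g' => isOpen_iUnion fun _ => hopen g'
  have huniv := hcl.eq_univ ⟨_, hg⟩
  have hx : ∀ x, ∃ y ∈ ob n, φ g y = τ x := fun x => by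
    have : x ∈ τ ⁻¹' (φ g '' ob n) := by rw [huniv]; trivial
    exact this
  choose u hu hu' using hx
  refine ⟨g, ⟨u, ?_⟩, hu, ContinuousMap.ext hu'⟩
  refine continuous_def.2 fun O hO => ?_
  have : u ⁻¹' O = τ ⁻¹' (φ g '' (O ∩ ob n)) := by
    ext x
    constructor
    · intro hx
      exact ⟨u x, ⟨hx, hu x⟩, hu' x⟩
    · rintro ⟨y, ⟨hy, hy'⟩, hyx⟩
      rw [mem_preimage, ← (h.inj _ _ _ _ hy' (hu x) (hyx.trans (hu' x).symm)).2]
      exact hy
  rw [this]
  exact (h.openV g _ (hO.inter (isOpen_ob n)) inter_subset_right).preimage τ.continuous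

/-- the component in the cell `g` -/
noncomputable def pr (φ : Γ → C(Dk n, M)) (g : Γ) (k : ℕ) : Ch k M →ₗ[ℤ] Ch k (Dk n) :=
  Finsupp.linearCombination ℤ fun τ : C(Dl (k + 1), M) => open Classical in
    if h : ∃ σ : C(Dl (k + 1), Dk n), (∀ x, σ x ∈ ob n) ∧ (φ g).comp σ = τ then
      Finsupp.single h.choose (1 : ℤ) else 0

theorem pr_single_same (h : Cells n A φ) (g : Γ) {k : ℕ} (σ : C(Dl (k + 1), Dk n))
    (hσ : ∀ x, σ x ∈ ob n) (m : ℤ) :
    pr φ g k (Finsupp.single ((φ g).comp σ) m) = Finsupp.single σ m := by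
  have hex : ∃ σ' : C(Dl (k + 1), Dk n), (∀ x, σ' x ∈ ob n) ∧ (φ g).comp σ' = (φ g).comp σ :=
    ⟨σ, hσ, rfl⟩
  rw [pr, Finsupp.linearCombination_single, dif_pos hex]
  have he : hex.choose = σ := by
    ext1 x
    exact (h.inj g g _ _ (hex.choose_spec.1 x) (hσ x)
      (congrArg (fun f : C(Dl (k + 1), M) => f x) hex.choose_spec.2)).2
  rw [he, Finsupp.smul_single, smul_eq_mul, mul_one]

theorem pr_single_ne (h : Cells n A φ) {g g' : Γ} (hne : g' ≠ g) {k : ℕ}
    (σ : C(Dl (k + 1), Dk n)) (hσ : ∀ x, σ x ∈ ob n) (m : ℤ) :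
    pr φ g k (Finsupp.single ((φ g').comp σ) m) = 0 := by
  rw [pr, Finsupp.linearCombination_single, dif_neg, smul_zero]
  rintro ⟨σ', hσ', he⟩
  have h1 := h.inj g g' _ _ (hσ' (stdSimplex.vertex 0)) (hσ (stdSimplex.vertex 0))
    (congrArg (fun f : C(Dl (k + 1), M) => f (stdSimplex.vertex 0)) he)
  exact hne h1.1.symm

theorem pr_push_same (h : Cells n A φ) (g : Γ) {k : ℕ} {c : Ch k (Dk n)}
    (hc : c ∈ Con (ob n) k) : pr φ g k (push (φ g) k c) = c := by
  refine Con_ind (P := fun c => pr φ g k (push (φ g) k c) = c) ?_ ?_ ?_ hc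
  · rw [map_zero, map_zero]
  · intro a b ha hb
    rw [map_add, map_add, ha, hb]
  · intro m σ hσ
    rw [push_single, pr_single_same h g σ hσ]

theorem pr_push_ne (h : Cells n A φ) {g g' : Γ} (hne : g' ≠ g) {k : ℕ} {c : Ch k (Dk n)}
    (hc : c ∈ Con (ob n) k) : pr φ g k (push (φ g') k c) = 0 := by
  refine Con_ind (P := fun c => pr φ g k (push (φ g') k c) = 0) ?_ ?_ ?_ hc
  · rw [map_zero, map_zero]
  · intro a b ha hb
    rw [map_add, map_add, ha, hb, add_zero]
  · intro m σ hσ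
    rw [push_single, pr_single_ne h hne σ hσ]

theorem pr_mem_out (g : Γ) {k : ℕ} {c : Ch k M} (hc : c ∈ Con (WW φ) k) :
    pr φ g k c ∈ Con (out n) k := by
  refine Con_ind (P := fun c => pr φ g k c ∈ Con (out n) k) ?_ ?_ ?_ hc
  · rw [map_zero]; exact Submodule.zero_mem _
  · intro a b ha hb
    rw [map_add]; exact Submodule.add_mem _ ha hb
  · intro m τ hτ
    rw [pr, Finsupp.linearCombination_single]
    refine Submodule.smul_mem _ _ ?_
    split_ifs with hex
    · refine single_mem (fun x => ?_) 1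
      exact hτ x g _ (congrArg (fun f : C(Dl (k + 1), M) => f x) hex.choose_spec.2)
    · exact Submodule.zero_mem _

/-- the chain with components `x g` -/
noncomputable def tot (φ : Γ → C(Dk n, M)) (k : ℕ) (x : Γ →₀ Ch k (Dk n)) : Ch k M :=
  x.sum fun g y => push (φ g) k y

theorem tot_add (k : ℕ) (x y : Γ →₀ Ch k (Dk n)) : tot φ k (x + y) = tot φ k x + tot φ k y :=
  Finsupp.sum_add_index' (fun _ => map_zero _) fun _ _ _ => map_add _ _ _

theorem exists_decomp (h : Cells n A φ) {k : ℕ} {c : Ch k M} (hc : c ∈ Con (VV φ) k) :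
    ∃ x : Γ →₀ Ch k (Dk n), (∀ g, x g ∈ Con (ob n) k) ∧ c = tot φ k x := by
  classical
  refine Con_ind (P := fun c => ∃ x : Γ →₀ Ch k (Dk n), (∀ g, x g ∈ Con (ob n) k) ∧
    c = tot φ k x) ?_ ?_ ?_ hc
  · exact ⟨0, fun g => Submodule.zero_mem _, by rw [tot, Finsupp.sum_zero_index]⟩
  · rintro _ _ ⟨x, hx, rfl⟩ ⟨y, hy, rfl⟩
    exact ⟨x + y, fun g => Submodule.add_mem _ (hx g) (hy g), (tot_add k x y).symm⟩
  · intro m τ hτ
    obtain ⟨g, σ, hσ, rfl⟩ := exists_sheet h τ hτ
    refine ⟨Finsupp.single g (Finsupp.single σ m), fun g' => ?_, ?_⟩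
    · rw [Finsupp.single_apply]
      split_ifs
      · exact single_mem hσ m
      · exact Submodule.zero_mem _
    · have h1 := Finsupp.sum_single_index (a := g) (b := (Finsupp.single σ m : Ch k (Dk n)))
        (h := fun g y => push (φ g) k y) (map_zero _)
      rw [tot, h1, push_single]

theorem pr_tot (h : Cells n A φ) {k : ℕ} {x : Γ →₀ Ch k (Dk n)} (hx : ∀ g, x g ∈ Con (ob n) k)
    (g : Γ) : pr φ g k (tot φ k x) = x g := by
  classical
  rw [tot, Finsupp.sum, map_sum]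
  by_cases hg : g ∈ x.support
  · rw [Finset.sum_eq_single_of_mem g hg fun g' _ hne => pr_push_ne h hne (hx g')]
    exact pr_push_same h g (hx g)
  · rw [Finsupp.notMem_support_iff.1 hg]
    exact Finset.sum_eq_zero fun g' hg' => pr_push_ne h (g := g) (g' := g')
      (fun he => hg (by rw [← he]; exact hg')) (hx g')

theorem tot_mapRange {k l : ℕ} (f : Ch k (Dk n) →ₗ[ℤ] Ch l (Dk n)) (x : Γ →₀ Ch k (Dk n)) :
    tot φ l (x.mapRange f (map_zero f)) = x.sum fun g y => push (φ g) l (f y) :=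
  Finsupp.sum_mapRange_index fun _ => map_zero _

theorem bd_tot {k : ℕ} (x : Γ →₀ Ch (k + 1) (Dk n)) :
    bd k (tot φ (k + 1) x) = tot φ k (x.mapRange (bd k) (map_zero _)) := by
  rw [tot_mapRange, tot, Finsupp.sum, Finsupp.sum, map_sum]
  exact Finset.sum_congr rfl fun g _ => push_bd _ _ _

/-- the components of the boundary of a chain in the union of the open cells -/
theorem bd_comp (h : Cells n A φ) {k : ℕ} {x : Γ →₀ Ch (k + 1) (Dk n)}
    (hx : ∀ g, x g ∈ Con (ob n) (k + 1)) (g : Γ) : pr φ g k (bd k (tot φ (k + 1) x)) =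
      bd k (x g) := by
  rw [bd_tot, pr_tot h, Finsupp.mapRange_apply]
  intro g
  rw [Finsupp.mapRange_apply]
  exact bd_mem (hx g)

/-- every relative cycle is homologous to a sum of relative cycles of the cells -/
theorem reduce (h : Cells n A φ) (k : ℕ) (c : Ch k M) (hr : RCyc A k c) :
    ∃ x : Γ →₀ Ch k (Dk n), (∀ g, RCyc (bdk n) k (x g)) ∧ Null univ A k (c - tot φ k x) := by
  obtain ⟨ρ, hρ0, hρA, hρ⟩ := h.htpy
  obtain ⟨S, hS⟩ := SD.main M univ (VV φ) (WW φ) ⟨_, isOpen_VV h, inter_univ _⟩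
    ⟨_, h.openW, inter_univ _⟩ (cover_VW h) k c (Con_univ _)
  obtain ⟨cV, hV, cW, hW, hVW⟩ := Submodule.mem_sup.1 hS
  obtain ⟨x, hx, rfl⟩ := exists_decomp h hV
  have hsr : RCyc A k (S.s M k c) := rcyc_s S hr
  -- the homotopy
  have h1 : Null univ A k (push (at' ρ 1) k (S.s M k c) - S.s M k c) := by
    have h2 := null_htpy (H := ρ) (B := univ) (B' := univ) (A := A) (A' := A)
      (fun _ _ _ => mem_univ _) (fun t y hy => by rw [hρA t y hy]; exact hy)
      (Con_univ (S.s M k c)) hsr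
    rwa [show at' ρ 0 = ContinuousMap.id M from ContinuousMap.ext hρ0, push_id] at h2
  have hW1 : push (at' ρ 1) k cW ∈ Con A k := by
    refine push_mem (fun y hy => ?_) hW
    change ρ (1, y) ∈ A
    rcases h.cover y with hy' | ⟨g, z, rfl⟩
    · rw [hρA 1 y hy']; exact hy'
    · rw [hρ]
      exact h.bdry g _ (expd_out (hy g z rfl))
  have hV1 : push (at' ρ 1) k (tot φ k x) = tot φ k (x.mapRange (push (ee n) k) (map_zero _)) := by
    rw [tot_mapRange, tot, Finsupp.sum, Finsupp.sum, map_sum]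
    refine Finset.sum_congr rfl fun g _ => ?_
    have e : (at' ρ 1).comp (φ g) = (φ g).comp (ee n) := ContinuousMap.ext fun z => hρ 1 g z
    rw [← push_comp, ← push_comp, e]
  refine ⟨x.mapRange (push (ee n) k) (map_zero _), fun g => ?_, ?_⟩
  · rw [Finsupp.mapRange_apply]
    cases k with
    | zero => trivial
    | succ k =>
      change bd k _ ∈ _
      rw [push_bd]
      refine ee_out ?_
      rw [← bd_comp h hx g]
      refine pr_mem_out g ?_
      have h3 : bd k (tot φ (k + 1) x) = bd k (S.s M (k + 1) c) - bd k cW := by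
        rw [← hVW, map_add, add_sub_cancel_right]
      rw [h3]
      exact Submodule.sub_mem _ (Con_mono (A_sub_WW h) hsr) (bd_mem hW)
  · have h4 : c - tot φ k (x.mapRange (push (ee n) k) (map_zero _)) =
        (c - S.s M k c) - (push (at' ρ 1) k (S.s M k c) - S.s M k c) + push (at' ρ 1) k cW := by
      rw [← hV1, ← hVW, map_add]
      abel
    rw [h4]
    exact null_add (null_sub (null_sd S hr) h1) (null_of_con hW1)

theorem null_tot (h : Cells n A φ) {k : ℕ} {x : Γ →₀ Ch k (Dk n)}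
    (hx : ∀ g, Null univ (bdk n) k (x g)) : Null univ A k (tot φ k x) :=
  null_sum _ _ fun g _ => null_push (fun _ _ => mem_univ _) (fun z hz => h.bdry g z hz) (hx g)

theorem main_one (h : Cells n A φ) {ζ : Ch n (Dk n)} (hζ : IsFund n ζ) {k : ℕ} (hk : k ≠ n) :
    HZero univ A k := by
  intro c _ hr
  obtain ⟨x, hx, hc⟩ := reduce h k c hr
  exact (null_iff hc).2 (null_tot h fun g => hζ.zero k hk _ (Con_univ _) (hx g))

theorem sum_smul_eq (m : Γ →₀ ℤ) (ζ : Ch n (Dk n)) :
    (m.sum fun g a => a • push (φ g) n ζ) =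
      tot φ n (m.mapRange (fun a => a • ζ) (zero_smul _ _)) := by
  rw [tot, Finsupp.sum_mapRange_index fun _ => map_zero _]
  exact Finset.sum_congr rfl fun g _ => (map_smul _ _ _).symm

theorem tot_sub (k : ℕ) (x y : Γ →₀ Ch k (Dk n)) : tot φ k (x - y) = tot φ k x - tot φ k y := by
  rw [eq_sub_iff_add_eq, ← tot_add, sub_add_cancel]

theorem main_two (h : Cells n A φ) {ζ : Ch n (Dk n)} (hζ : IsFund n ζ) (c : Ch n M)
    (hr : RCyc A n c) :
    ∃ m : Γ →₀ ℤ, Null univ A n (c - m.sum fun g a => a • push (φ g) n ζ) := by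
  classical
  obtain ⟨x, hx, hc⟩ := reduce h n c hr
  have h1 : ∀ g, ∃ a : ℤ, Null univ (bdk n) n (x g - a • ζ) ∧ (x g = 0 → a = 0) := by
    intro g
    by_cases hg : x g = 0
    · refine ⟨0, ?_, fun _ => rfl⟩
      rw [hg, zero_smul, sub_zero]
      exact null_zero
    · obtain ⟨a, ha⟩ := hζ.gen _ (hx g)
      exact ⟨a, ha, fun h => absurd h hg⟩
  choose m hm hm0 using h1
  let m' : Γ →₀ ℤ := Finsupp.onFinset x.support m fun g hg =>
    Finsupp.mem_support_iff.2 fun h0 => hg (hm0 g h0)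
  refine ⟨m', ?_⟩
  have h2 : c - (m'.sum fun g a => a • push (φ g) n ζ) = (c - tot φ n x) +
      tot φ n (x - m'.mapRange (fun a => a • ζ) (zero_smul _ _)) := by
    rw [sum_smul_eq, tot_sub]
    abel
  rw [h2]
  refine null_add hc (null_tot h fun g => ?_)
  rw [Finsupp.sub_apply, Finsupp.mapRange_apply]
  exact hm g

theorem main_three (h : Cells n A φ) {ζ : Ch n (Dk n)} (hζ : IsFund n ζ) (m : Γ →₀ ℤ)
    (hm : Null univ A n (m.sum fun g a => a • push (φ g) n ζ)) : m = 0 := by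
  obtain ⟨b, -, ha⟩ := hm
  -- subdivisions
  obtain ⟨S, hS⟩ := SD.main M univ (VV φ) (WW φ) ⟨_, isOpen_VV h, inter_univ _⟩
    ⟨_, h.openW, inter_univ _⟩ (cover_VW h) (n + 1) b (Con_univ _)
  obtain ⟨bV, hbV, bW, hbW, hb⟩ := Submodule.mem_sup.1 hS
  obtain ⟨T, hT⟩ := SD.main (Dk n) univ (ob n) (out n) ⟨_, isOpen_ob n, inter_univ _⟩
    ⟨_, isOpen_out n, inter_univ _⟩ (fun x _ => ob_or_out x) n (S.s (Dk n) n ζ) (Con_univ _)
  obtain ⟨ζV, hζV, ζW, hζW, hz⟩ := Submodule.mem_sup.1 hT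
  obtain ⟨y, hy, hyV⟩ := exists_decomp h (s_mem T hbV)
  set z := m.sum fun g a => a • push (φ g) n ζ with hzdef
  -- the image of `z`
  have hsz : T.s M n (S.s M n z) =
      tot φ n (m.mapRange (fun a => a • ζV) (zero_smul _ _)) +
        m.sum fun g a => a • push (φ g) n ζW := by
    rw [← sum_smul_eq, hzdef, Finsupp.sum, map_sum, map_sum, Finsupp.sum, Finsupp.sum,
      ← Finset.sum_add_distrib]
    refine Finset.sum_congr rfl fun g _ => ?_
    rw [map_smul, map_smul, ← S.s_nat, ← T.s_nat, ← hz, map_add, smul_add]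
  have hsz' : T.s M n (S.s M n z) = bd n (tot φ (n + 1) y) + bd n (T.s M (n + 1) bW) +
      T.s M n (S.s M n (z - bd n b)) := by
    rw [← hyV, ← map_add, ← map_add, hb, T.s_bd, S.s_bd, ← map_add, ← map_add, add_sub_cancel]
  have key : tot φ n (m.mapRange (fun a => a • ζV) (zero_smul _ _)) - bd n (tot φ (n + 1) y) ∈
      Con (WW φ) n := by
    have h1 : tot φ n (m.mapRange (fun a => a • ζV) (zero_smul _ _)) - bd n (tot φ (n + 1) y) =
        bd n (T.s M (n + 1) bW) + T.s M n (S.s M n (z - bd n b)) -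
          m.sum fun g a => a • push (φ g) n ζW := by
      rw [eq_sub_iff_add_eq, sub_add_eq_add_sub, ← hsz, hsz']
      abel
    rw [h1]
    refine Submodule.sub_mem _ (Submodule.add_mem _ (bd_mem (s_mem T hbW)) ?_) ?_
    · exact Con_mono (A_sub_WW h) (s_mem T (s_mem S ha))
    · exact Submodule.sum_mem _ fun g _ => Submodule.smul_mem _ _
        (push_mem (fun x hx => out_WW h hx) hζW)
  -- the components
  ext g
  refine hζ.tf _ ?_
  have h2 := pr_mem_out g key
  rw [map_sub, bd_comp h hy, pr_tot h, Finsupp.mapRange_apply] at h2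
  swap
  · intro g
    rw [Finsupp.mapRange_apply]
    exact Submodule.smul_mem _ _ hζV
  have h3 := ee_out h2
  rw [map_sub, map_smul, ← push_bd] at h3
  have h4 : Null univ (bdk n) n (m g • push (ee n) n ζV) := ⟨_, Con_univ _, h3⟩
  have hr1 : RCyc (bdk n) n (S.s (Dk n) n ζ) := rcyc_s S hζ.cyc
  have hr2 : RCyc (bdk n) n (T.s (Dk n) n (S.s (Dk n) n ζ)) := rcyc_s T hr1
  have h5 : m g • ζ = m g • (ζ - S.s (Dk n) n ζ) +
      m g • (S.s (Dk n) n ζ - T.s (Dk n) n (S.s (Dk n) n ζ)) -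
      m g • (push (ee n) n (T.s (Dk n) n (S.s (Dk n) n ζ)) - T.s (Dk n) n (S.s (Dk n) n ζ)) +
      m g • push (ee n) n ζW + m g • push (ee n) n ζV := by
    rw [← smul_add, ← smul_sub, ← smul_add, ← smul_add]
    congr 1
    rw [← hz, map_add]
    abel
  rw [h5]
  exact null_add (null_add (null_sub (null_add (null_smul _ (null_sd S hζ.cyc))
    (null_smul _ (null_sd T hr1))) (null_smul _ (null_ee hr2)))
    (null_smul _ (null_of_con (ee_out hζW)))) h4

end Main

/-! ### The block -/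

theorem main : SpecCL := by
  intro E _ n Γ B A Φ ζ hζ h
  let φ : Γ → C(Dk n, B) := fun g => ⟨fun x => ⟨Φ g x, h.mem g x⟩, by fun_prop⟩
  have hφ : ∀ g, (inc B).comp (φ g) = Φ g := fun g => rfl
  have hC : Cells n (Subtype.val ⁻¹' A : Set B) φ :=
    { bdry := fun g x hx => h.bdry g x hx
      int := fun g x hx => h.int g x hx
      cover := fun y => by
        rcases h.cover y y.2 with h1 | ⟨g, x, h1⟩
        · exact Or.inl h1
        · exact Or.inr ⟨g, x, Subtype.ext h1⟩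
      inj := fun g g' x x' hx hx' he => h.inj g g' x x' hx hx' (congrArg Subtype.val he)
      openV := fun g U hU hU' => by
        obtain ⟨O, hO, he⟩ := h.openV g U hU fun x hx => hU' hx
        have : φ g '' U = Subtype.val ⁻¹' O := by
          ext y
          constructor
          · rintro ⟨x, hx, rfl⟩
            have h1 : Φ g x ∈ O ∩ B := by rw [he]; exact ⟨x, hx, rfl⟩
            exact h1.1
          · intro hy
            have h1 : (y : E) ∈ O ∩ B := ⟨hy, y.2⟩
            rw [he] at h1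
            obtain ⟨x, hx, h2⟩ := h1
            exact ⟨x, hx, Subtype.ext h2⟩
        rw [this]
        exact hO.preimage continuous_subtype_val
      openW := by
        obtain ⟨O, hO, he⟩ := h.openW
        have : {y : B | ∀ g x, φ g x = y → x ∈ out n} = Subtype.val ⁻¹' O := by
          ext y
          constructor
          · intro hy
            have h1 : (y : E) ∈ O ∩ B := by
              rw [he]
              exact ⟨y.2, fun g x hx => hy g x (Subtype.ext hx)⟩
            exact h1.1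
          · intro hy g x hx
            have h1 : (y : E) ∈ O ∩ B := ⟨hy, y.2⟩
            rw [he] at h1
            exact h1.2 g x (congrArg Subtype.val hx)
        rw [this]
        exact hO.preimage continuous_subtype_val
      htpy := by
        obtain ⟨ρ, h0, h1, h2⟩ := h.htpy
        exact ⟨ρ, h0, fun t y hy => h1 t y hy, fun t g x => Subtype.ext (h2 t g x)⟩ }
  have hsum : ∀ m : Γ →₀ ℤ, (m.sum fun g a => a • push (Φ g) n ζ) =
      push (inc B) n (m.sum fun g a => a • push (φ g) n ζ) := by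
    intro m
    rw [Finsupp.sum, Finsupp.sum, map_sum]
    refine Finset.sum_congr rfl fun g _ => ?_
    rw [map_smul, ← push_comp, hφ]
  refine ⟨fun k hk => hzero_inc_iff.2 (main_one hC hζ hk), fun c hc hr => ?_, fun m hm => ?_⟩
  · obtain ⟨c', rfl⟩ := exists_push_inc hc
    obtain ⟨m, hm⟩ := main_two hC hζ c' (rcyc_inc_iff.1 hr)
    refine ⟨m, ?_⟩
    rw [hsum, ← map_sub]
    exact null_inc_iff.2 hm
  · rw [hsum] at hm
    exact main_three hC hζ m (null_inc_iff.1 hm)

end Vale.Agent.P246.T.CL
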