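import Vale.Agent.P246.T.Spec
import Mathlib.Analysis.Convex.GaugeRescale
import Mathlib.Analysis.Normed.Module.FiniteDimension

/-! # Block CV: the homeomorphism of pairs cube / simplex -/

namespace Vale.Agent.P246.T.CV

open Topology Metric Set

/-- the corner simplex -/
def Tn (n : ℕ) : Set (Fin n → ℝ) := {y | (∀ i, 0 ≤ y i) ∧ ∑ i, y i ≤ 1}

theorem isClosed_Tn (n : ℕ) : IsClosed (Tn n) := by
  have h1 : IsClosed {y : Fin n → ℝ | ∀ i, 0 ≤ y i} := by
    simp only [Set.ofPred_forall]
    exact isClosed_iInter fun i => isClosed_le continuous_const (continuous_apply i)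
  have h2 : IsClosed {y : Fin n → ℝ | ∑ i, y i ≤ 1} :=
    isClosed_le (continuous_finsetSum _ fun i _ => continuous_apply i) continuous_const
  exact h1.inter h2

theorem convex_Tn (n : ℕ) : Convex ℝ (Tn n) := by
  intro x hx y hy a b ha hb hab
  refine ⟨fun i => ?_, ?_⟩
  · have := mul_nonneg ha (hx.1 i)
    have := mul_nonneg hb (hy.1 i)
    show 0 ≤ a * x i + b * y i
    linarith
  · have h : ∑ i, (a • x + b • y) i = a * ∑ i, x i + b * ∑ i, y i := by
      simp only [Pi.add_apply, Pi.smul_apply, smul_eq_mul, Finset.sum_add_distrib, Finset.mul_sum]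
    rw [h]
    have h1 := mul_le_mul_of_nonneg_left hx.2 ha
    have h2 := mul_le_mul_of_nonneg_left hy.2 hb
    linarith

theorem bounded_Tn (n : ℕ) : Bornology.IsBounded (Tn n) := by
  refine (isBounded_closedBall (x := (0 : Fin n → ℝ)) (r := 1)).subset fun y hy => ?_
  rw [mem_closedBall_zero_iff, pi_norm_le_iff_of_nonneg zero_le_one]
  intro i
  rw [Real.norm_of_nonneg (hy.1 i)]
  exact (Finset.single_le_sum (fun j _ => hy.1 j) (Finset.mem_univ i)).trans hy.2

/-- the open corner simplex -/
def To (n : ℕ) : Set (Fin n → ℝ) := {y | (∀ i, 0 < y i) ∧ ∑ i, y i < 1}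

theorem isOpen_To (n : ℕ) : IsOpen (To n) := by
  have h1 : IsOpen {y : Fin n → ℝ | ∀ i, 0 < y i} := by
    simp only [Set.ofPred_forall]
    exact isOpen_iInter_of_finite fun i => isOpen_lt continuous_const (continuous_apply i)
  have h2 : IsOpen {y : Fin n → ℝ | ∑ i, y i < 1} :=
    isOpen_lt (continuous_finsetSum _ fun i _ => continuous_apply i) continuous_const
  exact h1.inter h2

theorem interior_Tn (n : ℕ) : interior (Tn n) = To n := by
  refine Subset.antisymm (fun y hy => ⟨fun i => ?_, ?_⟩) ?_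
  · have h : (fun z : Fin n → ℝ => z i) '' interior (Tn n) ⊆ interior (Ici 0) := by
      refine interior_maximal ?_ ((isOpenMap_eval i) _ isOpen_interior)
      rintro _ ⟨z, hz, rfl⟩
      exact (interior_subset hz).1 i
    have := h ⟨y, hy, rfl⟩
    rwa [interior_Ici] at this
  · rcases Nat.eq_zero_or_pos n with rfl | hn
    · simp
    · let f : (Fin n → ℝ) →ₗ[ℝ] ℝ := ∑ i, LinearMap.proj i
      have hf : ∀ z, f z = ∑ i, z i := fun z => by simp [f]
      have hs : Function.Surjective f := fun r => ⟨Pi.single ⟨0, hn⟩ r, by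
        rw [hf, Finset.sum_pi_single']; simp⟩
      have h : f '' interior (Tn n) ⊆ interior (Iic 1) := by
        refine interior_maximal ?_ ((f.isOpenMap_of_finiteDimensional hs) _ isOpen_interior)
        rintro _ ⟨z, hz, rfl⟩
        rw [hf]
        exact (interior_subset hz).2
      have := h ⟨y, hy, rfl⟩
      rw [interior_Iic, hf] at this
      exact this
  · exact interior_maximal (fun y hy => ⟨fun i => (hy.1 i).le, hy.2.le⟩) (isOpen_To n)

theorem nonempty_To (n : ℕ) : (To n).Nonempty := by
  refine ⟨fun _ => 1 / (n + 1 : ℝ), fun i => by positivity, ?_⟩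
  rw [Finset.sum_const, Finset.card_univ, Fintype.card_fin, nsmul_eq_mul]
  rw [mul_one_div, div_lt_one (by positivity)]
  linarith

theorem frontier_Tn (n : ℕ) (y : Fin n → ℝ) (hy : y ∈ Tn n) :
    y ∈ frontier (Tn n) ↔ (∃ i, y i = 0) ∨ ∑ i, y i = 1 := by
  rw [(isClosed_Tn n).frontier_eq, mem_sdiff, interior_Tn]
  constructor
  · rintro ⟨-, h⟩
    by_contra hc
    push Not at hc
    exact h ⟨fun i => lt_of_le_of_ne (hy.1 i) (Ne.symm (hc.1 i)), lt_of_le_of_ne hy.2 hc.2⟩
  · rintro (⟨i, hi⟩ | h)
    · exact ⟨hy, fun h => (h.1 i).ne' hi⟩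
    · exact ⟨hy, fun h' => h'.2.ne h⟩

/-- the homeomorphism of pairs -/
theorem simplexBall (n : ℕ) : ∃ h : Dl (n + 1) ≃ₜ Dk n,
    ∀ x : Dl (n + 1), (∃ i, x i = 0) ↔ h x ∈ bdk n := by
  obtain ⟨h, -, h1, h2⟩ := exists_homeomorph_image_interior_closure_frontier_eq_unitBall
    (convex_Tn n) (by rw [interior_Tn]; exact nonempty_To n) (bounded_Tn n)
  rw [(isClosed_Tn n).closure_eq] at h1
  have hmem : ∀ x : Dl (n + 1), (fun i : Fin n => x i.succ) ∈ Tn n := fun x => by
    refine ⟨fun i => x.2.1 _, ?_⟩
    have h3 : ∑ i, x i = 1 := x.2.2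
    rw [Fin.sum_univ_succ] at h3
    have := x.2.1 0
    show ∑ i : Fin n, x i.succ ≤ 1
    have h4 : (0 : ℝ) ≤ x 0 := x.2.1 0
    linarith
  have hinv : ∀ z : Dk n, h.symm z ∈ Tn n := fun z => by
    have hz : (z : Fin n → ℝ) ∈ h '' Tn n := by rw [h1]; exact z.2
    obtain ⟨y, hy, hyz⟩ := hz
    rw [← hyz, h.symm_apply_apply]
    exact hy
  let F : Dl (n + 1) ≃ₜ Dk n :=
  { toFun := fun x => ⟨h fun i => x i.succ, by
      rw [← h1]; exact ⟨_, hmem x, rfl⟩⟩
    invFun := fun z => ⟨Fin.cons (1 - ∑ i, h.symm z i) (h.symm z), by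
      refine ⟨fun i => ?_, ?_⟩
      · refine Fin.cases ?_ (fun j => ?_) i
        · rw [Fin.cons_zero]
          have := (hinv z).2
          linarith
        · rw [Fin.cons_succ]
          exact (hinv z).1 j
      · rw [Fin.sum_univ_succ]
        simp only [Fin.cons_zero, Fin.cons_succ]
        ring⟩
    left_inv := fun x => by
      refine Subtype.ext (funext fun i => ?_)
      have h3 : x 0 + ∑ i : Fin n, x i.succ = 1 := by
        rw [← Fin.sum_univ_succ]; exact x.2.2
      refine Fin.cases ?_ (fun j => ?_) i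
      · show (1 : ℝ) - ∑ i, h.symm (h fun i => x i.succ) i = x 0
        rw [h.symm_apply_apply]
        linarith
      · show h.symm (h fun i => x i.succ) j = x j.succ
        rw [h.symm_apply_apply]
    right_inv := fun z => by
      refine Subtype.ext ?_
      show h (fun i : Fin n => (Fin.cons (1 - ∑ i, h.symm z i) (h.symm z) : Fin (n + 1) → ℝ)
        i.succ) = z
      simp only [Fin.cons_succ]
      exact h.apply_symm_apply _
    continuous_toFun := by
      refine Continuous.subtype_mk (h.continuous.comp ?_) _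
      exact continuous_pi fun i => (continuous_apply i.succ).comp continuous_subtype_val
    continuous_invFun := by
      refine Continuous.subtype_mk ?_ _
      have hc : Continuous fun z : Dk n => h.symm (z : Fin n → ℝ) :=
        h.symm.continuous.comp continuous_subtype_val
      refine continuous_pi fun i => ?_
      refine Fin.cases ?_ (fun j => ?_) i
      · simp only [Fin.cons_zero]
        exact continuous_const.sub (continuous_finsetSum _ fun i _ =>
          (continuous_apply i).comp hc)
      · simp only [Fin.cons_succ]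
        exact (continuous_apply j).comp hc }
  refine ⟨F, fun x => ?_⟩
  have e1 : (∃ i, x i = 0) ↔ (fun i : Fin n => x i.succ) ∈ frontier (Tn n) := by
    rw [frontier_Tn n _ (hmem x)]
    have h3 : x 0 + ∑ i : Fin n, x i.succ = 1 := by
      rw [← Fin.sum_univ_succ]; exact x.2.2
    constructor
    · rintro ⟨i, hi⟩
      revert hi
      refine Fin.cases (fun hi => ?_) (fun j hi => ?_) i
      · right; rw [hi, zero_add] at h3; exact h3
      · left; exact ⟨j, hi⟩
    · rintro (⟨j, hj⟩ | hs)
      · exact ⟨j.succ, hj⟩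
      · exact ⟨0, by rw [hs] at h3; linarith⟩
  rw [e1]
  show _ ↔ ‖h fun i : Fin n => x i.succ‖ = 1
  rw [← mem_sphere_zero_iff_norm, ← h2]
  exact (h.injective.mem_set_image).symm

theorem face_self (k : ℕ) (i : Fin (k + 1)) (x : Dl k) : face k i x i = 0 := by
  change stdSimplex.map (S := ℝ) i.succAbove x i = 0
  rw [stdSimplex.map_coe, FunOnFinite.linearMap_apply_apply]
  refine Finset.sum_eq_zero fun y hy => ?_
  exact absurd (Finset.mem_filter.1 hy).2 (Fin.succAbove_ne i y)

theorem face_succAbove (k : ℕ) (i : Fin (k + 1)) (x : Dl k) (a : Fin k) :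
    face k i x (i.succAbove a) = x a := by
  change stdSimplex.map (S := ℝ) i.succAbove x (i.succAbove a) = x a
  rw [stdSimplex.map_coe, FunOnFinite.linearMap_apply_apply]
  have : (Finset.univ.filter fun y => i.succAbove y = i.succAbove a) = {a} := by
    ext y; simp
  rw [this, Finset.sum_singleton]

/-- a point of the boundary lies on a face -/
theorem exists_face {k : ℕ} {x : Dl (k + 1)} (i : Fin (k + 1)) (hx : x i = 0) :
    ∃ y, face k i y = x := by
  have hs : ∑ a, x (i.succAbove a) = 1 := by
    have : ∑ a, x a = 1 := x.2.2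
    rw [Fin.sum_univ_succAbove _ i, hx, zero_add] at this
    exact this
  refine ⟨⟨fun a => x (i.succAbove a), fun a => x.2.1 _, hs⟩, ?_⟩
  refine Subtype.ext (funext fun a => ?_)
  show face k i _ a = x a
  refine Fin.succAboveCases i ?_ (fun b => ?_) a
  · rw [face_self, hx]
  · rw [face_succAbove]; rfl

/-- BLOCK CV -/
theorem main : SpecConv := by
  intro B _ A n hL s G h0 h1
  obtain ⟨h, hh⟩ := simplexBall n
  have hf : ∀ (i : Fin (n + 1)) (y : Dl n), h (face n i y) ∈ bdk n := fun i y =>
    (hh _).1 ⟨i, face_self n i y⟩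
  obtain ⟨K, hK0, hKf, hK1⟩ := hL (s.comp ⟨h, h.continuous⟩)
    (fun i => ⟨fun q => G (q.1, ⟨h (face n i q.2), hf i q.2⟩), by
      refine G.continuous.comp (continuous_fst.prodMk ?_)
      refine Continuous.subtype_mk ?_ _
      exact h.continuous.comp ((face n i).continuous.comp continuous_snd)⟩)
    (fun i x => h0 ⟨h (face n i x), hf i x⟩)
    (fun i j x y hxy t => by
      show G (t, ⟨h (face n i x), _⟩) = G (t, ⟨h (face n j y), _⟩)
      simp only [hxy])
    (fun i x => h1 ⟨h (face n i x), hf i x⟩)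
  refine ⟨⟨fun q => K (q.1, h.symm q.2), K.continuous.comp
    (continuous_fst.prodMk (h.symm.continuous.comp continuous_snd))⟩, fun x => ?_,
    fun t x => ?_, fun x => hK1 _⟩
  · show K (0, h.symm x) = s x
    rw [hK0]
    show s (h (h.symm x)) = s x
    rw [h.apply_symm_apply]
  · show K (t, h.symm x) = G (t, x)
    obtain ⟨i, hi⟩ := (hh (h.symm x)).2 (by rw [h.apply_symm_apply]; exact x.2)
    obtain ⟨y, hy⟩ := exists_face i hi
    rw [← hy, hKf]
    show G (t, ⟨h (face n i y), _⟩) = G (t, x)
    congr 2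
    refine Subtype.ext ?_
    show h (face n i y) = x
    rw [hy, h.apply_symm_apply]

end Vale.Agent.P246.T.CV
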