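import Vale.Agent.P246.T.Spec

/-! # P246-T, block CWB: finite CW complexes are built by attaching finitely many cells -/

namespace Vale.Agent.P246.T.CWB

open Topology Metric Set

section

variable {X : Type} [TopologicalSpace X] [CWComplex (univ : Set X)]

/-- the cells of all dimensions -/
abbrev Cells (X : Type) [TopologicalSpace X] [CWComplex (univ : Set X)] : Type :=
  Σ n, RelCWComplex.cell (univ : Set X) n

/-- the closed cell -/
def cc (c : Cells X) : Set X := RelCWComplex.closedCell c.1 c.2

/-- the open cell -/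
def oc (c : Cells X) : Set X := RelCWComplex.openCell c.1 c.2

/-- the characteristic map -/
def chi (c : Cells X) : C(Dk c.1, X) :=
  ⟨fun x => RelCWComplex.map c.1 c.2 x,
    continuousOn_iff_continuous_domRestrict.1 (RelCWComplex.continuousOn c.1 c.2)⟩

theorem range_chi (c : Cells X) : range (chi c) = cc c := by
  ext y
  constructor
  · rintro ⟨x, rfl⟩
    exact ⟨x, x.2, rfl⟩
  · rintro ⟨x, hx, rfl⟩
    exact ⟨⟨x, hx⟩, rfl⟩

/-- the frontier lies in the union of the closed cells of smaller dimension -/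
theorem frontier (c : Cells X) (x : Dk c.1) (hx : ‖(x : Fin c.1 → ℝ)‖ = 1) :
    ∃ c' : Cells X, c'.1 < c.1 ∧ chi c x ∈ cc c' := by
  obtain ⟨I, hI⟩ := CWComplex.mapsTo (C := (univ : Set X)) c.1 c.2
  have h1 := hI (x := (x : Fin c.1 → ℝ)) (by rw [mem_sphere_zero_iff_norm]; exact hx)
  simp only [mem_iUnion] at h1
  obtain ⟨m, hm, j, -, hj⟩ := h1
  exact ⟨⟨m, j⟩, hm, hj⟩

/-- a point of a closed cell lies in an open cell which is the same cell or has smaller
dimension -/
theorem closed_open (n : ℕ) : ∀ c : Cells X, c.1 = n → ∀ y ∈ cc c,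
    ∃ c' : Cells X, y ∈ oc c' ∧ (c' = c ∨ c'.1 < c.1) := by
  induction n using Nat.strong_induction_on with
  | _ n ih =>
    intro c hc y hy
    rw [← range_chi] at hy
    obtain ⟨x, rfl⟩ := hy
    have hx := mem_closedBall_zero_iff.1 x.2
    rcases hx.lt_or_eq with h | h
    · exact ⟨c, ⟨x, mem_ball_zero_iff.2 h, rfl⟩, Or.inl rfl⟩
    · obtain ⟨c', hc', h'⟩ := frontier c x h
      obtain ⟨c'', h1, h2⟩ := ih c'.1 (by omega) c' rfl _ h'
      refine ⟨c'', h1, Or.inr ?_⟩
      rcases h2 with rfl | h2
      · exact hc'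
      · exact h2.trans hc'

theorem disj {c c' : Cells X} {y : X} (h : y ∈ oc c) (h' : y ∈ oc c') : c = c' := by
  by_contra hne
  exact (Set.disjoint_left.1 (RelCWComplex.disjoint_openCell_of_ne hne)) h h'

/-- the union of the closed cells of `T` -/
def U (T : Finset (Cells X)) : Set X := ⋃ c ∈ T, cc c

theorem built : ∀ (k : ℕ) (T : Finset (Cells X)), T.card = k →
    (∀ c ∈ T, ∀ c' : Cells X, c'.1 < c.1 → c' ∈ T) → Built ∅ (U T) := by
  classical
  intro k
  induction k with
  | zero =>
    intro T hT _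
    rw [Finset.card_eq_zero] at hT
    subst hT
    have : U (∅ : Finset (Cells X)) = ∅ := by simp [U]
    rw [this]
    exact Built.base
  | succ k ih =>
    intro T hT hdown
    have hne : T.Nonempty := by
      rw [← Finset.card_pos]; omega
    obtain ⟨c, hc, hmax⟩ := Finset.exists_max_image T (fun c => c.1) hne
    have h1 : ∀ c' ∈ T.erase c, ∀ c'' : Cells X, c''.1 < c'.1 → c'' ∈ T.erase c := by
      intro c' hc' c'' h
      have h2 := hmax c' (Finset.mem_of_mem_erase hc')
      refine Finset.mem_erase.2 ⟨?_, hdown c' (Finset.mem_of_mem_erase hc') c'' h⟩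
      rintro rfl
      omega
    have h2 := ih (T.erase c) (by rw [Finset.card_erase_of_mem hc, hT]; rfl) h1
    refine Built.cell c.1 (chi c) h2 ⟨?_, ?_, ?_, ?_⟩
    · intro x hx
      obtain ⟨c', hc', h'⟩ := frontier c x hx
      refine mem_iUnion₂.2 ⟨c', Finset.mem_erase.2 ⟨?_, hdown c hc c' hc'⟩, h'⟩
      rintro rfl
      exact lt_irrefl _ hc'
    · intro x hx hcon
      obtain ⟨c', hc', h'⟩ := mem_iUnion₂.1 hcon
      obtain ⟨c'', h3, h4⟩ := closed_open c'.1 c' rfl _ h'
      have h5 : c = c'' := disj (c := c) ⟨x, mem_ball_zero_iff.2 hx, rfl⟩ h3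
      have h6 := hmax c' (Finset.mem_of_mem_erase hc')
      rcases h4 with rfl | h4
      · exact (Finset.mem_erase.1 hc').1 h5.symm
      · rw [← h5] at h4
        omega
    · intro x y hx hy hxy
      have h3 := (RelCWComplex.map c.1 c.2).injOn
        (by rw [RelCWComplex.source_eq]; exact mem_ball_zero_iff.2 hx)
        (by rw [RelCWComplex.source_eq]; exact mem_ball_zero_iff.2 hy) hxy
      exact Subtype.ext h3
    · rw [range_chi]
      ext y
      simp only [U, mem_iUnion, mem_union, Finset.mem_erase, exists_prop]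
      constructor
      · rintro ⟨c', hc', hy⟩
        by_cases e : c' = c
        · rw [← e]; exact Or.inr hy
        · exact Or.inl ⟨c', ⟨e, hc'⟩, hy⟩
      · rintro (⟨c', hc', hy⟩ | hy)
        · exact ⟨c', hc'.2, hy⟩
        · exact ⟨c, hc, hy⟩

theorem exists_cell (y : X) : ∃ c : Cells X, y ∈ cc c := by
  have h : y ∈ ⋃ (n : ℕ) (j : RelCWComplex.cell (univ : Set X) n),
      RelCWComplex.closedCell (C := (univ : Set X)) n j := by
    rw [CWComplex.union]; trivial
  simp only [mem_iUnion] at h
  obtain ⟨n, j, hj⟩ := h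
  exact ⟨⟨n, j⟩, hj⟩

end

instance (n : ℕ) : LocallyPathConnectedSpace (Dk n) :=
  (convex_closedBall (0 : Fin n → ℝ) 1).locallyPathConnectedSpace

theorem main : SpecCWB := by
  intro X _ _ _ _
  have hfin : Finite (Cells X) := RelCWComplex.finite_cells_of_finite
  have : Fintype (Cells X) := Fintype.ofFinite _
  -- the quotient map
  let π : (Σ c : Cells X, Dk c.1) → X := fun z => chi z.1 z.2
  have hπ : Continuous π := continuous_sigma fun c => (chi c).continuous
  have hsurj : Function.Surjective π := by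
    intro y
    obtain ⟨c, hc⟩ := exists_cell y
    rw [← range_chi] at hc
    obtain ⟨x, rfl⟩ := hc
    exact ⟨⟨c, x⟩, rfl⟩
  refine ⟨?_, ?_, ?_⟩
  · have h := built (X := X) _ Finset.univ rfl fun _ _ _ _ => Finset.mem_univ _
    have e : U (Finset.univ : Finset (Cells X)) = univ := by
      ext y
      obtain ⟨c, hc⟩ := exists_cell y
      exact ⟨fun _ => trivial, fun _ => mem_iUnion₂.2 ⟨c, Finset.mem_univ _, hc⟩⟩
    rwa [e] at h
  · exact hsurj.compactSpace hπ
  · have hc : IsClosedMap π := hπ.isClosedMap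
    have hq : IsQuotientMap π := hc.isQuotientMap hπ hsurj
    exact hq.locallyPathConnectedSpace

end Vale.Agent.P246.T.CWB
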