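import Vale.Agent.P246.T.Spec2
import Vale.Agent.P246.T.CC.CC1

/-! # Block CY: the CW structure of the presentation complex -/

namespace Vale.Agent.P246.T.CY

open Topology Metric Set

section Cell

variable {X : Type} [TopologicalSpace X] {n : ℕ} {A B Y : Set X}

theorem clp_of_mem {n : ℕ} (v : Fin n → ℝ) (hv : v ∈ closedBall (0 : Fin n → ℝ) 1) :
    clp n v = ⟨v, hv⟩ := by
  apply Subtype.ext
  funext i
  have h1 := (pi_norm_le_iff_of_nonneg zero_le_one).1 (mem_closedBall_zero_iff.1 hv) i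
  rw [Real.norm_eq_abs, abs_le] at h1
  change max (-1) (min 1 (v i)) = v i
  rw [min_eq_right h1.2, max_eq_right h1.1]

/-- the characteristic map into the subspace `Y` -/
noncomputable def cm (Φ : C(Dk n, X)) (hm : ∀ x, Φ x ∈ Y) (v : Fin n → ℝ) : Y :=
  ⟨Φ (clp n v), hm _⟩

theorem continuous_cm (Φ : C(Dk n, X)) (hm : ∀ x, Φ x ∈ Y) : Continuous (cm Φ hm) :=
  Continuous.subtype_mk (Φ.continuous.comp (continuous_clp n)) _

theorem cm_of_mem (Φ : C(Dk n, X)) (hm : ∀ x, Φ x ∈ Y) (v : Fin n → ℝ)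
    (hv : v ∈ closedBall (0 : Fin n → ℝ) 1) : (cm Φ hm v : X) = Φ ⟨v, hv⟩ := by
  change Φ (clp n v) = _
  rw [clp_of_mem v hv]

theorem cm_injOn (Φ : C(Dk n, X)) (hm : ∀ x, Φ x ∈ Y) (h : Attach n A B Φ) :
    InjOn (cm Φ hm) (ball 0 1) := by
  intro v hv w hw he
  have h1 : (cm Φ hm v : X) = cm Φ hm w := congrArg Subtype.val he
  rw [cm_of_mem Φ hm v (ball_subset_closedBall hv), cm_of_mem Φ hm w (ball_subset_closedBall hw)]
    at h1
  exact congrArg Subtype.val (h.inj _ _ (mem_ball_zero_iff.1 hv) (mem_ball_zero_iff.1 hw) h1)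

/-- the characteristic map, with its inverse on the open cell -/
noncomputable def pe (Φ : C(Dk n, X)) (hm : ∀ x, Φ x ∈ Y) (h : Attach n A B Φ) :
    PartialEquiv (Fin n → ℝ) Y :=
  InjOn.toPartialEquiv (cm Φ hm) (ball 0 1) (cm_injOn Φ hm h)

theorem pe_coe (Φ : C(Dk n, X)) (hm : ∀ x, Φ x ∈ Y) (h : Attach n A B Φ) :
    (pe Φ hm h : (Fin n → ℝ) → Y) = cm Φ hm := rfl

theorem pe_source (Φ : C(Dk n, X)) (hm : ∀ x, Φ x ∈ Y) (h : Attach n A B Φ) :
    (pe Φ hm h).source = ball 0 1 := rfl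

theorem pe_target (Φ : C(Dk n, X)) (hm : ∀ x, Φ x ∈ Y) (h : Attach n A B Φ) :
    (pe Φ hm h).target = cm Φ hm '' ball 0 1 := rfl

theorem pe_symm [T2Space X] (hA : IsClosed A) (Φ : C(Dk n, X)) (hm : ∀ x, Φ x ∈ Y)
    (h : Attach n A B Φ) : ContinuousOn (pe Φ hm h).symm (pe Φ hm h).target := by
  rw [_root_.continuousOn_iff']
  intro t ht
  have hU : IsOpen {x : Dk n | ‖(x : Fin n → ℝ)‖ < 1 ∧ (x : Fin n → ℝ) ∈ t} := by
    have h1 : IsOpen {x : Dk n | ‖(x : Fin n → ℝ)‖ < 1} :=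
      isOpen_lt (CC.continuous_nm n) continuous_const
    exact h1.inter (ht.preimage continuous_subtype_val)
  obtain ⟨O, hO, hOB⟩ := CC.openV1 hA h _ hU fun x hx => hx.1
  refine ⟨Subtype.val ⁻¹' O, hO.preimage continuous_subtype_val, ?_⟩
  ext y
  constructor
  · rintro ⟨hy1, hy2⟩
    refine ⟨?_, hy2⟩
    obtain ⟨v, hv, rfl⟩ := hy2
    have hs : (pe Φ hm h).symm (cm Φ hm v) = v := (pe Φ hm h).left_inv hv
    have hvt : v ∈ t := by
      have h2 : (pe Φ hm h).symm (cm Φ hm v) ∈ t := hy1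
      rwa [hs] at h2
    have h3 : (cm Φ hm v : X) ∈ O ∩ B := by
      rw [hOB, cm_of_mem Φ hm v (ball_subset_closedBall hv)]
      exact ⟨_, ⟨mem_ball_zero_iff.1 hv, hvt⟩, rfl⟩
    exact h3.1
  · rintro ⟨hy1, hy2⟩
    refine ⟨?_, hy2⟩
    obtain ⟨v, hv, rfl⟩ := hy2
    have hs : (pe Φ hm h).symm (cm Φ hm v) = v := (pe Φ hm h).left_inv hv
    change (pe Φ hm h).symm (cm Φ hm v) ∈ t
    rw [hs]
    have h3 : (cm Φ hm v : X) ∈ O ∩ B := by
      refine ⟨hy1, ?_⟩
      rw [h.eq, cm_of_mem Φ hm v (ball_subset_closedBall hv)]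
      exact Or.inr ⟨_, rfl⟩
    rw [hOB, cm_of_mem Φ hm v (ball_subset_closedBall hv)] at h3
    obtain ⟨x, ⟨hx1, hx2⟩, hx3⟩ := h3
    have h4 := h.inj _ _ hx1 (mem_ball_zero_iff.1 hv) hx3
    rw [h4] at hx2
    exact hx2

end Cell

section Pres

variable {G : Type} [Group G] {Pr : FinPresentation G} {X E : Type} [TopologicalSpace X]
    [TopologicalSpace E] [MulAction G E] [ContinuousConstSMul G E] {p : C(E, X)}

theorem Y1_zero (c : PresCx Pr p) : c.Y1 0 = {p c.e} := by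
  ext y
  simp [PresCx.Y1]

theorem Y1_mono (c : PresCx Pr p) {k l : ℕ} (h : k ≤ l) : c.Y1 k ⊆ c.Y1 l := by
  refine union_subset_union_right _ ?_
  exact iUnion_mono fun i => iUnion_mono' fun hi => ⟨hi.trans_le h, subset_rfl⟩

theorem Y2_zero (c : PresCx Pr p) : c.Y2 0 = c.Y1 Pr.gens := by
  ext y
  simp [PresCx.Y2]

theorem Y2_mono (c : PresCx Pr p) {k l : ℕ} (h : k ≤ l) : c.Y2 k ⊆ c.Y2 l := by
  refine union_subset_union_right _ ?_
  exact iUnion_mono fun i => iUnion_mono' fun hi => ⟨hi.trans_le h, subset_rfl⟩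

theorem Y1_Y2 (c : PresCx Pr p) {k : ℕ} (hk : k ≤ Pr.gens) (l : ℕ) : c.Y1 k ⊆ c.Y2 l :=
  (Y1_mono c hk).trans subset_union_left

/-- the cells -/
def cel (Pr : FinPresentation G) : ℕ → Type
  | 0 => Unit
  | 1 => Fin Pr.gens
  | 2 => Fin Pr.rels
  | _ + 3 => Empty

/-- the characteristic maps -/
noncomputable def chr (c : PresCx Pr p) : ∀ n, cel Pr n → C(Dk n, X)
  | 0, _ => ContinuousMap.const _ (p c.e)
  | 1, i => p.comp (c.edge i)
  | 2, j => p.comp (c.b j)
  | _ + 3, i => i.elim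

/-- the part before the cell -/
def low (c : PresCx Pr p) : ∀ n, cel Pr n → Set X
  | 0, _ => ∅
  | 1, i => c.Y1 (Fin.val i)
  | 2, j => c.Y2 (Fin.val j)
  | _ + 3, i => i.elim

/-- the part up to the cell -/
def hig (c : PresCx Pr p) : ∀ n, cel Pr n → Set X
  | 0, _ => {p c.e}
  | 1, i => c.Y1 (Fin.val i + 1)
  | 2, j => c.Y2 (Fin.val j + 1)
  | _ + 3, i => i.elim

/-- the position of the cell -/
def rnk (Pr : FinPresentation G) : ∀ n, cel Pr n → ℕ
  | 0, _ => 0
  | 1, i => Fin.val i + 1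
  | 2, j => Fin.val j + (Pr.gens + 1)
  | _ + 3, i => i.elim

theorem att0 (c : PresCx Pr p) :
    Attach 0 ∅ {p c.e} (ContinuousMap.const (Dk 0) (p c.e)) where
  bdry x hx := by
    have h : (x : Fin 0 → ℝ) = 0 := Subsingleton.elim _ _
    rw [h, norm_zero] at hx
    exact absurd hx zero_ne_one
  int _ _ := notMem_empty _
  inj _ _ _ _ _ := Subtype.ext (Subsingleton.elim _ _)
  eq := by
    rw [empty_union]
    ext y
    constructor
    · intro hy
      exact ⟨clp 0 0, hy.symm⟩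
    · rintro ⟨x, rfl⟩
      rfl

theorem att (c : PresCx Pr p) (hc : c.Good) :
    ∀ n (i : cel Pr n), Attach n (low c n i) (hig c n i) (chr c n i)
  | 0, _ => att0 c
  | 1, i => hc.att1 i
  | 2, j => hc.att2 j
  | _ + 3, i => i.elim

theorem hig_low (c : PresCx Pr p) : ∀ n (i : cel Pr n) m (j : cel Pr m),
    rnk Pr n i < rnk Pr m j → hig c n i ⊆ low c m j
  | 0, _, 0, _, h => absurd h (lt_irrefl _)
  | 0, _, 1, j, _ => (Y1_zero c).symm.subset.trans (Y1_mono c (Nat.zero_le _))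
  | 0, _, 2, j, _ => (Y1_zero c).symm.subset.trans (Y1_Y2 c (Nat.zero_le _) _)
  | 1, _, 0, _, h => absurd h (Nat.not_lt_zero _)
  | 1, i, 1, j, h => Y1_mono c (by
      have h' : Fin.val i + 1 < Fin.val j + 1 := h
      omega)
  | 1, i, 2, j, _ => Y1_Y2 c (Fin.isLt i) _
  | 2, _, 0, _, h => absurd h (Nat.not_lt_zero _)
  | 2, i, 1, j, h => by
      have h' : Fin.val i + (Pr.gens + 1) < Fin.val j + 1 := h
      have := Fin.isLt j
      omega
  | 2, i, 2, j, h => Y2_mono c (by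
      have h' : Fin.val i + (Pr.gens + 1) < Fin.val j + (Pr.gens + 1) := h
      omega)
  | _ + 3, i, _, _, _ => i.elim
  | 0, _, _ + 3, j, _ => j.elim
  | 1, _, _ + 3, j, _ => j.elim
  | 2, _, _ + 3, j, _ => j.elim

theorem rnk_inj : ∀ n (i : cel Pr n) m (j : cel Pr m), rnk Pr n i = rnk Pr m j →
    (⟨n, i⟩ : Σ n, cel Pr n) = ⟨m, j⟩
  | 0, _, 0, _, _ => rfl
  | 0, _, 1, j, h => by
      have h' : 0 = Fin.val j + 1 := h
      omega
  | 0, _, 2, j, h => by
      have h' : 0 = Fin.val j + (Pr.gens + 1) := h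
      omega
  | 1, i, 0, _, h => by
      have h' : Fin.val i + 1 = 0 := h
      omega
  | 1, i, 1, j, h => by
      have h' : Fin.val i + 1 = Fin.val j + 1 := h
      have h2 : i = j := Fin.ext (by omega)
      rw [h2]
  | 1, i, 2, j, h => by
      have h' : Fin.val i + 1 = Fin.val j + (Pr.gens + 1) := h
      have := Fin.isLt i
      omega
  | 2, i, 0, _, h => by
      have h' : Fin.val i + (Pr.gens + 1) = 0 := h
      omega
  | 2, i, 1, j, h => by
      have h' : Fin.val i + (Pr.gens + 1) = Fin.val j + 1 := h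
      have := Fin.isLt j
      omega
  | 2, i, 2, j, h => by
      have h' : Fin.val i + (Pr.gens + 1) = Fin.val j + (Pr.gens + 1) := h
      have h2 : i = j := Fin.ext (by omega)
      rw [h2]
  | _ + 3, i, _, _, _ => i.elim
  | 0, _, _ + 3, j, _ => j.elim
  | 1, _, _ + 3, j, _ => j.elim
  | 2, _, _ + 3, j, _ => j.elim

theorem hig_Y (c : PresCx Pr p) : ∀ n (i : cel Pr n), hig c n i ⊆ c.Y
  | 0, _ => (Y1_zero c).symm.subset.trans (Y1_Y2 c (Nat.zero_le _) _)
  | 1, i => Y1_Y2 c (Fin.isLt i) _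
  | 2, j => Y2_mono c (Fin.isLt j)
  | _ + 3, i => i.elim

theorem chr_Y (c : PresCx Pr p) (hc : c.Good) (n : ℕ) (i : cel Pr n) (x : Dk n) :
    chr c n i x ∈ c.Y := by
  apply hig_Y c n i
  rw [(att c hc n i).eq]
  exact Or.inr ⟨x, rfl⟩

theorem closed_Y1 [T2Space X] (c : PresCx Pr p) (k : ℕ) : IsClosed (c.Y1 k) := by
  refine isClosed_singleton.union (isClosed_iUnion_of_finite fun i =>
    isClosed_iUnion_of_finite fun _ => ?_)
  exact (isCompact_range (p.comp (c.edge i)).continuous).isClosed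

theorem closed_Y2 [T2Space X] (c : PresCx Pr p) (k : ℕ) : IsClosed (c.Y2 k) := by
  refine (closed_Y1 c _).union (isClosed_iUnion_of_finite fun i =>
    isClosed_iUnion_of_finite fun _ => ?_)
  exact (isCompact_range (p.comp (c.b i)).continuous).isClosed

theorem closed_low [T2Space X] (c : PresCx Pr p) : ∀ n (i : cel Pr n), IsClosed (low c n i)
  | 0, _ => isClosed_empty
  | 1, _ => closed_Y1 c _
  | 2, _ => closed_Y2 c _
  | _ + 3, i => i.elim

theorem built1 (c : PresCx Pr p) (hc : c.Good) : ∀ k, k ≤ Pr.gens → Built ∅ (c.Y1 k)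
  | 0, _ => by
      rw [Y1_zero]
      exact Built.cell 0 _ Built.base (att0 c)
  | k + 1, h => Built.cell 1 _ (built1 c hc k (by omega)) (hc.att1 ⟨k, h⟩)

theorem built2 (c : PresCx Pr p) (hc : c.Good) : ∀ k, k ≤ Pr.rels → Built ∅ (c.Y2 k)
  | 0, _ => by
      rw [Y2_zero]
      exact built1 c hc _ le_rfl
  | k + 1, h => Built.cell 2 _ (built2 c hc k (by omega)) (hc.att2 ⟨k, h⟩)

/-- the characteristic maps, with their inverses -/
noncomputable def mp (c : PresCx Pr p) (hc : c.Good) (n : ℕ) (i : cel Pr n) :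
    PartialEquiv (Fin n → ℝ) c.Y :=
  pe (chr c n i) (chr_Y c hc n i) (att c hc n i)

theorem mp_disj_aux (c : PresCx Pr p) (hc : c.Good) (n : ℕ) (i : cel Pr n) (m : ℕ)
    (j : cel Pr m) (h : rnk Pr n i < rnk Pr m j) :
    Disjoint (mp c hc n i '' ball 0 1) (mp c hc m j '' ball 0 1) := by
  rw [Set.disjoint_left]
  rintro y ⟨v, hv, hvy⟩ ⟨w, hw, hwy⟩
  have h1 : (y : X) ∈ low c m j := by
    apply hig_low c n i m j h
    rw [(att c hc n i).eq, ← hvy]
    exact Or.inr ⟨_, rfl⟩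
  rw [← hwy] at h1
  change (cm (chr c m j) (chr_Y c hc m j) w : X) ∈ low c m j at h1
  rw [cm_of_mem _ _ w (ball_subset_closedBall hw)] at h1
  exact (att c hc m j).int _ (mem_ball_zero_iff.1 hw) h1

theorem mp_disj (c : PresCx Pr p) (hc : c.Good) :
    (univ : Set (Σ n, cel Pr n)).PairwiseDisjoint (fun ni => mp c hc ni.1 ni.2 '' ball 0 1) := by
  rintro ⟨n, i⟩ _ ⟨m, j⟩ _ hne
  rcases lt_trichotomy (rnk Pr n i) (rnk Pr m j) with h | h | h
  · exact mp_disj_aux c hc n i m j h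
  · exact absurd (rnk_inj n i m j h) hne
  · exact (mp_disj_aux c hc m j n i h).symm

theorem mem_closedCell (c : PresCx Pr p) (hc : c.Good) (n : ℕ) (i : cel Pr n) (y : c.Y)
    (h : (y : X) ∈ range (chr c n i)) : y ∈ mp c hc n i '' closedBall 0 1 := by
  obtain ⟨x, hx⟩ := h
  refine ⟨x, x.2, Subtype.ext ?_⟩
  change (cm (chr c n i) (chr_Y c hc n i) x : X) = y
  rw [cm_of_mem _ _ (x : Fin n → ℝ) x.2, ← hx]

theorem mem_Y1_cells (c : PresCx Pr p) (hc : c.Good) (y : c.Y) (h : (y : X) ∈ c.Y1 Pr.gens) :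
    y ∈ ⋃ (m < 2) (j : cel Pr m), mp c hc m j '' closedBall 0 1 := by
  rcases h with h | h
  · simp only [mem_iUnion]
    exact ⟨0, by norm_num, (), mem_closedCell c hc 0 () y ⟨clp 0 0, h.symm⟩⟩
  · simp only [mem_iUnion] at h
    obtain ⟨i, _, hi⟩ := h
    simp only [mem_iUnion]
    exact ⟨1, by norm_num, i, mem_closedCell c hc 1 i y hi⟩

theorem par_zero : par (-1) = 0 := by
  apply Subtype.ext
  rw [par, Set.coe_projIcc]
  norm_num

theorem par_one : par 1 = 1 := by
  apply Subtype.ext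
  rw [par, Set.coe_projIcc]
  norm_num

theorem par_surj (t : I) : par (2 * (t : ℝ) - 1) = t := by
  apply Subtype.ext
  have h1 := t.2.1
  have h2 := t.2.2
  rw [par, Set.coe_projIcc]
  rw [show (2 * (t : ℝ) - 1 + 1) / 2 = t by ring, min_eq_right h2, max_eq_right h1]

theorem path_Y1 (c : PresCx Pr p) (i : Fin Pr.gens) (t : I) : p (c.a i t) ∈ c.Y1 Pr.gens := by
  refine Or.inr ?_
  simp only [mem_iUnion]
  have h1 := t.2.1
  have h2 := t.2.2
  refine ⟨i, i.2, ⟨⟨fun _ => 2 * (t : ℝ) - 1, ?_⟩, ?_⟩⟩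
  · rw [mem_closedBall_zero_iff, pi_norm_le_iff_of_nonneg zero_le_one]
    intro _
    rw [Real.norm_eq_abs, abs_le]
    constructor <;> linarith
  · change p (c.a i (par (2 * (t : ℝ) - 1))) = _
    rw [par_surj]

theorem word_Y1 (hp : ∀ (g : G) y, p (g • y) = p y) (c : PresCx Pr p) :
    ∀ (w : List (Fin Pr.gens × Bool)) (t : I), p (wpath Pr.x c.a w t) ∈ c.Y1 Pr.gens
  | [], t => by
      refine Or.inl ?_
      simp [wpath]
  | l :: w, t => by
      have hl : ∀ s : I, p (lpath Pr.x c.a l s) ∈ c.Y1 Pr.gens := by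
        intro s
        rcases l with ⟨i, b⟩
        cases b
        · simp only [lpath, gpath, Path.cast_coe, Path.map_coe, Function.comp_apply]
          rw [hp]
          exact path_Y1 c i _
        · exact path_Y1 c i s
      simp only [wpath, Path.cast_coe, Path.trans_apply]
      split_ifs with h
      · exact hl _
      · simp only [gpath, Path.map_coe, Function.comp_apply]
        rw [hp]
        exact word_Y1 hp c w _

theorem mp_mapsTo (hp : ∀ (g : G) y, p (g • y) = p y) (c : PresCx Pr p) (hc : c.Good) :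
    ∀ n (i : cel Pr n), MapsTo (mp c hc n i) (sphere 0 1)
      (⋃ (m < n) (j : cel Pr m), mp c hc m j '' closedBall 0 1)
  | 0, _ => by
      intro v hv
      rw [mem_sphere_zero_iff_norm, Subsingleton.elim v 0, norm_zero] at hv
      exact absurd hv zero_ne_one
  | 1, i => by
      intro v hv
      have hv1 : ‖v‖ = 1 := mem_sphere_zero_iff_norm.1 hv
      have h2 : (mp c hc 1 i v : X) = p c.e := by
        change (cm (chr c 1 i) (chr_Y c hc 1 i) v : X) = p c.e
        rw [cm_of_mem _ _ v (sphere_subset_closedBall hv)]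
        change p (c.a i (par (v 0))) = p c.e
        have h3 : |v 0| = 1 := by
          rw [← hv1, ← Real.norm_eq_abs]
          refine le_antisymm (norm_le_pi_norm v 0) ?_
          rw [pi_norm_le_iff_of_nonneg (norm_nonneg _)]
          intro k
          rw [Subsingleton.elim k 0]
        rcases (abs_eq zero_le_one).1 h3 with h4 | h4
        · rw [h4, par_one, Path.target, hp]
        · rw [h4, par_zero, Path.source]
      simp only [mem_iUnion]
      exact ⟨0, by norm_num, (), mem_closedCell c hc 0 () _ ⟨clp 0 0, h2.symm⟩⟩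
  | 2, j => by
      intro v hv
      have hv1 : ‖v‖ = 1 := mem_sphere_zero_iff_norm.1 hv
      apply mem_Y1_cells
      change (cm (chr c 2 j) (chr_Y c hc 2 j) v : X) ∈ c.Y1 Pr.gens
      rw [cm_of_mem _ _ v (sphere_subset_closedBall hv)]
      change p (c.b j ⟨v, sphere_subset_closedBall hv⟩) ∈ c.Y1 Pr.gens
      obtain ⟨h3, h4⟩ := c.bdry j ⟨v, sphere_subset_closedBall hv⟩ hv1
      by_cases h5 : v 0 = 1
      · rw [h3 h5]
        exact word_Y1 hp c _ _
      · rw [h4 h5]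
        exact Or.inl rfl
  | _ + 3, i => i.elim

theorem mp_union (c : PresCx Pr p) (hc : c.Good) :
    ⋃ (n : ℕ) (j : cel Pr n), mp c hc n j '' closedBall 0 1 = univ := by
  refine eq_univ_of_forall fun y => ?_
  rcases y.2 with h | h
  · have h1 := mem_Y1_cells c hc y h
    simp only [mem_iUnion] at h1 ⊢
    obtain ⟨m, _, j, hj⟩ := h1
    exact ⟨m, j, hj⟩
  · simp only [mem_iUnion] at h ⊢
    obtain ⟨j, _, hj⟩ := h
    exact ⟨2, j, mem_closedCell c hc 2 j y hj⟩

theorem finite_cel : ∀ n, _root_.Finite (cel Pr n)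
  | 0 => inferInstanceAs (_root_.Finite Unit)
  | 1 => inferInstanceAs (_root_.Finite (Fin Pr.gens))
  | 2 => inferInstanceAs (_root_.Finite (Fin Pr.rels))
  | _ + 3 => inferInstanceAs (_root_.Finite Empty)

theorem empty_cel : ∀ m > 2, IsEmpty (cel Pr m)
  | 0, h => absurd h (by norm_num)
  | 1, h => absurd h (by norm_num)
  | 2, h => absurd h (by norm_num)
  | _ + 3, _ => inferInstanceAs (IsEmpty Empty)

theorem ev_cel : ∀ᶠ n in Filter.atTop, IsEmpty (cel Pr n) :=
  Filter.eventually_atTop.2 ⟨3, fun m hm => empty_cel m hm⟩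

theorem mp_cont (c : PresCx Pr p) (hc : c.Good) (n : ℕ) (i : cel Pr n) :
    ContinuousOn (mp c hc n i) (closedBall 0 1) :=
  (continuous_cm (chr c n i) (chr_Y c hc n i)).continuousOn

theorem mp_symm [T2Space X] (c : PresCx Pr p) (hc : c.Good) (n : ℕ) (i : cel Pr n) :
    ContinuousOn (mp c hc n i).symm (mp c hc n i).target :=
  pe_symm (closed_low c n i) (chr c n i) (chr_Y c hc n i) (att c hc n i)

/-- the CW structure -/
@[reducible]
noncomputable def cw [T2Space X] (hp : ∀ (g : G) y, p (g • y) = p y) (c : PresCx Pr p)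
    (hc : c.Good) : CWComplex (univ : Set c.Y) :=
  CWComplex.mkFinite (univ : Set c.Y) (cel Pr) (mp c hc) ev_cel finite_cel (fun _ _ => rfl)
    (mp_cont c hc) (mp_symm c hc) (mp_disj c hc) (mp_mapsTo hp c hc) (mp_union c hc)

theorem cw_finite [T2Space X] (hp : ∀ (g : G) y, p (g • y) = p y) (c : PresCx Pr p)
    (hc : c.Good) : letI := cw hp c hc; CWComplex.Finite (univ : Set c.Y) :=
  CWComplex.finite_mkFinite (univ : Set c.Y) (cel Pr) (mp c hc) ev_cel finite_cel
    (fun _ _ => rfl) (mp_cont c hc) (mp_symm c hc) (mp_disj c hc) (mp_mapsTo hp c hc)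
    (mp_union c hc)

theorem main_of [T2Space X] (hp : ∀ (g : G) y, p (g • y) = p y) (c : PresCx Pr p)
    (hc : c.Good) : Built ∅ c.Y ∧ ∃ _ : CWComplex (univ : Set c.Y),
      CWComplex.Finite (univ : Set c.Y) ∧
        ∀ m > 2, IsEmpty (RelCWComplex.cell (univ : Set c.Y) m) :=
  ⟨built2 c hc _ le_rfl, cw hp c hc, cw_finite hp c hc, fun m hm => empty_cel m hm⟩

end Pres

/-- BLOCK CY, with the hypothesis that `p` is the quotient map of the action -/
theorem main : ∀ (G X E : Type) [Group G] [TopologicalSpace X] [T2Space X]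
    [TopologicalSpace E] [MulAction G E] [ContinuousConstSMul G E] (p : C(E, X)),
    IsQuotientCoveringMap p G → ∀ (Pr : FinPresentation G) (c : PresCx Pr p), c.Good →
    Built ∅ c.Y ∧ ∃ _ : CWComplex (univ : Set c.Y), CWComplex.Finite (univ : Set c.Y) ∧
      ∀ m > 2, IsEmpty (RelCWComplex.cell (univ : Set c.Y) m) :=
  fun _ _ _ _ _ _ _ _ _ _ hp _ c hc =>
    main_of (fun g _ => hp.apply_eq_iff_mem_orbit.2 ⟨g, rfl⟩) c hc

end Vale.Agent.P246.T.CY
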