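import Vale.Agent.P246.T.Spec2

/-! # P246, topological version: block DN (from the covering to the base) -/

namespace Vale.Agent.P246.T.DN

open Topology Metric Set

variable {X E : Type} [TopologicalSpace X] [TopologicalSpace E]

/-- maps from contractible spaces lift to coverings -/
theorem exists_lift {p : C(E, X)} (cov : IsCoveringMap p) (hs : Function.Surjective p) {A : Type}
    [TopologicalSpace A] [ContractibleSpace A] (s : C(A, X)) :
    ∃ s' : C(A, E), ∀ x, p (s' x) = s x := by
  obtain ⟨x₀, ⟨F⟩⟩ := id_nullhomotopic A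
  obtain ⟨e₀, he₀⟩ := hs (s x₀)
  let H : C(I × A, X) := s.comp F.symm.toContinuousMap
  have H0 : ∀ a, H (0, a) = p ((ContinuousMap.const A e₀) a) := by
    intro a
    change s (F.symm (0, a)) = p e₀
    rw [F.symm.apply_zero, he₀]
    rfl
  refine ⟨⟨fun x => cov.liftHomotopy H (ContinuousMap.const A e₀) H0 (1, x), by fun_prop⟩, ?_⟩
  intro x
  have := congr_fun (cov.liftHomotopy_lifts H (ContinuousMap.const A e₀) H0) (1, x)
  refine Eq.trans this ?_
  change s (F.symm (1, x)) = s x
  rw [F.symm.apply_one]
  rfl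

theorem main : SpecDown := by
  intro G X E _ _ _ _ _ p hp Y n hL s g h0 hc h1
  have cov : IsCoveringMap p := hp.isCoveringMap
  have : ContractibleSpace (Dl (n + 1)) :=
    (convex_stdSimplex ℝ (Fin (n + 1))).contractibleSpace ⟨_, (inferInstance : Nonempty (Dl (n + 1))).some.2⟩
  obtain ⟨s', hs'⟩ := exists_lift cov hp.surjective s
  have H0 : ∀ i a, g i (0, a) = p ((s'.comp (face n i)) a) := by
    intro i a
    rw [h0, ContinuousMap.comp_apply, hs']
  let g' : ∀ i, Hm n E := fun i => cov.liftHomotopy (g i) (s'.comp (face n i)) (H0 i)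
  have hg' : ∀ i t x, p (g' i (t, x)) = g i (t, x) := fun i t x =>
    congr_fun (cov.liftHomotopy_lifts (g i) (s'.comp (face n i)) (H0 i)) (t, x)
  have hg'0 : ∀ i x, g' i (0, x) = s' (face n i x) := fun i x =>
    cov.liftHomotopy_zero (g i) (s'.comp (face n i)) (H0 i) x
  obtain ⟨K, hK0, hKf, hK1⟩ := hL s' g' hg'0 (by
    intro i j x y hxy t
    have hcx : Continuous fun t : I => g' i (t, x) := by fun_prop
    have hcy : Continuous fun t : I => g' j (t, y) := by fun_prop
    have := cov.eq_of_comp_eq hcx hcy (by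
      funext t
      simp only [Function.comp_apply, hg']
      exact hc i j x y hxy t) 0 (by
      rw [hg'0, hg'0, hxy])
    exact congr_fun this t) (by
    intro i x
    change p (g' i (1, x)) ∈ Y
    rw [hg']
    exact h1 i x)
  refine ⟨p.comp K, ?_, ?_, ?_⟩
  · intro x
    rw [ContinuousMap.comp_apply, hK0, hs']
  · intro i t x
    rw [ContinuousMap.comp_apply, hKf, hg']
  · intro x
    exact hK1 x

end Vale.Agent.P246.T.DN
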