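import Vale.Agent.P246.T.Spec2

/-! # P246, topological version: block EW (products with a vector space) -/

namespace Vale.Agent.P246.T.EWb

open Topology Metric Set

section

variable (Z V : Type) [TopologicalSpace Z] [AddCommGroup V] [Module ℝ V] [TopologicalSpace V]
  [ContinuousSMul ℝ V]

/-- the inclusion of the zero section -/
def inc : C(Z, Z × V) := ⟨fun z => (z, 0), by fun_prop⟩

/-- the projection -/
def prj : C(Z × V, Z) := ⟨fun z => z.1, by fun_prop⟩

omit [Module ℝ V] [ContinuousSMul ℝ V] in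
theorem prj_inc : ((prj Z V).comp (inc Z V)).Homotopic (ContinuousMap.id Z) :=
  ContinuousMap.Homotopic.refl _

theorem inc_prj : ((inc Z V).comp (prj Z V)).Homotopic (ContinuousMap.id (Z × V)) := by
  refine ⟨⟨⟨fun q => (q.2.1, (q.1 : ℝ) • q.2.2), by fun_prop⟩, ?_, ?_⟩⟩
  · intro z
    change (z.1, ((0 : I) : ℝ) • z.2) = (z.1, (0 : V))
    rw [show ((0 : I) : ℝ) = 0 from rfl, zero_smul]
  · intro z
    change (z.1, ((1 : I) : ℝ) • z.2) = z
    rw [show ((1 : I) : ℝ) = 1 from rfl, one_smul]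

/-- the homotopy equivalence -/
def heq : ContinuousMap.HomotopyEquiv Z (Z × V) := ⟨inc Z V, prj Z V, prj_inc Z V, inc_prj Z V⟩

end

theorem quot (G X E : Type) [Group G] [TopologicalSpace X] [TopologicalSpace E]
    [MulAction G E] [ContinuousConstSMul G E] (p : C(E, X)) (hp : IsQuotientCoveringMap p G)
    (m l : ℕ) : IsQuotientCoveringMap (pW G m l p) G := by
  have h1 : IsOpenQuotientMap (Prod.map p (id : WW m l → WW m l)) :=
    hp.isOpenQuotientMap.prodMap IsOpenQuotientMap.id
  have h2 : IsQuotientMap (pW G m l p) := h1.isQuotientMap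
  refine { h2 with continuous_const_smul := continuous_const_smul, apply_eq_iff_mem_orbit := ?_, disjoint := ?_ }
  · intro a b
    constructor
    · intro h
      have h3 : p a.1 = p b.1 := congrArg Prod.fst h
      have h4 : a.2 = b.2 := congrArg (fun z : X × WW m l => z.2) h
      obtain ⟨g, hg⟩ := hp.apply_eq_iff_mem_orbit.1 h3
      exact ⟨g, Prod.ext hg h4.symm⟩
    · rintro ⟨g, rfl⟩
      refine Prod.ext ?_ rfl
      exact hp.map_smul g
  · intro a
    obtain ⟨U, hU, hd⟩ := hp.disjoint a.1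
    refine ⟨(Prod.fst : E × WW m l → E) ⁻¹' U, ?_, ?_⟩
    · exact (continuous_fst (X := E) (Y := WW m l)).continuousAt.preimage_mem_nhds hU
    · rintro g ⟨_, ⟨b, hb, rfl⟩, hb'⟩
      exact hd g ⟨g • b.1, ⟨b.1, hb, rfl⟩, hb'⟩

theorem main : SpecEW := by
  intro G X E _ _ _ _ _ p hp m l
  refine ⟨quot G X E p hp m l, ?_, ⟨heq X (WW m l)⟩, ?_⟩
  · intro h
    exact (heq E (WW m l)).symm.simplyConnectedSpace
  · exact ⟨prj E (WW m l), fun _ => rfl, fun _ _ => rfl, inc E (WW m l), prj_inc E (WW m l),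
      inc_prj E (WW m l)⟩

end Vale.Agent.P246.T.EWb
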