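import Vale.Agent.P246.T.SD

/-! # P246, topological version: fundamental chains of the cubes -/

namespace Vale.Agent.P246.T.FM

open Topology Metric Set

section Gen

variable {M N : Type} [TopologicalSpace M] [TopologicalSpace N]

/-- the total weight -/
noncomputable def wt (n : ℕ) : Ch n M →ₗ[ℤ] ℤ := Finsupp.linearCombination ℤ fun _ => (1 : ℤ)

theorem wt_single (n : ℕ) (σ : C(Dl (n + 1), M)) (a : ℤ) : wt n (Finsupp.single σ a) = a := by
  rw [wt, Finsupp.linearCombination_single, smul_eq_mul, mul_one]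

theorem wt_push (f : C(M, N)) (n : ℕ) (c : Ch n M) : wt n (push f n c) = wt n c := by
  have : (wt n).comp (push f n) = (wt n : Ch n M →ₗ[ℤ] ℤ) := by
    apply SD.lin_ext
    intro σ
    rw [LinearMap.comp_apply, push_single, wt_single, wt_single]
  exact LinearMap.congr_fun this c

theorem wt_bd (c : Ch 1 M) : wt 0 (bd 0 c) = 0 := by
  have : (wt 0).comp (bd 0) = (0 : Ch 1 M →ₗ[ℤ] ℤ) := by
    apply SD.lin_ext
    intro σ
    rw [LinearMap.comp_apply, SD.bds, map_sum]
    simp [wt_single]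
  exact LinearMap.congr_fun this c

theorem push_const (x : N) (n : ℕ) (c : Ch n M) :
    push (ContinuousMap.const M x) n c = wt n c • ksx n x := by
  have : push (ContinuousMap.const M x) n = (wt n).smulRight (ksx n x) := by
    apply SD.lin_ext
    intro σ
    rw [push_single, LinearMap.smulRight_apply, wt_single, one_smul]
    rfl
  exact LinearMap.congr_fun this c

theorem wt_ksx (n : ℕ) (x : M) : wt n (ksx n x) = 1 := wt_single _ _ _

theorem bd_ksx (n : ℕ) (x : M) : bd n (ksx (n + 1) x) =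
    (∑ i : Fin (n + 2), (-1 : ℤ) ^ (i : ℕ)) • ksx n x := by
  rw [ksx, SD.bds, Finset.sum_smul]
  rfl

/-- reduced cycles -/
def RedCyc : (n : ℕ) → Ch n M → Prop
  | 0, c => wt 0 c = 0
  | n + 1, c => bd n c = 0

theorem redCyc_bd (n : ℕ) (c : Ch (n + 1) M) : RedCyc n (bd n c) := by
  cases n with
  | zero => exact wt_bd c
  | succ n => exact SD.bd_bd n c

theorem RedCyc.sub {n : ℕ} {c c' : Ch n M} (h : RedCyc n c) (h' : RedCyc n c') :
    RedCyc n (c - c') := by
  cases n with
  | zero => change wt 0 (c - c') = 0; rw [map_sub, show wt 0 c = 0 from h,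
      show wt 0 c' = 0 from h', sub_zero]
  | succ n => change bd n (c - c') = 0; rw [map_sub, show bd n c = 0 from h,
      show bd n c' = 0 from h', sub_zero]

theorem RedCyc.smul {n : ℕ} {c : Ch n M} (h : RedCyc n c) (m : ℤ) : RedCyc n (m • c) := by
  cases n with
  | zero => change wt 0 (m • c) = 0; rw [map_smul, show wt 0 c = 0 from h, smul_zero]
  | succ n => change bd n (m • c) = 0; rw [map_smul, show bd n c = 0 from h, smul_zero]

theorem RedCyc.rcyc {n : ℕ} {c : Ch n M} (h : RedCyc n c) (A : Set M) : RCyc A n c := by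
  cases n with
  | zero => trivial
  | succ n => change bd n c ∈ Con A n; rw [show bd n c = 0 from h]; exact zero_mem _

theorem mem_univ_con (n : ℕ) (c : Ch n M) : c ∈ Con (univ : Set M) n := by
  rw [Con, Finsupp.mem_supported]
  intro _ _ _
  trivial

theorem con_mono {A B : Set M} (h : A ⊆ B) {n : ℕ} {c : Ch n M} (hc : c ∈ Con A n) :
    c ∈ Con B n := by
  refine Finsupp.supported_mono ?_ hc
  intro σ hσ x
  exact h (hσ x)

theorem bd_mem {A : Set M} {n : ℕ} {c : Ch (n + 1) M} (hc : c ∈ Con A (n + 1)) :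
    bd n c ∈ Con A n := by
  refine SD.supp_map (bd n) ?_ hc
  intro σ hσ
  rw [SD.bds]
  apply sum_mem
  intro i _
  apply Submodule.smul_mem
  exact SD.single_mem (fun x => hσ (face (n + 1) i x)) 1

/-- a map which is the identity on `A` fixes the chains in `A` -/
theorem push_fix {A : Set M} (f : C(M, M)) (h : ∀ x ∈ A, f x = x) {n : ℕ} {c : Ch n M}
    (hc : c ∈ Con A n) : push f n c = c := by
  have : push f n c - c ∈ (⊥ : Submodule ℤ (Ch n M)) := by
    have := SD.supp_map (push f n - LinearMap.id) (T := (⊥ : Submodule ℤ (Ch n M))) ?_ hc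
    · exact this
    intro σ hσ
    rw [LinearMap.sub_apply, push_single, LinearMap.id_apply, Submodule.mem_bot, sub_eq_zero]
    congr 1
    exact ContinuousMap.ext fun x => h _ (hσ x)
  exact sub_eq_zero.1 ((Submodule.mem_bot ℤ).1 this)

/-- all reduced cycles of `A` are boundaries -/
def Acy (A : Set M) : Prop :=
  ∀ (n : ℕ), ∀ c ∈ Con A n, RedCyc n c → ∃ b ∈ Con A (n + 1), bd n b = c

theorem acy_retract {A : Set M} (h : Acy (univ : Set M)) (r : C(M, M)) (h1 : ∀ x, r x ∈ A)
    (h2 : ∀ x ∈ A, r x = x) : Acy A := by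
  intro n c hc hz
  obtain ⟨b, -, hb⟩ := h n c (mem_univ_con n c) hz
  refine ⟨push r (n + 1) b, push_mem (A := univ) (fun x _ => h1 x) (mem_univ_con _ b), ?_⟩
  rw [push_bd, hb, push_fix r h2 hc]

/-- the homotopy of simplices -/
def hom (H : C(I × M, N)) {n : ℕ} (σ : C(Dl n, M)) : Hm n N := ⟨fun q => H (q.1, σ q.2), by fun_prop⟩

/-- the prism operator on chains -/
noncomputable def pr (P : PrismOp) (H : C(I × M, N)) (n : ℕ) : Ch n M →ₗ[ℤ] Ch (n + 1) N :=
  Finsupp.linearCombination ℤ fun σ => P.D N n (hom H σ)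

theorem pr_single (P : PrismOp) (H : C(I × M, N)) (n : ℕ) (σ : C(Dl (n + 1), M)) :
    pr P H n (Finsupp.single σ 1) = P.D N n (hom H σ) := by
  rw [pr, Finsupp.linearCombination_single, one_smul]

theorem bd_pr_zero (P : PrismOp) (H : C(I × M, N)) (f g : C(M, N)) (hf : ∀ x, H (0, x) = f x)
    (hg : ∀ x, H (1, x) = g x) (c : Ch 0 M) :
    bd 0 (pr P H 0 c) = push g 0 c - push f 0 c := by
  have : (bd 0).comp (pr P H 0) = push g 0 - push f 0 := by
    apply SD.lin_ext
    intro σ
    rw [LinearMap.comp_apply, pr_single, P.bd_zero, LinearMap.sub_apply, push_single, push_single]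
    congr 2
    · exact ContinuousMap.ext fun x => hg _
    · exact ContinuousMap.ext fun x => hf _
  exact LinearMap.congr_fun this c

theorem bd_pr_succ (P : PrismOp) (H : C(I × M, N)) (f g : C(M, N)) (hf : ∀ x, H (0, x) = f x)
    (hg : ∀ x, H (1, x) = g x) (n : ℕ) (c : Ch (n + 1) M) :
    bd (n + 1) (pr P H (n + 1) c) = push g (n + 1) c - push f (n + 1) c - pr P H n (bd n c) := by
  have : (bd (n + 1)).comp (pr P H (n + 1)) = push g (n + 1) - push f (n + 1) -
      (pr P H n).comp (bd n) := by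
    apply SD.lin_ext
    intro σ
    rw [LinearMap.comp_apply, pr_single, P.bd_succ, LinearMap.sub_apply, LinearMap.sub_apply,
      push_single, push_single, LinearMap.comp_apply, SD.bds, map_sum]
    congr 1
    · congr 2
      · exact ContinuousMap.ext fun x => hg _
      · exact ContinuousMap.ext fun x => hf _
    · refine Finset.sum_congr rfl fun i _ => ?_
      rw [map_smul, pr_single]
      rfl
  exact LinearMap.congr_fun this c

/-- contractible spaces are acyclic -/
theorem acy_of_contr (P : PrismOp) (x₀ : M) (H : C(I × M, M)) (h0 : ∀ x, H (0, x) = x)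
    (h1 : ∀ x, H (1, x) = x₀) : Acy (univ : Set M) := by
  intro n c _ hc
  have hC := push_const (M := M) x₀ n c
  cases n with
  | zero =>
    refine ⟨-pr P H 0 c, mem_univ_con _ _, ?_⟩
    rw [map_neg, bd_pr_zero P H (ContinuousMap.id M) (ContinuousMap.const M x₀) h0 h1, hC,
      show wt 0 c = 0 from hc, zero_smul, push_id, zero_sub, neg_neg]
  | succ n =>
    have hc' : bd n c = 0 := hc
    have e := bd_pr_succ P H (ContinuousMap.id M) (ContinuousMap.const M x₀) h0 h1 n c
    rw [hC, push_id, hc', map_zero, sub_zero] at e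
    by_cases hn : Even (n + 2)
    · have h3 : ¬ Even (n + 3) := by
        rw [Nat.even_add_one]; simpa using hn
      refine ⟨wt (n + 1) c • ksx (n + 2) x₀ - pr P H (n + 1) c, mem_univ_con _ _, ?_⟩
      have h4 := bd_ksx (M := M) (n + 1) x₀
      rw [Fin.sum_neg_one_pow, if_neg h3, one_smul] at h4
      rw [map_sub, map_smul, h4, e, sub_sub_cancel]
    · refine ⟨-pr P H (n + 1) c, mem_univ_con _ _, ?_⟩
      have h4 := bd_ksx (M := M) n x₀
      rw [Fin.sum_neg_one_pow, if_neg hn, one_smul] at h4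
      have h5 : push (ContinuousMap.const M x₀) n (bd n c) = (0 : Ch n M) := by
        rw [hc', map_zero]
      rw [← push_bd, hC, map_smul, h4] at h5
      have h6 := congrArg (wt n) h5
      rw [map_smul, wt_ksx, map_zero, smul_eq_mul, mul_one] at h6
      rw [map_neg, e, h6, zero_smul, zero_sub, neg_neg]

end Gen

/-- the cube is acyclic -/
theorem acy_dk (P : PrismOp) (n : ℕ) : Acy (univ : Set (Dk n)) := by
  refine acy_of_contr P (⟨0, by simp⟩ : Dk n)
    ⟨fun q => ⟨(1 - (q.1 : ℝ)) • (q.2 : Fin n → ℝ), ?_⟩, ?_⟩ ?_ ?_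
  · have h1 := q.1.2.1
    have h2 := q.1.2.2
    have h3 := q.2.2
    rw [mem_closedBall_zero_iff] at h3 ⊢
    rw [norm_smul, Real.norm_of_nonneg (by linarith)]
    nlinarith [norm_nonneg (q.2 : Fin n → ℝ)]
  · fun_prop
  · intro x
    apply Subtype.ext
    change (1 - (0 : ℝ)) • (x : Fin n → ℝ) = x
    rw [sub_zero, one_smul]
  · intro x
    apply Subtype.ext
    change (1 - (1 : ℝ)) • (x : Fin n → ℝ) = 0
    rw [sub_self, zero_smul]

/-! ### the step -/

section Step

variable {n : ℕ}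

/-- the tail of a point -/
def tl (x : Dk (n + 1)) : Fin n → ℝ := fun i => (x : Fin (n + 1) → ℝ) i.succ

theorem norm_eq (x : Fin (n + 1) → ℝ) : ‖x‖ = max |x 0| ‖fun i : Fin n => x i.succ‖ := by
  apply le_antisymm
  · rw [pi_norm_le_iff_of_nonneg (le_max_of_le_left (abs_nonneg _))]
    intro i
    refine Fin.cases ?_ (fun i => ?_) i
    · exact le_max_left _ _
    · exact le_max_of_le_right (norm_le_pi_norm (fun i : Fin n => x i.succ) i)
  · apply max_le
    · exact norm_le_pi_norm x 0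
    · rw [pi_norm_le_iff_of_nonneg (norm_nonneg _)]
      intro i
      exact norm_le_pi_norm x i.succ

theorem norm_dk (x : Dk (n + 1)) : ‖(x : Fin (n + 1) → ℝ)‖ =
    max |(x : Fin (n + 1) → ℝ) 0| ‖tl x‖ := norm_eq _

theorem tl_le (x : Dk (n + 1)) : ‖tl x‖ ≤ 1 := by
  have := x.2
  rw [mem_closedBall_zero_iff, norm_dk] at this
  exact (max_le_iff.1 this).2

theorem hd_le (x : Dk (n + 1)) : |(x : Fin (n + 1) → ℝ) 0| ≤ 1 := by
  have := x.2
  rw [mem_closedBall_zero_iff, norm_dk] at this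
  exact (max_le_iff.1 this).1

/-- the boundary without the open face `x₀ = 1` -/
def J (n : ℕ) : Set (Dk (n + 1)) := {x | (x : Fin (n + 1) → ℝ) 0 = -1 ∨ ‖tl x‖ = 1}

theorem continuous_hd : Continuous fun x : Dk (n + 1) => (x : Fin (n + 1) → ℝ) 0 :=
  (continuous_apply 0).comp continuous_subtype_val

theorem continuous_tl : Continuous (tl : Dk (n + 1) → Fin n → ℝ) :=
  continuous_pi fun i => (continuous_apply i.succ).comp continuous_subtype_val

theorem isClosed_J : IsClosed (J n) := by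
  apply IsClosed.union
  · exact isClosed_eq continuous_hd continuous_const
  · exact isClosed_eq continuous_tl.norm continuous_const

theorem J_sub : J n ⊆ bdk (n + 1) := by
  intro x hx
  change ‖(x : Fin (n + 1) → ℝ)‖ = 1
  rw [norm_dk]
  apply le_antisymm (max_le (hd_le x) (tl_le x))
  rcases hx with h | h
  · rw [h]; simp
  · rw [h]; exact le_max_right _ _

/-- the face `x₀ = 1` -/
def Ph (n : ℕ) : C(Dk n, Dk (n + 1)) where
  toFun y := ⟨Fin.cons 1 (y : Fin n → ℝ), by
    rw [mem_closedBall_zero_iff, norm_eq]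
    apply max_le
    · simp
    · exact mem_closedBall_zero_iff.1 y.2⟩
  continuous_toFun := by
    refine Continuous.subtype_mk ?_ _
    refine continuous_pi fun i => ?_
    refine Fin.cases ?_ (fun i => ?_) i
    · exact continuous_const
    · exact (continuous_apply i).comp continuous_subtype_val

theorem Ph_zero (y : Dk n) : (Ph n y : Fin (n + 1) → ℝ) 0 = 1 := rfl

theorem tl_Ph (y : Dk n) : tl (Ph n y) = y := rfl

theorem attach : Attach n (J n) (bdk (n + 1)) (Ph n) where
  bdry := by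
    intro x hx
    right
    rw [tl_Ph]
    exact hx
  int := by
    rintro x hx (h | h)
    · rw [Ph_zero] at h; norm_num at h
    · rw [tl_Ph] at h; exact hx.ne h
  inj := by
    intro x y _ _ h
    apply Subtype.ext
    rw [← tl_Ph x, ← tl_Ph y, h]
  eq := by
    apply Subset.antisymm
    · intro x hx
      have hx' : ‖(x : Fin (n + 1) → ℝ)‖ = 1 := hx
      rw [norm_dk] at hx'
      by_cases h1 : ‖tl x‖ = 1
      · left; right; exact h1
      · have h2 : |(x : Fin (n + 1) → ℝ) 0| = 1 := by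
          rcases max_choice |(x : Fin (n + 1) → ℝ) 0| ‖tl x‖ with h | h
          · rw [← h]; exact hx'
          · exact absurd (h ▸ hx') h1
        rcases (abs_eq zero_le_one).1 h2 with h3 | h3
        · right
          refine ⟨⟨tl x, by rw [mem_closedBall_zero_iff]; exact tl_le x⟩, ?_⟩
          apply Subtype.ext
          funext i
          refine Fin.cases ?_ (fun i => ?_) i
          · exact h3.symm
          · rfl
        · left; left; exact h3
    · apply union_subset J_sub
      rintro _ ⟨y, rfl⟩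
      change ‖(Ph n y : Fin (n + 1) → ℝ)‖ = 1
      rw [norm_dk, Ph_zero, tl_Ph, abs_one]
      exact max_eq_left (mem_closedBall_zero_iff.1 y.2)

/-- the denominator of the projection from `(2, 0)` -/
noncomputable def dn (x : Dk (n + 1)) : ℝ := max ((2 - (x : Fin (n + 1) → ℝ) 0) / 3) ‖tl x‖

theorem dn_pos (x : Dk (n + 1)) : 0 < dn x := by
  have := abs_le.1 (hd_le x)
  apply lt_max_of_lt_left
  linarith [this.2]

theorem dn_le (x : Dk (n + 1)) : dn x ≤ 2 - (x : Fin (n + 1) → ℝ) 0 := by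
  have h := abs_le.1 (hd_le x)
  have h' := tl_le x
  apply max_le <;> linarith [h.2]

/-- the retraction of the cube to `J` -/
noncomputable def ret (n : ℕ) : C(Dk (n + 1), Dk (n + 1)) where
  toFun x := ⟨Fin.cons (2 - (2 - (x : Fin (n + 1) → ℝ) 0) / dn x) ((dn x)⁻¹ • tl x), by
    have hp := dn_pos x
    have h1 := dn_le x
    have h2 : (2 - (x : Fin (n + 1) → ℝ) 0) / 3 ≤ dn x := le_max_left _ _
    have h3 : ‖tl x‖ ≤ dn x := le_max_right _ _
    rw [mem_closedBall_zero_iff, norm_eq]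
    apply max_le
    · rw [Fin.cons_zero, abs_le]
      constructor
      · have : (2 - (x : Fin (n + 1) → ℝ) 0) / dn x ≤ 3 := by
          rw [div_le_iff₀ hp]; linarith
        linarith
      · have : 1 ≤ (2 - (x : Fin (n + 1) → ℝ) 0) / dn x := by
          rw [le_div_iff₀ hp]; linarith
        linarith
    · simp only [Fin.cons_succ]
      change ‖(dn x)⁻¹ • tl x‖ ≤ 1
      rw [norm_smul, norm_inv, Real.norm_of_nonneg hp.le, inv_mul_le_iff₀ hp, mul_one]
      exact h3⟩
  continuous_toFun := by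
    have hd : Continuous (dn : Dk (n + 1) → ℝ) := by
      unfold dn
      exact ((continuous_const.sub continuous_hd).div_const _).max continuous_tl.norm
    refine Continuous.subtype_mk ?_ _
    refine continuous_pi fun i => ?_
    refine Fin.cases ?_ (fun i => ?_) i
    · exact continuous_const.sub ((continuous_const.sub continuous_hd).div hd
        fun x => (dn_pos x).ne')
    · exact (hd.inv₀ fun x => (dn_pos x).ne').mul
        ((continuous_apply i.succ).comp continuous_subtype_val)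

theorem ret_zero (x : Dk (n + 1)) : (ret n x : Fin (n + 1) → ℝ) 0 =
    2 - (2 - (x : Fin (n + 1) → ℝ) 0) / dn x := rfl

theorem tl_ret (x : Dk (n + 1)) : tl (ret n x) = (dn x)⁻¹ • tl x := rfl

theorem ret_mem (x : Dk (n + 1)) : ret n x ∈ J n := by
  have hp := dn_pos x
  rcases max_choice ((2 - (x : Fin (n + 1) → ℝ) 0) / 3) ‖tl x‖ with h | h
  · left
    have h' : dn x = (2 - (x : Fin (n + 1) → ℝ) 0) / 3 := h
    have h2 : 2 - (x : Fin (n + 1) → ℝ) 0 = 3 * dn x := by rw [h']; ring
    rw [ret_zero, h2, mul_div_assoc, div_self hp.ne']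
    norm_num
  · right
    have h' : dn x = ‖tl x‖ := h
    rw [tl_ret, norm_smul, norm_inv, Real.norm_of_nonneg hp.le, ← h', inv_mul_cancel₀ hp.ne']

theorem ret_fix (x : Dk (n + 1)) (hx : x ∈ J n) : ret n x = x := by
  have h1 := abs_le.1 (hd_le x)
  have h2 := tl_le x
  have hd : dn x = 1 := by
    rcases hx with h | h
    · rw [dn, h]
      apply le_antisymm (max_le (by norm_num) h2)
      apply le_max_of_le_left; norm_num
    · rw [dn, h]
      apply le_antisymm (max_le (by linarith [h1.1]) le_rfl)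
      exact le_max_right _ _
  apply Subtype.ext
  funext i
  refine Fin.cases ?_ (fun i => ?_) i
  · rw [ret_zero, hd]; ring
  · change ((dn x)⁻¹ • tl x) i = _
    rw [hd, inv_one, one_smul]
    rfl

theorem acy_J (P : PrismOp) (n : ℕ) : Acy (J n) :=
  acy_retract (acy_dk P (n + 1)) (ret n) ret_mem ret_fix

end Step

section Crit

variable {n : ℕ}

theorem sum_unit {A : Type} [AddCommGroup A] (m : Unit →₀ ℤ) (u : A) :
    (m.sum fun _ a => a • u) = m () • u := by
  rw [Finsupp.sum_fintype]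
  · simp
  · simp

/-- the homology of `(S, J)` -/
theorem homSJ (hC : SpecCC1) (hL : SpecCL) {ζ : Ch n (Dk n)} (hζ : IsFund n ζ) :
    (∀ k, k ≠ n → HZero (bdk (n + 1)) (J n) k) ∧
    (∀ c ∈ Con (bdk (n + 1)) n, RCyc (J n) n c →
      ∃ m : ℤ, Null (bdk (n + 1)) (J n) n (c - m • push (Ph n) n ζ)) ∧
    ∀ m : ℤ, Null (bdk (n + 1)) (J n) n (m • push (Ph n) n ζ) → m = 0 := by
  obtain ⟨h1, h2, h3⟩ := hL (Dk (n + 1)) n Unit (bdk (n + 1)) (J n) (fun _ => Ph n) ζ hζ
    (hC (Dk (n + 1)) n (J n) (bdk (n + 1)) (Ph n) isClosed_J attach)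
  refine ⟨h1, fun c hc hc' => ?_, fun m hm => ?_⟩
  · obtain ⟨m, hm⟩ := h2 c hc hc'
    rw [sum_unit] at hm
    exact ⟨m (), hm⟩
  · have := h3 (Finsupp.single () m) (by rw [sum_unit]; simpa using hm)
    simpa using this

/-- a reduced cycle of the sphere which bounds modulo `J` bounds -/
theorem bound (P : PrismOp) {k : ℕ} {z : Ch k (Dk (n + 1))} (hz : RedCyc k z)
    (h : Null (bdk (n + 1)) (J n) k z) : ∃ b ∈ Con (bdk (n + 1)) (k + 1), bd k b = z := by
  obtain ⟨b1, hb1, h1⟩ := h
  obtain ⟨b2, hb2, h2⟩ := acy_J P n k _ h1 (hz.sub (redCyc_bd k b1))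
  refine ⟨b1 + b2, add_mem hb1 (con_mono J_sub hb2), ?_⟩
  rw [map_add, h2]
  abel

/-- chains of the cube whose boundary bounds in the sphere are null -/
theorem null_of (P : PrismOp) {k : ℕ} {c : Ch (k + 1) (Dk (n + 1))}
    (h : ∃ b ∈ Con (bdk (n + 1)) (k + 1), bd k b = bd k c) :
    Null univ (bdk (n + 1)) (k + 1) c := by
  obtain ⟨b, hb, h⟩ := h
  obtain ⟨b3, hb3, h3⟩ := acy_dk P (n + 1) (k + 1) (c - b) (mem_univ_con _ _) (by
    change bd k (c - b) = 0
    rw [map_sub, h, sub_self])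
  refine ⟨b3, hb3, ?_⟩
  rw [h3, sub_sub_cancel]
  exact hb

theorem crit (P : PrismOp) (hC : SpecCC1) (hL : SpecCL) {ζ : Ch n (Dk n)} (hζ : IsFund n ζ)
    {ξ : Ch (n + 1) (Dk (n + 1))} (h1 : bd n ξ ∈ Con (bdk (n + 1)) n)
    (h2 : bd n ξ - push (Ph n) n ζ ∈ Con (J n) n) : IsFund (n + 1) ξ := by
  obtain ⟨e1, e2, e3⟩ := homSJ hC hL hζ
  refine ⟨h1, ?_, ?_, ?_⟩
  · intro k hk c _ hc
    cases k with
    | zero =>
      obtain ⟨b, hb, h⟩ := acy_dk P (n + 1) 0 (c - wt 0 c • ksx 0 (ret n ⟨0, by simp⟩))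
        (mem_univ_con _ _) (by
          change wt 0 _ = 0
          rw [map_sub, map_smul, wt_ksx, smul_eq_mul, mul_one, sub_self])
      refine ⟨b, hb, ?_⟩
      rw [h, sub_sub_cancel]
      apply Submodule.smul_mem
      exact SD.single_mem (fun _ => J_sub (ret_mem _)) 1
    | succ k =>
      apply null_of P
      have hc' : bd k c ∈ Con (bdk (n + 1)) k := hc
      exact bound P (redCyc_bd k c) (e1 k (by omega) _ hc' ((redCyc_bd k c).rcyc _))
  · intro c hc
    have hc' : bd n c ∈ Con (bdk (n + 1)) n := hc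
    obtain ⟨m, hm⟩ := e2 _ hc' ((redCyc_bd n c).rcyc _)
    refine ⟨m, null_of P (bound P (redCyc_bd n _) ?_)⟩
    obtain ⟨b, hb, h⟩ := hm
    refine ⟨b, hb, ?_⟩
    have := sub_mem h (Submodule.smul_mem _ m h2)
    convert this using 1
    rw [map_sub, map_smul, smul_sub]
    abel
  · rintro m ⟨b, hb, h⟩
    apply e3
    refine ⟨m • ξ - bd (n + 1) b, h, ?_⟩
    have := Submodule.smul_mem _ (-m) h2
    convert this using 1
    rw [map_sub, map_smul, SD.bd_bd, sub_zero, smul_sub, neg_smul, neg_smul]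
    abel

theorem fund0 (P : PrismOp) : IsFund 0 (ksx 0 (clp 0 0)) := by
  have he : ∀ x : Dk 0, x ∉ bdk 0 := by
    intro x hx
    have h : ‖(x : Fin 0 → ℝ)‖ = 1 := hx
    rw [Subsingleton.elim (x : Fin 0 → ℝ) 0, norm_zero] at h
    exact zero_ne_one h
  refine ⟨trivial, ?_, ?_, ?_⟩
  · intro k hk c hc hz
    cases k with
    | zero => exact absurd rfl hk
    | succ k =>
      have hz' : bd k c ∈ Con (bdk 0) k := hz
      have h0 : bd k c = 0 := by
        rw [Con, Finsupp.mem_supported] at hz'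
        rw [← Finsupp.support_eq_empty, Finset.eq_empty_iff_forall_notMem]
        intro σ hσ
        exact he _ (hz' hσ (stdSimplex.vertex 0))
      obtain ⟨b, hb, h⟩ := acy_dk P 0 (k + 1) c hc h0
      exact ⟨b, hb, by rw [h, sub_self]; exact zero_mem _⟩
  · intro c _
    refine ⟨wt 0 c, ?_⟩
    obtain ⟨b, hb, h⟩ := acy_dk P 0 0 (c - wt 0 c • ksx 0 (clp 0 0)) (mem_univ_con _ _) (by
      change wt 0 _ = 0
      rw [map_sub, map_smul, wt_ksx, smul_eq_mul, mul_one, sub_self])
    exact ⟨b, hb, by rw [h, sub_self]; exact zero_mem _⟩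
  · rintro m ⟨b, _, h⟩
    have h0 : m • ksx 0 (clp 0 0) - bd 0 b = 0 := by
      rw [Con, Finsupp.mem_supported] at h
      rw [← Finsupp.support_eq_empty, Finset.eq_empty_iff_forall_notMem]
      intro σ hσ
      exact he _ (h hσ (stdSimplex.vertex 0))
    have := congrArg (wt 0) h0
    rw [map_sub, map_smul, wt_ksx, wt_bd, map_zero, smul_eq_mul, mul_one, sub_zero] at this
    exact this

end Crit

/-! ### explicit chains -/

theorem face_self {k : ℕ} (i : Fin (k + 1)) (x : Dl k) : face k i x i = 0 := by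
  change stdSimplex.map (S := ℝ) i.succAbove x i = 0
  rw [stdSimplex.map_coe, FunOnFinite.linearMap_apply_apply]
  apply Finset.sum_eq_zero
  intro y hy
  exact absurd (Finset.mem_filter.1 hy).2 (Fin.succAbove_ne i y)

theorem face_succAbove {k : ℕ} (i : Fin (k + 1)) (x : Dl k) (j : Fin k) :
    face k i x (i.succAbove j) = x j := by
  change stdSimplex.map (S := ℝ) i.succAbove x (i.succAbove j) = x j
  rw [stdSimplex.map_coe, FunOnFinite.linearMap_apply_apply, Finset.sum_eq_single j]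
  · intro b hb hbj
    exact absurd (Fin.succAbove_right_injective (Finset.mem_filter.1 hb).2) hbj
  · intro h
    exact absurd (by simp) h

theorem asx_face {n k : ℕ} (v : Fin (k + 1) → Fin n → ℝ) (i : Fin (k + 1)) :
    (asx v).comp (face k i) = asx fun j => v (i.succAbove j) := by
  apply ContinuousMap.ext
  intro x
  change clp n (∑ a, (face k i x) a • v a) = clp n (∑ j, x j • v (i.succAbove j))
  rw [Fin.sum_univ_succAbove _ i, face_self, zero_smul, zero_add]
  simp only [face_succAbove]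

theorem bd_asx {n k : ℕ} (v : Fin (k + 2) → Fin n → ℝ) :
    bd k (Finsupp.single (asx v) 1) = ∑ i : Fin (k + 2), (-1 : ℤ) ^ (i : ℕ) •
      Finsupp.single (asx fun j => v (i.succAbove j)) (1 : ℤ) := by
  rw [SD.bds]
  refine Finset.sum_congr rfl fun i _ => ?_
  rw [asx_face]

theorem bd_zeta1 : bd 0 zeta1 = Finsupp.single (asx ![![1]]) (1 : ℤ) -
    Finsupp.single (asx ![![-1]]) 1 := by
  rw [zeta1, bd_asx, Fin.sum_univ_two]
  have e1 : (fun j : Fin 1 => (![![-1], ![1]] : Fin 2 → Fin 1 → ℝ) ((0 : Fin 2).succAbove j)) =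
      ![![1]] := by
    funext j; fin_cases j; rfl
  have e2 : (fun j : Fin 1 => (![![-1], ![1]] : Fin 2 → Fin 1 → ℝ) ((1 : Fin 2).succAbove j)) =
      ![![-1]] := by
    funext j; fin_cases j; rfl
  rw [e1, e2]
  simp [sub_eq_add_neg]

theorem bd_zeta2 : bd 1 zeta2 = Finsupp.single (asx ![![1, -1], ![1, 1]]) (1 : ℤ) +
    Finsupp.single (asx ![![-1, -1], ![1, -1]]) 1 -
    Finsupp.single (asx ![![-1, 1], ![1, 1]]) 1 -
    Finsupp.single (asx ![![-1, -1], ![-1, 1]]) 1 := by
  rw [zeta2, map_sub, bd_asx, bd_asx, Fin.sum_univ_three, Fin.sum_univ_three]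
  have e : ∀ a b c : Fin 2 → ℝ,
      (fun j : Fin 2 => (![a, b, c] : Fin 3 → Fin 2 → ℝ) ((0 : Fin 3).succAbove j)) = ![b, c] ∧
      (fun j : Fin 2 => (![a, b, c] : Fin 3 → Fin 2 → ℝ) ((1 : Fin 3).succAbove j)) = ![a, c] ∧
      (fun j : Fin 2 => (![a, b, c] : Fin 3 → Fin 2 → ℝ) ((2 : Fin 3).succAbove j)) =
        ![a, b] := by
    intro a b c
    refine ⟨?_, ?_, ?_⟩ <;> (funext j; fin_cases j <;> rfl)
  rw [(e _ _ _).1, (e _ _ _).2.1, (e _ _ _).2.2, (e _ _ _).1, (e _ _ _).2.1, (e _ _ _).2.2]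
  simp only [Fin.val_zero, pow_zero, one_smul, Fin.val_one, pow_one, neg_smul, Fin.val_two,
    neg_one_sq]
  abel

theorem dl_one (x : Dl 1) : x 0 = 1 := by
  have := stdSimplex.sum_eq_one x
  rwa [Fin.sum_univ_one] at this

theorem dl_two (x : Dl 2) : x 0 + x 1 = 1 := by
  have := stdSimplex.sum_eq_one x
  rwa [Fin.sum_univ_two] at this

theorem asx_val {n k : ℕ} (v : Fin k → Fin n → ℝ) (x : Dl k) (i : Fin n) :
    (asx v x : Fin n → ℝ) i = max (-1) (min 1 (∑ j, x j * v j i)) := by
  change max (-1) (min 1 ((∑ j, x j • v j) i)) = _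
  rw [Finset.sum_apply]
  rfl

theorem tl_one (x : Dk 2) : ‖tl x‖ = |(x : Fin 2 → ℝ) 1| := by
  rw [norm_eq]
  have : ‖fun i : Fin 0 => tl x i.succ‖ = 0 := by
    rw [Subsingleton.elim (fun i : Fin 0 => tl x i.succ) 0, norm_zero]
  rw [this]
  exact max_eq_left (abs_nonneg _)

theorem fund1 (P : PrismOp) (hC : SpecCC1) (hL : SpecCL) : IsFund 1 zeta1 := by
  have h1 : asx ![![1]] = ContinuousMap.const (Dl 1) (Ph 0 (clp 0 0)) := by
    apply ContinuousMap.ext
    intro x
    apply Subtype.ext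
    funext i
    rw [asx_val]
    fin_cases i
    simp
    rfl
  have h2 : ∀ x, asx ![![-1]] x ∈ J 0 := by
    intro x
    left
    rw [asx_val]
    simp
  refine crit P hC hL (fund0 P) ?_ ?_
  · rw [bd_zeta1]
    apply sub_mem
    · apply SD.single_mem
      intro x
      rw [h1]
      change Ph 0 (clp 0 0) ∈ bdk 1
      rw [(attach (n := 0)).eq]
      exact Or.inr ⟨_, rfl⟩
    · exact SD.single_mem (fun x => J_sub (h2 x)) 1
  · rw [bd_zeta1, h1, ksx, push_single]
    have : (Ph 0).comp (ContinuousMap.const (Dl 1) (clp 0 0)) =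
        ContinuousMap.const (Dl 1) (Ph 0 (clp 0 0)) := rfl
    rw [this, sub_right_comm, sub_self, zero_sub]
    exact neg_mem (SD.single_mem h2 1)

theorem fund2 (P : PrismOp) (hC : SpecCC1) (hL : SpecCL) : IsFund 2 zeta2 := by
  have h1 : asx ![![1, -1], ![1, 1]] = (Ph 1).comp (asx ![![-1], ![1]]) := by
    apply ContinuousMap.ext
    intro x
    apply Subtype.ext
    funext i
    rw [asx_val]
    fin_cases i
    · simp [Fin.sum_univ_two, dl_two]
      rfl
    · simp [Fin.sum_univ_two]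
      change _ = ((asx ![![-1], ![1]]) x : Fin 1 → ℝ) 0
      rw [asx_val]
      simp [Fin.sum_univ_two]
  have h2 : ∀ x, asx ![![-1, -1], ![1, -1]] x ∈ J 1 := by
    intro x
    right
    rw [tl_one, asx_val]
    have := dl_two x
    have e : x 0 * (-1 : ℝ) + x 1 * (-1) = -1 := by linarith
    simp [Fin.sum_univ_two]
    rw [show -x 0 + -x 1 = -1 by linarith]
    norm_num
  have h3 : ∀ x, asx ![![-1, 1], ![1, 1]] x ∈ J 1 := by
    intro x
    right
    rw [tl_one, asx_val]
    simp [Fin.sum_univ_two, dl_two]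
  have h4 : ∀ x, asx ![![-1, -1], ![-1, 1]] x ∈ J 1 := by
    intro x
    left
    rw [asx_val, Fin.sum_univ_two]
    have e : x 0 * (![![-1, -1], ![-1, 1]] : Fin 2 → Fin 2 → ℝ) 0 0 +
        x 1 * (![![-1, -1], ![-1, 1]] : Fin 2 → Fin 2 → ℝ) 1 0 = -1 := by
      have := dl_two x
      simp only [Matrix.cons_val_zero, Matrix.cons_val_one]
      linarith
    rw [e]
    norm_num
  have h5 : bd 1 zeta2 - push (Ph 1) 1 zeta1 ∈ Con (J 1) 1 := by
    have e : bd 1 zeta2 - push (Ph 1) 1 zeta1 =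
        Finsupp.single (asx ![![-1, -1], ![1, -1]]) 1 -
        Finsupp.single (asx ![![-1, 1], ![1, 1]]) 1 -
        Finsupp.single (asx ![![-1, -1], ![-1, 1]]) 1 := by
      rw [bd_zeta2, zeta1, push_single, h1]
      abel
    rw [e]
    exact sub_mem (sub_mem (SD.single_mem h2 1) (SD.single_mem h3 1)) (SD.single_mem h4 1)
  refine crit P hC hL (fund1 P hC hL) ?_ h5
  have e : bd 1 zeta2 = (bd 1 zeta2 - push (Ph 1) 1 zeta1) + push (Ph 1) 1 zeta1 := by abel
  rw [e]
  refine add_mem (con_mono J_sub h5) (push_mem (A := univ) (fun x _ => ?_) (mem_univ_con _ _))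
  rw [(attach (n := 1)).eq]
  exact Or.inr ⟨_, rfl⟩

theorem exists_fund (P : PrismOp) (hC : SpecCC1) (hL : SpecCL) : ∀ n, ∃ ζ, IsFund n ζ := by
  intro n
  match n with
  | 0 => exact ⟨_, fund0 P⟩
  | 1 => exact ⟨_, fund1 P hC hL⟩
  | n + 2 =>
    obtain ⟨ζ, hζ⟩ := exists_fund P hC hL (n + 1)
    have h0 : bd n ζ ∈ Con (bdk (n + 1)) n := hζ.cyc
    have h1 : push (Ph (n + 1)) n (bd n ζ) ∈ Con (J (n + 1)) n :=
      push_mem (fun x hx => (attach (n := n + 1)).bdry x hx) h0
    obtain ⟨b, hb, h2⟩ := acy_J P (n + 1) n _ h1 (by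
      rw [← push_bd]
      exact redCyc_bd n _)
    obtain ⟨ξ, -, hξ⟩ := acy_dk P (n + 2) (n + 1) (push (Ph (n + 1)) (n + 1) ζ - b)
      (mem_univ_con _ _) (by
        change bd n _ = 0
        rw [map_sub, push_bd, h2, sub_self])
    refine ⟨ξ, crit P hC hL hζ ?_ ?_⟩
    · rw [hξ]
      refine sub_mem (push_mem (A := univ) (fun x _ => ?_) (mem_univ_con _ _)) (con_mono J_sub hb)
      rw [(attach (n := n + 1)).eq]
      exact Or.inr ⟨_, rfl⟩
    · rw [hξ, sub_right_comm, sub_self, zero_sub]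
      exact neg_mem hb

theorem main (hP : SpecPrism) (hC : SpecCC1) (hL : SpecCL) : SpecFund := by
  obtain ⟨P⟩ := hP
  exact ⟨exists_fund P hC hL, fund0 P, fund1 P hC hL, fund2 P hC hL⟩

end Vale.Agent.P246.T.FM
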