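import Vale.Agent.P246.T.PS1
import Vale.Agent.P246.T.CV

/-! # Block PS, parts 4, 5: the path space (homotopy extension for prisms) -/

namespace Vale.Agent.P246.T.PS

open Topology Metric Set

theorem face_inj (k : ℕ) (i : Fin (k + 1)) : Function.Injective (face k i) := fun s t h => by
  refine Subtype.ext (funext fun j => ?_)
  have h1 := CV.face_succAbove k i s j
  rw [h, CV.face_succAbove] at h1
  exact h1.symm

/-- forget a zero coordinate -/
def drop {k : ℕ} (i : Fin (k + 1)) (x : Dl (k + 1)) (h : x i = 0) : Dl k :=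
  ⟨fun j => x (i.succAbove j), fun j => x.2.1 _, by
    have h1 : ∑ m, x m = 1 := x.2.2
    rw [Fin.sum_univ_succAbove _ i, h, zero_add] at h1
    exact h1⟩

theorem drop_apply {k : ℕ} (i : Fin (k + 1)) (x : Dl (k + 1)) (h : x i = 0) (j : Fin k) :
    drop i x h j = x (i.succAbove j) := rfl

theorem face_drop {k : ℕ} (i : Fin (k + 1)) (x : Dl (k + 1)) (h : x i = 0) :
    face k i (drop i x h) = x := by
  refine Subtype.ext (funext fun m => ?_)
  show face k i (drop i x h) m = x m
  induction m using Fin.succAboveCases i with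
  | x => rw [CV.face_self, h]
  | p j => rw [CV.face_succAbove, drop_apply]

theorem drop_face {k : ℕ} (i : Fin (k + 1)) (s : Dl k) :
    drop i (face k i s) (CV.face_self k i s) = s := face_inj k i (face_drop i _ _)

/-- the smallest coordinate -/
noncomputable def mn {k : ℕ} (x : Dl (k + 1)) : ℝ :=
  Finset.univ.inf' Finset.univ_nonempty fun i => x i

theorem continuous_coord {k : ℕ} (i : Fin k) : Continuous fun x : Dl k => x i :=
  (continuous_apply i).comp continuous_subtype_val

theorem continuous_mn (k : ℕ) : Continuous (mn : Dl (k + 1) → ℝ) :=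
  Continuous.finset_inf'_apply _ fun i _ => continuous_coord i

theorem mn_le {k : ℕ} (x : Dl (k + 1)) (i : Fin (k + 1)) : mn x ≤ x i :=
  Finset.inf'_le _ (Finset.mem_univ i)

theorem mn_nonneg {k : ℕ} (x : Dl (k + 1)) : 0 ≤ mn x :=
  Finset.le_inf' _ _ fun i _ => x.2.1 i

theorem exists_mn {k : ℕ} (x : Dl (k + 1)) : ∃ i, mn x = x i := by
  obtain ⟨i, _, hi⟩ := Finset.exists_mem_eq_inf' Finset.univ_nonempty (fun i => x i)
  exact ⟨i, hi⟩

/-- the scaling factor -/
noncomputable def mu {k : ℕ} (p : I × (I × Dl (k + 1))) : ℝ :=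
  max (1 - (p.1 : ℝ) / 2) (max |2 * (p.2.1 : ℝ) - 1| (1 - (k + 1) * mn p.2.2))

theorem continuous_mu (k : ℕ) : Continuous (mu : I × (I × Dl (k + 1)) → ℝ) := by
  unfold mu
  refine (continuous_const.sub ((continuous_subtype_val.comp continuous_fst).div_const _)).max
    (Continuous.max ?_ ?_)
  · exact ((continuous_const.mul (continuous_subtype_val.comp
      (continuous_fst.comp continuous_snd))).sub continuous_const).abs
  · exact continuous_const.sub (continuous_const.mul
      ((continuous_mn k).comp (continuous_snd.comp continuous_snd)))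

theorem half_le_mu {k : ℕ} (p : I × (I × Dl (k + 1))) : 1 / 2 ≤ mu p := by
  refine le_trans ?_ (le_max_left _ _)
  linarith [p.1.2.2]

theorem mu_pos {k : ℕ} (p : I × (I × Dl (k + 1))) : 0 < mu p :=
  lt_of_lt_of_le (by norm_num) (half_le_mu p)

theorem abs_le_mu {k : ℕ} (p : I × (I × Dl (k + 1))) : |2 * (p.2.1 : ℝ) - 1| ≤ mu p :=
  (le_max_left _ _).trans (le_max_right _ _)

theorem mn_le_mu {k : ℕ} (p : I × (I × Dl (k + 1))) : 1 - ((k : ℝ) + 1) * mn p.2.2 ≤ mu p :=
  (le_max_right _ _).trans (le_max_right _ _)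

theorem mu_le {k : ℕ} (p : I × (I × Dl (k + 1))) : mu p ≤ 1 := by
  refine max_le ?_ (max_le ?_ ?_)
  · linarith [p.1.2.1]
  · rw [abs_le]
    constructor
    · linarith [p.2.1.2.1]
    · linarith [p.2.1.2.2]
  · have := mn_nonneg p.2.2
    have : 0 ≤ ((k : ℝ) + 1) * mn p.2.2 := by positivity
    linarith

/-- the retraction of `I × (I × Δ)` onto the union of `0 × (I × Δ)` and `I × ∂(I × Δ)` -/
noncomputable def ret {k : ℕ} (p : I × (I × Dl (k + 1))) : I × (I × Dl (k + 1)) :=
  (⟨2 - (2 - (p.1 : ℝ)) / mu p, by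
    have h1 := mu_pos p
    have h2 : 1 - (p.1 : ℝ) / 2 ≤ mu p := le_max_left _ _
    constructor
    · rw [sub_nonneg, div_le_iff₀ h1]; linarith
    · have : 1 ≤ (2 - (p.1 : ℝ)) / mu p := by
        rw [le_div_iff₀ h1]; linarith [mu_le p, p.1.2.2]
      linarith⟩,
   (⟨1 / 2 + ((p.2.1 : ℝ) - 1 / 2) / mu p, by
    have h1 := mu_pos p
    have h2 := abs_le.1 (abs_le_mu p)
    constructor
    · have : -(1 / 2) ≤ ((p.2.1 : ℝ) - 1 / 2) / mu p := by
        rw [le_div_iff₀ h1]; linarith [h2.1]
      linarith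
    · have : ((p.2.1 : ℝ) - 1 / 2) / mu p ≤ 1 / 2 := by
        rw [div_le_iff₀ h1]; linarith [h2.2]
      linarith⟩,
    ⟨fun i => 1 / (k + 1 : ℝ) + (p.2.2 i - 1 / (k + 1 : ℝ)) / mu p, by
    intro i
    have h1 := mu_pos p
    have hk : (0 : ℝ) < k + 1 := by positivity
    have h2 := mn_le_mu p
    have h3 := mn_le p.2.2 i
    have h4 : 1 - ((k : ℝ) + 1) * p.2.2 i ≤ mu p :=
      le_trans (by nlinarith) h2
    have h5 : -(1 / (k + 1 : ℝ)) ≤ (p.2.2 i - 1 / (k + 1 : ℝ)) / mu p := by
      rw [le_div_iff₀ h1]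
      have : (k + 1 : ℝ) * (-(1 / (k + 1 : ℝ)) * mu p) ≤
          (k + 1 : ℝ) * (p.2.2 i - 1 / (k + 1 : ℝ)) := by
        field_simp
        linarith
      exact le_of_mul_le_mul_left this hk
    show (0 : ℝ) ≤ 1 / (k + 1 : ℝ) + (p.2.2 i - 1 / (k + 1 : ℝ)) / mu p
    linarith, by
    have h1 : ∑ m, p.2.2 m = 1 := p.2.2.2.2
    have hk : (k + 1 : ℝ) ≠ 0 := by positivity
    have h2 : ∑ _m : Fin (k + 1), (1 / (k + 1 : ℝ)) = 1 := by
      rw [Finset.sum_const, Finset.card_univ, Fintype.card_fin, nsmul_eq_mul]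
      push_cast
      field_simp
    have h3 : ∑ m, (p.2.2 m - 1 / (k + 1 : ℝ)) / mu p = 0 := by
      rw [← Finset.sum_div, Finset.sum_sub_distrib, h1, h2, sub_self, zero_div]
    rw [Finset.sum_add_distrib, h2, h3, add_zero]⟩))

theorem ret_fst {k : ℕ} (p : I × (I × Dl (k + 1))) :
    (((ret p).1 : I) : ℝ) = 2 - (2 - (p.1 : ℝ)) / mu p := rfl

theorem ret_mid {k : ℕ} (p : I × (I × Dl (k + 1))) :
    (((ret p).2.1 : I) : ℝ) = 1 / 2 + ((p.2.1 : ℝ) - 1 / 2) / mu p := rfl

theorem ret_snd {k : ℕ} (p : I × (I × Dl (k + 1))) (i : Fin (k + 1)) :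
    (ret p).2.2 i = 1 / (k + 1 : ℝ) + (p.2.2 i - 1 / (k + 1 : ℝ)) / mu p := rfl

theorem continuous_ret (k : ℕ) :
    Continuous (ret : I × (I × Dl (k + 1)) → I × (I × Dl (k + 1))) := by
  refine Continuous.prodMk ?_ (Continuous.prodMk ?_ ?_)
  · refine Continuous.subtype_mk ?_ _
    exact continuous_const.sub ((continuous_const.sub
      (continuous_subtype_val.comp continuous_fst)).div (continuous_mu k) fun p => (mu_pos p).ne')
  · refine Continuous.subtype_mk ?_ _
    exact continuous_const.add (((continuous_subtype_val.comp (continuous_fst.comp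
      continuous_snd)).sub continuous_const).div (continuous_mu k) fun p => (mu_pos p).ne')
  · refine Continuous.subtype_mk (continuous_pi fun i => ?_) _
    exact continuous_const.add ((((continuous_coord i).comp (continuous_snd.comp
      continuous_snd)).sub continuous_const).div (continuous_mu k) fun p => (mu_pos p).ne')

theorem ret_mem {k : ℕ} (p : I × (I × Dl (k + 1))) : (ret p).1 = 0 ∨ (ret p).2.1 = 0 ∨
    (ret p).2.1 = 1 ∨ ∃ i, (ret p).2.2 i = 0 := by
  have h1 := mu_pos p
  rcases max_choice (1 - (p.1 : ℝ) / 2) (max |2 * (p.2.1 : ℝ) - 1| (1 - (k + 1) * mn p.2.2))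
    with h | h
  · left
    refine Subtype.ext ?_
    rw [ret_fst]
    have : mu p = 1 - (p.1 : ℝ) / 2 := h
    rw [this] at h1 ⊢
    have : (1 - (p.1 : ℝ) / 2) ≠ 0 := h1.ne'
    have h5 : (2 - (p.1 : ℝ)) / (1 - (p.1 : ℝ) / 2) = 2 := by
      rw [div_eq_iff this]; ring
    show 2 - (2 - (p.1 : ℝ)) / (1 - (p.1 : ℝ) / 2) = 0
    rw [h5, sub_self]
  · right
    rcases max_choice |2 * (p.2.1 : ℝ) - 1| (1 - (k + 1) * mn p.2.2) with h' | h'
    · have hm : mu p = |2 * (p.2.1 : ℝ) - 1| := h.trans h'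
      rcases abs_choice (2 * (p.2.1 : ℝ) - 1) with h6 | h6
      · right; left
        refine Subtype.ext ?_
        rw [ret_mid]
        have h7 : (p.2.1 : ℝ) - 1 / 2 = 1 / 2 * mu p := by rw [hm, h6]; ring
        rw [h7, mul_div_assoc, div_self h1.ne']
        show (1 / 2 + 1 / 2 * 1 : ℝ) = 1
        norm_num
      · left
        refine Subtype.ext ?_
        rw [ret_mid]
        have h7 : (p.2.1 : ℝ) - 1 / 2 = -(1 / 2) * mu p := by rw [hm, h6]; ring
        rw [h7, mul_div_assoc, div_self h1.ne']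
        show (1 / 2 + -(1 / 2) * 1 : ℝ) = 0
        norm_num
    · right; right
      obtain ⟨i, hi⟩ := exists_mn p.2.2
      refine ⟨i, ?_⟩
      rw [ret_snd]
      have h2 : mu p = 1 - (k + 1) * p.2.2 i := by rw [← hi]; exact h.trans h'
      have h3 : p.2.2 i - 1 / (k + 1 : ℝ) = -(1 / (k + 1 : ℝ)) * mu p := by
        rw [h2]
        have hk : (k + 1 : ℝ) ≠ 0 := by positivity
        field_simp
        ring
      rw [h3, mul_div_assoc, div_self h1.ne']
      ring

theorem ret_of_mu {k : ℕ} (p : I × (I × Dl (k + 1))) (h : 1 ≤ mu p) : ret p = p := by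
  have h : mu p = 1 := le_antisymm (mu_le _) h
  refine Prod.ext (Subtype.ext ?_) (Prod.ext (Subtype.ext ?_) (Subtype.ext (funext fun i => ?_)))
  · rw [ret_fst, h]; simp
  · rw [ret_mid, h]; simp
  · show (ret p).2.2 i = p.2.2 i
    rw [ret_snd, h]; simp

variable {X : Type} [TopologicalSpace X]

/-- Homotopy extension for the prism `I × Δ`. -/
theorem hepP {k : ℕ} (S E0 E1 : C(I × Dl (k + 1), X)) (G : Fin (k + 1) → C(I × (I × Dl k), X))
    (h0 : ∀ x, E0 (0, x) = S (0, x)) (h1 : ∀ x, E1 (0, x) = S (1, x))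
    (g0 : ∀ i r y, G i (0, (r, y)) = S (r, face k i y))
    (e0 : ∀ i u y, G i (u, (0, y)) = E0 (u, face k i y))
    (e1 : ∀ i u y, G i (u, (1, y)) = E1 (u, face k i y))
    (hm : ∀ i j y y', face k i y = face k j y' → ∀ u r, G i (u, (r, y)) = G j (u, (r, y'))) :
    ∃ K : C(I × (I × Dl (k + 1)), X), (∀ r x, K (0, (r, x)) = S (r, x)) ∧
      (∀ u x, K (u, (0, x)) = E0 (u, x)) ∧ (∀ u x, K (u, (1, x)) = E1 (u, x)) ∧
      ∀ i u r y, K (u, (r, face k i y)) = G i (u, (r, y)) := by
  classical
  let w : I × (I × Dl (k + 1)) → X := fun q =>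
    if h : ∃ i, q.2.2 i = 0 then G h.choose (q.1, (q.2.1, drop h.choose q.2.2 h.choose_spec))
    else if q.2.1 = 0 then E0 (q.1, q.2.2) else if q.2.1 = 1 then E1 (q.1, q.2.2) else S q.2
  have hw : ∀ (q : I × (I × Dl (k + 1))) (i : Fin (k + 1)) (hi : q.2.2 i = 0),
      w q = G i (q.1, (q.2.1, drop i q.2.2 hi)) := fun q i hi => by
    have h : ∃ i, q.2.2 i = 0 := ⟨i, hi⟩
    show dite _ _ _ = _
    rw [dif_pos h]
    exact hm _ _ _ _ (by rw [face_drop, face_drop]) _ _
  have hw0 : ∀ q : I × (I × Dl (k + 1)), q.2.1 = 0 → w q = E0 (q.1, q.2.2) := fun q hq => by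
    by_cases h : ∃ i, q.2.2 i = 0
    · obtain ⟨i, hi⟩ := h
      rw [hw q i hi, hq, e0, face_drop]
    · show dite _ _ _ = _
      rw [dif_neg h, if_pos hq]
  have hw1 : ∀ q : I × (I × Dl (k + 1)), q.2.1 = 1 → w q = E1 (q.1, q.2.2) := fun q hq => by
    by_cases h : ∃ i, q.2.2 i = 0
    · obtain ⟨i, hi⟩ := h
      rw [hw q i hi, hq, e1, face_drop]
    · show dite _ _ _ = _
      rw [dif_neg h, if_neg (by rw [hq]; exact one_ne_zero), if_pos hq]
  have hwS : ∀ q : I × (I × Dl (k + 1)), q.1 = 0 → w q = S q.2 := fun q hq => by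
    by_cases h : ∃ i, q.2.2 i = 0
    · obtain ⟨i, hi⟩ := h
      rw [hw q i hi, hq, g0, face_drop]
    · by_cases h2 : q.2.1 = 0
      · rw [hw0 q h2, hq, h0, ← h2]
      · by_cases h3 : q.2.1 = 1
        · rw [hw1 q h3, hq, h1, ← h3]
        · show dite _ _ _ = _
          rw [dif_neg h, if_neg h2, if_neg h3]
  have cr := continuous_ret k
  let C : Fin 3 ⊕ Fin (k + 1) → Set (I × (I × Dl (k + 1))) := fun o =>
    match o with
    | .inl 0 => {p | (ret p).1 = 0}
    | .inl 1 => {p | (ret p).2.1 = 0}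
    | .inl 2 => {p | (ret p).2.1 = 1}
    | .inr i => {p | (ret p).2.2 i = 0}
  have hcont : Continuous fun p => w (ret p) := by
    refine LocallyFinite.continuous (f := C) (locallyFinite_of_finite _) ?_ ?_ ?_
    · refine Set.eq_univ_of_forall fun p => Set.mem_iUnion.2 ?_
      rcases ret_mem p with h | h | h | ⟨i, h⟩
      · exact ⟨.inl 0, h⟩
      · exact ⟨.inl 1, h⟩
      · exact ⟨.inl 2, h⟩
      · exact ⟨.inr i, h⟩
    · intro o
      match o with
      | .inl 0 => exact isClosed_eq (continuous_fst.comp cr) continuous_const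
      | .inl 1 => exact isClosed_eq (continuous_fst.comp (continuous_snd.comp cr)) continuous_const
      | .inl 2 => exact isClosed_eq (continuous_fst.comp (continuous_snd.comp cr)) continuous_const
      | .inr i => exact isClosed_eq ((continuous_coord i).comp
          (continuous_snd.comp (continuous_snd.comp cr))) continuous_const
    · intro o
      match o with
      | .inl 0 =>
        refine ContinuousOn.congr (f := fun p => S (ret p).2) ?_ fun p hp => hwS _ hp
        exact (S.continuous.comp (continuous_snd.comp cr)).continuousOn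
      | .inl 1 =>
        refine ContinuousOn.congr (f := fun p => E0 ((ret p).1, (ret p).2.2)) ?_
          fun p hp => hw0 _ hp
        exact (E0.continuous.comp ((continuous_fst.comp cr).prodMk
          (continuous_snd.comp (continuous_snd.comp cr)))).continuousOn
      | .inl 2 =>
        refine ContinuousOn.congr (f := fun p => E1 ((ret p).1, (ret p).2.2)) ?_
          fun p hp => hw1 _ hp
        exact (E1.continuous.comp ((continuous_fst.comp cr).prodMk
          (continuous_snd.comp (continuous_snd.comp cr)))).continuousOn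
      | .inr i =>
        rw [continuousOn_iff_continuous_domRestrict]
        have : (C (.inr i)).domRestrict (fun p => w (ret p)) = fun p : C (.inr i) =>
            G i ((ret p.1).1, ((ret p.1).2.1, drop i (ret p.1).2.2 p.2)) :=
          funext fun p => hw _ i p.2
        rw [this]
        refine (G i).continuous.comp (Continuous.prodMk
          (continuous_fst.comp (cr.comp continuous_subtype_val)) (Continuous.prodMk
          (continuous_fst.comp (continuous_snd.comp (cr.comp continuous_subtype_val))) ?_))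
        refine Continuous.subtype_mk (continuous_pi fun j => ?_) _
        exact (continuous_coord _).comp (continuous_snd.comp (continuous_snd.comp
          (cr.comp continuous_subtype_val)))
  refine ⟨⟨fun p => w (ret p), hcont⟩, fun r x => ?_, fun u x => ?_, fun u x => ?_,
    fun i u r y => ?_⟩
  · show w (ret (0, (r, x))) = S (r, x)
    rw [ret_of_mu _ (le_trans (by simp) (le_max_left _ _)), hwS _ rfl]
  · show w (ret (u, (0, x))) = E0 (u, x)
    rw [ret_of_mu _ (le_trans (by simp) (abs_le_mu _)), hw0 _ rfl]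
  · show w (ret (u, (1, x))) = E1 (u, x)
    have : (1 : ℝ) ≤ |2 * ((1 : I) : ℝ) - 1| := by norm_num
    rw [ret_of_mu _ (le_trans this (abs_le_mu (u, ((1 : I), x)))), hw1 _ rfl]
  · show w (ret (u, (r, face k i y))) = G i (u, (r, y))
    have h6 : (1 : ℝ) ≤ mu (u, (r, face k i y)) := by
      refine le_trans ?_ (mn_le_mu _)
      have h1 : mn (face k i y) ≤ 0 := CV.face_self k i y ▸ mn_le (face k i y) i
      have h2 : ((k : ℝ) + 1) * mn (face k i y) ≤ 0 :=
        mul_nonpos_of_nonneg_of_nonpos (by positivity) h1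
      show (1 : ℝ) ≤ 1 - (k + 1) * mn (face k i y)
      linarith
    rw [ret_of_mu _ h6, hw _ i (CV.face_self k i y), drop_face]

variable {B : Type} [TopologicalSpace B]

theorem P4 (b : B) (A : Set B) (k : ℕ) (hA : LftS A k) : LftS (ev b ⁻¹' A) k := by
  intro s G h0 hm h1
  obtain ⟨K', k0, k1, k2⟩ := hA ((ev b).comp s) (fun i => (ev b).comp (G i))
    (fun i x => by
      show ev b (G i (0, x)) = ev b (s (face k i x))
      rw [h0])
    (fun i j x y hxy t => by
      show ev b (G i (t, x)) = ev b (G j (t, y))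
      rw [hm i j x y hxy t])
    (fun i x => h1 i x)
  have k0' : ∀ x, K' (0, x) = (s x).1 1 := k0
  have k1' : ∀ i t x, K' (t, face k i x) = (G i (t, x)).1 1 := k1
  let S : C(I × Dl (k + 1), B) := ⟨fun q => PS1.un s (q.2, q.1),
    (PS1.un s).continuous.comp (continuous_snd.prodMk continuous_fst)⟩
  let E0 : C(I × Dl (k + 1), B) := ContinuousMap.const _ b
  let Gt : Fin (k + 1) → C(I × (I × Dl k), B) := fun i =>
    ⟨fun q => PS1.un (G i) ((q.1, q.2.2), q.2.1), (PS1.un (G i)).continuous.comp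
      ((continuous_fst.prodMk (continuous_snd.comp continuous_snd)).prodMk
        (continuous_fst.comp continuous_snd))⟩
  obtain ⟨L, l0, l1, l2, l3⟩ := hepP S E0 K' Gt
    (fun x => ((s x).2).symm)
    (fun x => k0' x)
    (fun i r y => by
      show (G i (0, y)).1 r = (s (face k i y)).1 r
      rw [h0])
    (fun i u y => (G i (u, y)).2)
    (fun i u y => (k1' i u y).symm)
    (fun i j y y' hyy u r => by
      show (G i (u, y)).1 r = (G j (u, y')).1 r
      rw [hm i j y y' hyy u])
  let F : C((I × Dl (k + 1)) × I, B) := ⟨fun q => L (q.1.1, (q.2, q.1.2)),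
    L.continuous.comp ((continuous_fst.comp continuous_fst).prodMk
      (continuous_snd.prodMk (continuous_snd.comp continuous_fst)))⟩
  refine ⟨PS1.mk F (fun z => l1 z.1 z.2), fun x => ?_, fun i t x => ?_, fun x => ?_⟩
  · exact Subtype.ext (ContinuousMap.ext fun r => l0 r x)
  · exact Subtype.ext (ContinuousMap.ext fun r => l3 i t r x)
  · show L (1, (1, x)) ∈ A
    rw [l2]
    exact k2 x

/-- `(1 + t) r` for `(1 + t) r ≤ 1` -/
noncomputable def up (t r : I) : I := Set.projIcc 0 1 zero_le_one ((1 + (t : ℝ)) * r)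

/-- `(1 + t) r - 1` -/
noncomputable def lo (t r : I) : I := Set.projIcc 0 1 zero_le_one ((1 + (t : ℝ)) * r - 1)

theorem P5 (hB : PathConnectedSpace B) (b : B) (A : Set B) (k : ℕ)
    (ext : ∀ f : Fin (k + 1) → C(Dl k, PP b), (∀ i x, ev b (f i x) ∈ A) →
      (∀ i j x y, face k i x = face k j y → f i x = f j y) →
      ∃ h : C(Dl (k + 1), PP b), (∀ i x, h (face k i x) = f i x) ∧ ∀ x, ev b (h x) ∈ A) :
    LftS A k := by
  intro s G h0 hm h1
  obtain ⟨σ, hσ⟩ := PS1.P2 hB b k s
  have hσ' : ∀ x, (σ x).1 1 = s x := fun x => DFunLike.congr_fun hσ x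
  -- the lift of the homotopies
  let Q : Fin (k + 1) → C((I × Dl k) × I, B) := fun i =>
    ⟨fun q => if (1 + (q.1.1 : ℝ)) * q.2 ≤ 1 then (σ (face k i q.1.2)).1 (up q.1.1 q.2)
      else G i (lo q.1.1 q.2, q.1.2), by
      refine Continuous.if_le ?_ ?_ (by fun_prop) continuous_const fun q hq => ?_
      · have hc : Continuous fun q : (I × Dl k) × I =>
            ((σ (face k i q.1.2)).1, up q.1.1 q.2) := by
          refine Continuous.prodMk ?_ ?_
          · exact continuous_subtype_val.comp (σ.continuous.comp ((face k i).continuous.comp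
              (continuous_snd.comp continuous_fst)))
          · unfold up; fun_prop
        exact ContinuousEval.continuous_eval.comp hc
      · refine (G i).continuous.comp (Continuous.prodMk ?_ (continuous_snd.comp continuous_fst))
        unfold lo; fun_prop
      · have e1 : up q.1.1 q.2 = 1 := by unfold up; rw [hq]; simp
        have e2 : lo q.1.1 q.2 = 0 := by unfold lo; rw [hq]; simp
        rw [e1, e2, h0, hσ']⟩
  have Q0 : ∀ i z, Q i (z, 0) = b := fun i z => by
    show (if (1 + (z.1 : ℝ)) * ((0 : I) : ℝ) ≤ 1 then (σ (face k i z.2)).1 (up z.1 0)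
      else G i (lo z.1 0, z.2)) = b
    rw [if_pos (by simp)]
    have e1 : up z.1 0 = 0 := by unfold up; simp
    rw [e1]
    exact (σ _).2
  have Q1 : ∀ i z, Q i (z, 1) = G i z := fun i z => by
    show (if (1 + (z.1 : ℝ)) * ((1 : I) : ℝ) ≤ 1 then (σ (face k i z.2)).1 (up z.1 1)
      else G i (lo z.1 1, z.2)) = G i z
    split_ifs with h
    · have h2 : (z.1 : ℝ) ≤ 0 := by
        simp only [Set.Icc.coe_one, mul_one] at h; linarith
      have h3 : z.1 = 0 := Subtype.ext (le_antisymm h2 z.1.2.1)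
      have e1 : up z.1 1 = 1 := by unfold up; rw [h3]; simp
      rw [e1, hσ', ← h0, ← h3]
    · have e2 : lo z.1 1 = z.1 := by
        unfold lo
        have : (1 + (z.1 : ℝ)) * ((1 : I) : ℝ) - 1 = z.1 := by simp
        rw [this, Set.projIcc_of_mem _ z.1.2]
      rw [e2]
  let Gl : Fin (k + 1) → C(I × Dl k, PP b) := fun i => PS1.mk (Q i) (Q0 i)
  have Gl0 : ∀ i x, Gl i (0, x) = σ (face k i x) := fun i x => by
    refine Subtype.ext (ContinuousMap.ext fun r => ?_)
    show (if (1 + ((0 : I) : ℝ)) * (r : ℝ) ≤ 1 then (σ (face k i x)).1 (up 0 r)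
      else G i (lo 0 r, x)) = (σ (face k i x)).1 r
    rw [if_pos (by simpa using r.2.2)]
    have e1 : up 0 r = r := by
      unfold up
      have : (1 + ((0 : I) : ℝ)) * (r : ℝ) = r := by simp
      rw [this, Set.projIcc_of_mem _ r.2]
    rw [e1]
  have Glm : ∀ i j x y, face k i x = face k j y → ∀ t, Gl i (t, x) = Gl j (t, y) :=
    fun i j x y hxy t => by
      refine Subtype.ext (ContinuousMap.ext fun r => ?_)
      show (if (1 + (t : ℝ)) * (r : ℝ) ≤ 1 then (σ (face k i x)).1 (up t r)
        else G i (lo t r, x)) = (if (1 + (t : ℝ)) * (r : ℝ) ≤ 1 then (σ (face k j y)).1 (up t r)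
        else G j (lo t r, y))
      rw [hxy, hm i j x y hxy]
  have Glev : ∀ i z, ev b (Gl i z) = G i z := fun i z => Q1 i z
  -- the top
  obtain ⟨h, hh1, hh2⟩ := ext (fun i => ⟨fun x => Gl i (1, x), by fun_prop⟩)
    (fun i x => by
      show ev b (Gl i (1, x)) ∈ A
      rw [Glev]; exact h1 i x)
    (fun i j x y hxy => Glm i j x y hxy 1)
  have hh1' : ∀ i x, h (face k i x) = Gl i (1, x) := hh1
  -- the contraction
  obtain ⟨p0, ⟨c⟩⟩ := (contractible_iff_id_nullhomotopic (PP b)).1 (PS1.P1 b)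
  have c0 : ∀ x, c (0, x) = x := fun x => c.apply_zero x
  have c1 : ∀ x, c (1, x) = p0 := fun x => c.apply_one x
  let cc (Z : Type) [TopologicalSpace Z] (f : C(Z, PP b)) : C(I × Z, PP b) :=
    ⟨fun q => c (unitInterval.symm q.1, f q.2), c.continuous.comp
      ((unitInterval.continuous_symm.comp continuous_fst).prodMk
        (f.continuous.comp continuous_snd))⟩
  have cc0 : ∀ (Z : Type) [TopologicalSpace Z] (f : C(Z, PP b)) z, cc Z f (0, z) = p0 :=
    fun Z _ f z => by
      show c (unitInterval.symm 0, f z) = p0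
      rw [unitInterval.symm_zero, c1]
  have cc1 : ∀ (Z : Type) [TopologicalSpace Z] (f : C(Z, PP b)) z, cc Z f (1, z) = f z :=
    fun Z _ f z => by
      show c (unitInterval.symm 1, f z) = f z
      rw [unitInterval.symm_one, c0]
  obtain ⟨L, l0, l1, l2, l3⟩ := hepP (ContinuousMap.const (I × Dl (k + 1)) p0)
    (cc _ σ) (cc _ h) (fun i => cc _ (Gl i))
    (fun x => cc0 _ _ _) (fun x => cc0 _ _ _) (fun i r y => cc0 _ _ _)
    (fun i u y => by
      show c (unitInterval.symm u, Gl i (0, y)) = c (unitInterval.symm u, σ (face k i y))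
      rw [Gl0])
    (fun i u y => by
      show c (unitInterval.symm u, Gl i (1, y)) = c (unitInterval.symm u, h (face k i y))
      rw [hh1'])
    (fun i j y y' hyy u r => by
      show c (unitInterval.symm u, Gl i (r, y)) = c (unitInterval.symm u, Gl j (r, y'))
      rw [Glm i j y y' hyy r])
  refine ⟨(ev b).comp ⟨fun q => L (1, q), L.continuous.comp (continuous_const.prodMk
    continuous_id)⟩, fun x => ?_, fun i t x => ?_, fun x => ?_⟩
  · show ev b (L (1, (0, x))) = s x
    rw [l1, cc1]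
    exact hσ' x
  · show ev b (L (1, (t, face k i x))) = G i (t, x)
    rw [l3, cc1, Glev]
  · show ev b (L (1, (1, x))) ∈ A
    rw [l2, cc1]
    exact hh2 x

theorem main : SpecPath := fun _ _ b =>
  ⟨PS1.P1 b, fun hB k σ => PS1.P2 hB b k σ, fun hB k τ τ' h => PS1.P3 hB b k τ τ' h,
    fun A k hA => P4 b A k hA, fun A k hB ext => P5 hB b A k ext⟩

end Vale.Agent.P246.T.PS
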