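import Vale.Agent.P246.T.PR2
import Vale.Agent.P246.T.PS

/-! # Block LL: the homology of the path fibration in low degrees -/

namespace Vale.Agent.P246.T.LL

open Topology Metric Set PR

variable {M N : Type} [TopologicalSpace M] [TopologicalSpace N]

theorem single_mem_Sk {A : Set M} {n k : ℕ} {σ : C(Dl (k + 1), M)}
    (h : ∀ x : Dl (k + 1), (Finset.univ.filter fun i => x i ≠ 0).card ≤ n → σ x ∈ A) (m : ℤ) :
    Finsupp.single σ m ∈ Sk A n k := Finsupp.single_mem_supported _ _ h

theorem Sk_ind {A : Set M} {n k : ℕ} {P : Ch k M → Prop} (h0 : P 0)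
    (ha : ∀ a b, P a → P b → P (a + b))
    (hs : ∀ (m : ℤ) (σ : C(Dl (k + 1), M)),
      (∀ x : Dl (k + 1), (Finset.univ.filter fun i => x i ≠ 0).card ≤ n → σ x ∈ A) →
      P (Finsupp.single σ m)) {c : Ch k M} (hc : c ∈ Sk A n k) : P c := by
  rw [Sk, Finsupp.mem_supported] at hc
  rw [← Finsupp.sum_single c, Finsupp.sum]
  refine Finset.sum_induction _ P ha h0 fun σ hσ => hs _ _ (hc hσ)

theorem card_face (k : ℕ) (i : Fin (k + 1)) (x : Dl k) :
    (Finset.univ.filter fun j => face k i x j ≠ 0).card =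
      (Finset.univ.filter fun j => x j ≠ 0).card := by
  rw [← Finset.card_map (Fin.succAboveEmb i)]
  congr 1
  ext j
  simp only [Finset.mem_filter, Finset.mem_univ, true_and, Finset.mem_map, Fin.coe_succAboveEmb]
  constructor
  · intro hj
    refine Fin.succAboveCases i (fun h => ?_) (fun a h => ?_) j hj
    · exact absurd (CV.face_self k i x) h
    · rw [CV.face_succAbove] at h
      exact ⟨a, h, rfl⟩
  · rintro ⟨a, ha, rfl⟩
    rw [CV.face_succAbove]
    exact ha

theorem bd_mem_Sk {A : Set M} {n k : ℕ} {c : Ch (k + 1) M} (hc : c ∈ Sk A n (k + 1)) :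
    bd k c ∈ Sk A n k := by
  refine Sk_ind (P := fun c => bd k c ∈ Sk A n k) ?_ ?_ ?_ hc
  · rw [map_zero]; exact Submodule.zero_mem _
  · intro a b ha hb; rw [map_add]; exact Submodule.add_mem _ ha hb
  · intro m σ h
    rw [bd_single]
    refine Submodule.sum_mem _ fun i _ => single_mem_Sk (fun x hx => ?_) _
    exact h _ (by rw [card_face]; exact hx)

theorem push_mem_Sk {A : Set M} {A' : Set N} {f : C(M, N)} (hf : ∀ x ∈ A, f x ∈ A') {n k : ℕ}
    {c : Ch k M} (hc : c ∈ Sk A n k) : push f k c ∈ Sk A' n k := by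
  refine Sk_ind (P := fun c => push f k c ∈ Sk A' n k) ?_ ?_ ?_ hc
  · rw [map_zero]; exact Submodule.zero_mem _
  · intro a b ha hb; rw [map_add]; exact Submodule.add_mem _ ha hb
  · intro m σ h
    rw [push_single]
    exact single_mem_Sk (fun x hx => hf _ (h x hx)) _

theorem Con_le_Sk {A : Set M} {n k : ℕ} {c : Ch k M} (hc : c ∈ Con A k) : c ∈ Sk A n k := by
  refine Con_ind (P := fun c => c ∈ Sk A n k) ?_ ?_ ?_ hc
  · exact Submodule.zero_mem _
  · intro a b ha hb; exact Submodule.add_mem _ ha hb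
  · intro m σ h
    exact single_mem_Sk (fun x _ => h x) _

variable {B : Type} [TopologicalSpace B] [SimplyConnectedSpace B] (b : B)

/-- a lift of a simplex to the path space -/
noncomputable def lft {k : ℕ} (σ : C(Dl (k + 1), B)) : C(Dl (k + 1), PP b) :=
  (PS1.P2 inferInstance b k σ).choose

theorem ev_lft {k : ℕ} (σ : C(Dl (k + 1), B)) : (ev b).comp (lft b σ) = σ :=
  (PS1.P2 inferInstance b k σ).choose_spec

/-- the lift of chains -/
noncomputable def lam (k : ℕ) : Ch k B →ₗ[ℤ] Ch k (PP b) :=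
  Finsupp.lmapDomain ℤ ℤ fun σ : C(Dl (k + 1), B) => lft b σ

theorem lam_single (k : ℕ) (σ : C(Dl (k + 1), B)) (m : ℤ) :
    lam b k (Finsupp.single σ m) = Finsupp.single (lft b σ) m := by
  simp [lam]

theorem push_lam (k : ℕ) (c : Ch k B) : push (ev b) k (lam b k c) = c := by
  induction c using Finsupp.induction_linear with
  | zero => simp only [map_zero]
  | add x y hx hy => rw [map_add, map_add, hx, hy]
  | single σ m => rw [lam_single, push_single, ev_lft]

theorem lam_mem_Sk {A : Set B} {n k : ℕ} {c : Ch k B} (hc : c ∈ Sk A n k) :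
    lam b k c ∈ Sk (ev b ⁻¹' A) n k := by
  refine Sk_ind (P := fun c => lam b k c ∈ Sk (ev b ⁻¹' A) n k) ?_ ?_ ?_ hc
  · rw [map_zero]; exact Submodule.zero_mem _
  · intro a b ha hb; rw [map_add]; exact Submodule.add_mem _ ha hb
  · intro m σ h
    rw [lam_single]
    refine single_mem_Sk (fun x hx => ?_) _
    show ((ev b).comp (lft b σ)) x ∈ A
    rw [ev_lft]
    exact h x hx

theorem lam_mem_Con {A : Set B} {k : ℕ} {c : Ch k B} (hc : c ∈ Con A k) :
    lam b k c ∈ Con (ev b ⁻¹' A) k := by
  refine Con_ind (P := fun c => lam b k c ∈ Con (ev b ⁻¹' A) k) ?_ ?_ ?_ hc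
  · rw [map_zero]; exact Submodule.zero_mem _
  · intro a b ha hb; rw [map_add]; exact Submodule.add_mem _ ha hb
  · intro m σ h
    rw [lam_single]
    refine single_mem (fun x => ?_) _
    show ((ev b).comp (lft b σ)) x ∈ A
    rw [ev_lft]
    exact h x

/-- the difference of two lifts of the same simplex with boundary over `A` -/
theorem diff (A : Set B) (n : ℕ) (τ τ' : C(Dl (n + 1), PP b))
    (h : (ev b).comp τ = (ev b).comp τ')
    (hτ : ∀ x : Dl (n + 1), (Finset.univ.filter fun i => x i ≠ 0).card ≤ n → ev b (τ x) ∈ A) :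
    Null univ (ev b ⁻¹' A) n (Finsupp.single τ' 1 - Finsupp.single τ 1) := by
  obtain ⟨K, hK0, hK1, hK⟩ := PS1.P3 inferInstance b n τ τ' h
  refine ⟨op.D (PP b) n K, Con_univ _, ?_⟩
  cases n with
  | zero =>
    rw [op.bd_zero, hK0, hK1, sub_self]
    exact Submodule.zero_mem _
  | succ n =>
    rw [op.bd_succ, hK0, hK1, sub_sub_cancel]
    refine Submodule.sum_mem _ fun i _ => Submodule.smul_mem _ _ ?_
    refine pc_mem (n + 1) (K.fc i) fun t x => ?_
    show ev b (K (t, face (n + 1) i x)) ∈ A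
    rw [hK]
    refine hτ _ ?_
    rw [card_face]
    exact (Finset.card_le_univ _).trans (by simp)

theorem main_of (hE : SpecEil) : SpecLoop := by
  intro B _ _ b A n hL hZ c _ hc
  -- first make the boundary of all simplices of `c` lie in `F`
  obtain ⟨ρ, D, h1, h2, h3, h4, h5, h6, h7⟩ := hE (PP b) (ev b ⁻¹' A) n fun k hk =>
    (PS.main B b).2.2.2.1 A k (hL k hk)
  have e1 : Null univ (ev b ⁻¹' A) n (ρ n c - c) := by
    refine ⟨D n c, Con_univ _, ?_⟩
    cases n with
    | zero => rw [h2, sub_self]; exact Submodule.zero_mem _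
    | succ n => rw [h3, sub_sub_cancel]; exact h5 n _ hc
  rw [← null_iff e1]
  -- the homology of the pair downstairs
  obtain ⟨ρ', D', g1, g2, g3, g4, g5, g6, g7⟩ := hE B A n hL
  have hs : ρ n c ∈ Sk (ev b ⁻¹' A) n n := h6 n c
  generalize ρ n c = y at hs
  have hs' : push (ev b) n y ∈ Sk A n n := push_mem_Sk (fun x hx => hx) hs
  have hr : RCyc A n (push (ev b) n y) := by
    cases n with
    | zero => trivial
    | succ n =>
      change bd n (push (ev b) (n + 1) y) ∈ Con A n
      refine Sk_ind (P := fun c => bd n c ∈ Con A n) ?_ ?_ ?_ hs'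
      · rw [map_zero]; exact Submodule.zero_mem _
      · intro a b ha hb; rw [map_add]; exact Submodule.add_mem _ ha hb
      · intro m σ h
        rw [bd_single]
        refine Submodule.sum_mem _ fun i _ => single_mem (fun x => ?_) _
        refine h _ ?_
        rw [card_face]
        exact (Finset.card_le_univ _).trans (by simp)
  obtain ⟨z, -, hz⟩ := hZ _ (Con_univ _) hr
  have ha := g4 n _ hz
  rw [map_sub, g7 n _ hs', ← g1] at ha
  -- lift
  have hy : y = bd n (lam b (n + 1) (ρ' (n + 1) z)) +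
      lam b n (push (ev b) n y - bd n (ρ' (n + 1) z)) +
      (y - bd n (lam b (n + 1) (ρ' (n + 1) z)) -
        lam b n (push (ev b) n y - bd n (ρ' (n + 1) z))) := by abel
  rw [hy]
  refine null_add (null_add (null_bd (Con_univ _)) (null_of_con (lam_mem_Con b ha))) ?_
  have hw1 : (y - bd n (lam b (n + 1) (ρ' (n + 1) z)) -
        lam b n (push (ev b) n y - bd n (ρ' (n + 1) z))) ∈ Sk (ev b ⁻¹' A) n n :=
    Submodule.sub_mem _ (Submodule.sub_mem _ hs (bd_mem_Sk (lam_mem_Sk b (g6 _ _))))
      (Con_le_Sk (lam_mem_Con b ha))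
  have hw2 : push (ev b) n (y - bd n (lam b (n + 1) (ρ' (n + 1) z)) -
        lam b n (push (ev b) n y - bd n (ρ' (n + 1) z))) = 0 := by
    rw [map_sub, map_sub, ← push_bd, push_lam, push_lam, sub_self]
  generalize (y - bd n (lam b (n + 1) (ρ' (n + 1) z)) -
        lam b n (push (ev b) n y - bd n (ρ' (n + 1) z))) = w at hw1 hw2
  -- chains in the kernel
  have key : ∀ w ∈ Sk (ev b ⁻¹' A) n n,
      Null univ (ev b ⁻¹' A) n (w - lam b n (push (ev b) n w)) := by
    intro w hw
    refine Sk_ind (P := fun w => Null univ (ev b ⁻¹' A) n (w - lam b n (push (ev b) n w)))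
      ?_ ?_ ?_ hw
    · rw [map_zero, map_zero, sub_zero]; exact null_zero
    · intro a b ha hb
      rw [map_add, map_add, add_sub_add_comm]
      exact null_add ha hb
    · intro m σ h
      rw [push_single, lam_single]
      have := null_smul m (diff b A n (lft b ((ev b).comp σ)) σ (ev_lft b _) (fun x hx => by
        show ((ev b).comp (lft b ((ev b).comp σ))) x ∈ A
        rw [ev_lft]
        exact h x hx))
      rw [smul_sub, Finsupp.smul_single, Finsupp.smul_single, smul_eq_mul, mul_one] at this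
      exact this
  have := key w hw1
  rwa [hw2, map_zero, sub_zero] at this

end Vale.Agent.P246.T.LL
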