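import Vale.Agent.P246.T.CV

/-! # P246, topological version: homotopy extension for simplices, systems of homotopies
(adapted from P223/MT) -/

namespace Vale.Agent.P246.T.Sys

open Topology Metric Set CV
open scoped unitInterval

theorem face_inj (k : ℕ) (i : Fin (k + 1)) : Function.Injective (face k i) := fun s t h => by
  refine Subtype.ext (funext fun j => ?_)
  have h1 := face_succAbove k i s j
  rw [h, face_succAbove] at h1
  exact h1.symm

/-- forget a zero coordinate -/
def drop {k : ℕ} (i : Fin (k + 1)) (x : Dl (k + 1)) (h : x i = 0) : Dl k :=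
  ⟨fun j => x (i.succAbove j), fun j => x.2.1 _, by
    have h1 : ∑ m, x m = 1 := x.2.2
    rw [Fin.sum_univ_succAbove _ i, h, zero_add] at h1
    exact h1⟩

theorem drop_apply {k : ℕ} (i : Fin (k + 1)) (x : Dl (k + 1)) (h : x i = 0) (j : Fin k) :
    drop i x h j = x (i.succAbove j) := rfl

theorem face_drop {k : ℕ} (i : Fin (k + 1)) (x : Dl (k + 1)) (h : x i = 0) :
    face k i (drop i x h) = x := by
  refine Subtype.ext (funext fun m => ?_)
  show face k i (drop i x h) m = x m
  induction m using Fin.succAboveCases i with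
  | x => rw [face_self, h]
  | p j => rw [face_succAbove, drop_apply]

theorem drop_face {k : ℕ} (i : Fin (k + 1)) (s : Dl k) :
    drop i (face k i s) (face_self k i s) = s := face_inj k i (face_drop i _ _)

/-- the smallest coordinate -/
noncomputable def mn {k : ℕ} (x : Dl (k + 1)) : ℝ :=
  Finset.univ.inf' Finset.univ_nonempty fun i => x i

theorem continuous_coord {k : ℕ} (i : Fin k) : Continuous fun x : Dl k => x i :=
  (continuous_apply i).comp continuous_subtype_val

theorem continuous_mn (k : ℕ) : Continuous (mn : Dl (k + 1) → ℝ) :=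
  Continuous.finset_inf'_apply _ fun i _ => continuous_coord i

theorem mn_le {k : ℕ} (x : Dl (k + 1)) (i : Fin (k + 1)) : mn x ≤ x i :=
  Finset.inf'_le _ (Finset.mem_univ i)

theorem mn_nonneg {k : ℕ} (x : Dl (k + 1)) : 0 ≤ mn x :=
  Finset.le_inf' _ _ fun i _ => x.2.1 i

theorem exists_mn {k : ℕ} (x : Dl (k + 1)) : ∃ i, mn x = x i := by
  obtain ⟨i, _, hi⟩ := Finset.exists_mem_eq_inf' Finset.univ_nonempty (fun i => x i)
  exact ⟨i, hi⟩

/-- the scaling factor -/
noncomputable def mu {k : ℕ} (p : I × Dl (k + 1)) : ℝ :=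
  max (1 - (p.1 : ℝ) / 2) (1 - (k + 1) * mn p.2)

theorem continuous_mu (k : ℕ) : Continuous (mu : I × Dl (k + 1) → ℝ) := by
  unfold mu
  exact ((continuous_const.sub ((continuous_subtype_val.comp continuous_fst).div_const _)).max
    (continuous_const.sub (continuous_const.mul ((continuous_mn k).comp continuous_snd))))

theorem half_le_mu {k : ℕ} (p : I × Dl (k + 1)) : 1 / 2 ≤ mu p := by
  refine le_trans ?_ (le_max_left _ _)
  linarith [p.1.2.2]

theorem mu_pos {k : ℕ} (p : I × Dl (k + 1)) : 0 < mu p :=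
  lt_of_lt_of_le (by norm_num) (half_le_mu p)

theorem mu_le {k : ℕ} (p : I × Dl (k + 1)) : mu p ≤ 1 := by
  refine max_le ?_ ?_
  · linarith [p.1.2.1]
  · have := mn_nonneg p.2
    have : 0 ≤ ((k : ℝ) + 1) * mn p.2 := by positivity
    linarith

/-- the retraction of `I × Δ` onto `0 × Δ ∪ I × ∂Δ` -/
noncomputable def ret {k : ℕ} (p : I × Dl (k + 1)) : I × Dl (k + 1) :=
  (⟨2 - (2 - (p.1 : ℝ)) / mu p, by
    have h1 := mu_pos p
    have h2 : 1 - (p.1 : ℝ) / 2 ≤ mu p := le_max_left _ _
    constructor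
    · rw [sub_nonneg, div_le_iff₀ h1]; linarith
    · have : 1 ≤ (2 - (p.1 : ℝ)) / mu p := by
        rw [le_div_iff₀ h1]; linarith [mu_le p, p.1.2.2]
      linarith⟩,
   ⟨fun i => 1 / (k + 1 : ℝ) + (p.2 i - 1 / (k + 1 : ℝ)) / mu p, by
    intro i
    have h1 := mu_pos p
    have hk : (0 : ℝ) < k + 1 := by positivity
    have h2 : 1 - ((k : ℝ) + 1) * mn p.2 ≤ mu p := le_max_right _ _
    have h3 := mn_le p.2 i
    have h4 : 1 - ((k : ℝ) + 1) * p.2 i ≤ mu p :=
      le_trans (by nlinarith) h2
    have h5 : -(1 / (k + 1 : ℝ)) ≤ (p.2 i - 1 / (k + 1 : ℝ)) / mu p := by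
      rw [le_div_iff₀ h1]
      have : (k + 1 : ℝ) * (-(1 / (k + 1 : ℝ)) * mu p) ≤
          (k + 1 : ℝ) * (p.2 i - 1 / (k + 1 : ℝ)) := by
        field_simp
        linarith
      exact le_of_mul_le_mul_left this hk
    show (0 : ℝ) ≤ 1 / (k + 1 : ℝ) + (p.2 i - 1 / (k + 1 : ℝ)) / mu p
    linarith, by
    have h1 : ∑ m, p.2 m = 1 := p.2.2.2
    have hk : (k + 1 : ℝ) ≠ 0 := by positivity
    have h2 : ∑ _m : Fin (k + 1), (1 / (k + 1 : ℝ)) = 1 := by
      rw [Finset.sum_const, Finset.card_univ, Fintype.card_fin, nsmul_eq_mul]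
      push_cast
      field_simp
    have h3 : ∑ m, (p.2 m - 1 / (k + 1 : ℝ)) / mu p = 0 := by
      rw [← Finset.sum_div, Finset.sum_sub_distrib, h1, h2, sub_self, zero_div]
    rw [Finset.sum_add_distrib, h2, h3, add_zero]⟩)

theorem ret_fst {k : ℕ} (p : I × Dl (k + 1)) :
    (((ret p).1 : I) : ℝ) = 2 - (2 - (p.1 : ℝ)) / mu p := rfl

theorem ret_snd {k : ℕ} (p : I × Dl (k + 1)) (i : Fin (k + 1)) :
    (ret p).2 i = 1 / (k + 1 : ℝ) + (p.2 i - 1 / (k + 1 : ℝ)) / mu p := rfl

theorem continuous_ret (k : ℕ) : Continuous (ret : I × Dl (k + 1) → I × Dl (k + 1)) := by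
  refine Continuous.prodMk ?_ ?_
  · refine Continuous.subtype_mk ?_ _
    exact continuous_const.sub ((continuous_const.sub
      (continuous_subtype_val.comp continuous_fst)).div (continuous_mu k) fun p => (mu_pos p).ne')
  · refine Continuous.subtype_mk (continuous_pi fun i => ?_) _
    exact continuous_const.add ((((continuous_coord i).comp continuous_snd).sub
      continuous_const).div (continuous_mu k) fun p => (mu_pos p).ne')

theorem ret_mem {k : ℕ} (p : I × Dl (k + 1)) : (ret p).1 = 0 ∨ ∃ i, (ret p).2 i = 0 := by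
  have h1 := mu_pos p
  rcases max_choice (1 - (p.1 : ℝ) / 2) (1 - (k + 1) * mn p.2) with h | h
  · left
    refine Subtype.ext ?_
    rw [ret_fst]
    have : mu p = 1 - (p.1 : ℝ) / 2 := h
    rw [this] at h1 ⊢
    have : (1 - (p.1 : ℝ) / 2) ≠ 0 := h1.ne'
    have h5 : (2 - (p.1 : ℝ)) / (1 - (p.1 : ℝ) / 2) = 2 := by
      rw [div_eq_iff this]; ring
    show 2 - (2 - (p.1 : ℝ)) / (1 - (p.1 : ℝ) / 2) = 0
    rw [h5, sub_self]
  · right
    obtain ⟨i, hi⟩ := exists_mn p.2
    refine ⟨i, ?_⟩
    rw [ret_snd]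
    have h2 : mu p = 1 - (k + 1) * p.2 i := by rw [← hi]; exact h
    have h3 : p.2 i - 1 / (k + 1 : ℝ) = -(1 / (k + 1 : ℝ)) * mu p := by
      rw [h2]
      have hk : (k + 1 : ℝ) ≠ 0 := by positivity
      field_simp
      ring
    rw [h3, mul_div_assoc, div_self h1.ne']
    ring

theorem ret_of_zero {k : ℕ} (x : Dl (k + 1)) : ret ((0 : I), x) = (0, x) := by
  have h : mu ((0 : I), x) = 1 := by
    refine le_antisymm (mu_le _) ?_
    refine le_trans ?_ (le_max_left _ _)
    simp
  refine Prod.ext (Subtype.ext ?_) (Subtype.ext (funext fun i => ?_))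
  · rw [ret_fst, h]; simp
  · show (ret ((0 : I), x)).2 i = x i
    rw [ret_snd, h]; simp

theorem ret_of_face {k : ℕ} (t : I) (x : Dl (k + 1)) (i : Fin (k + 1)) (hi : x i = 0) :
    ret (t, x) = (t, x) := by
  have h : mu (t, x) = 1 := by
    refine le_antisymm (mu_le _) ?_
    refine le_trans ?_ (le_max_right _ _)
    have h1 : mn x ≤ 0 := hi ▸ mn_le x i
    have h2 : ((k : ℝ) + 1) * mn x ≤ 0 := mul_nonpos_of_nonneg_of_nonpos (by positivity) h1
    show (1 : ℝ) ≤ 1 - (k + 1) * mn x
    linarith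
  refine Prod.ext (Subtype.ext ?_) (Subtype.ext (funext fun i => ?_))
  · rw [ret_fst, h]; simp
  · show (ret (t, x)).2 i = x i
    rw [ret_snd, h]; simp

variable {X : Type*} [TopologicalSpace X]

/-- Homotopy extension with prescribed homotopies on all faces. -/
theorem hep {k : ℕ} (s : C(Dl (k + 1), X)) (G : Fin (k + 1) → C(I × Dl k, X))
    (h0 : ∀ i y, G i (0, y) = s (face k i y))
    (hm : ∀ i j y y', face k i y = face k j y' → ∀ t, G i (t, y) = G j (t, y')) :
    ∃ K : C(I × Dl (k + 1), X), (∀ x, K (0, x) = s x) ∧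
      ∀ i t y, K (t, face k i y) = G i (t, y) := by
  classical
  -- the map on `0 × Δ ∪ I × ∂Δ`
  let u : I × Dl (k + 1) → X := fun q =>
    if h : ∃ i, q.2 i = 0 then G h.choose (q.1, drop h.choose q.2 h.choose_spec) else s q.2
  have hu : ∀ (q : I × Dl (k + 1)) (i : Fin (k + 1)) (hi : q.2 i = 0),
      u q = G i (q.1, drop i q.2 hi) := fun q i hi => by
    have h : ∃ i, q.2 i = 0 := ⟨i, hi⟩
    show dite _ _ _ = _
    rw [dif_pos h]
    exact hm _ _ _ _ (by rw [face_drop, face_drop]) _
  have hu0 : ∀ q : I × Dl (k + 1), q.1 = 0 → u q = s q.2 := fun q hq => by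
    by_cases h : ∃ i, q.2 i = 0
    · obtain ⟨i, hi⟩ := h
      rw [hu q i hi, hq, h0, face_drop]
    · show dite _ _ _ = _
      rw [dif_neg h]
  let C : Option (Fin (k + 1)) → Set (I × Dl (k + 1)) := fun o =>
    match o with
    | none => {p | (ret p).1 = 0}
    | some i => {p | (ret p).2 i = 0}
  have hcont : Continuous fun p => u (ret p) := by
    refine LocallyFinite.continuous (f := C) (locallyFinite_of_finite _) ?_ ?_ ?_
    · refine Set.eq_univ_of_forall fun p => Set.mem_iUnion.2 ?_
      rcases ret_mem p with h | ⟨i, h⟩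
      · exact ⟨none, h⟩
      · exact ⟨some i, h⟩
    · intro o
      match o with
      | none => exact isClosed_eq (continuous_fst.comp (continuous_ret k)) continuous_const
      | some i => exact isClosed_eq ((continuous_coord i).comp
          (continuous_snd.comp (continuous_ret k))) continuous_const
    · intro o
      match o with
      | none =>
        refine ContinuousOn.congr (f := fun p => s (ret p).2) ?_ fun p hp => hu0 _ hp
        exact (s.continuous.comp (continuous_snd.comp (continuous_ret k))).continuousOn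
      | some i =>
        rw [continuousOn_iff_continuous_domRestrict]
        have : (C (some i)).domRestrict (fun p => u (ret p)) = fun p : C (some i) =>
            G i ((ret p.1).1, drop i (ret p.1).2 p.2) := funext fun p => hu _ i p.2
        rw [this]
        refine (G i).continuous.comp (Continuous.prodMk
          (continuous_fst.comp ((continuous_ret k).comp continuous_subtype_val)) ?_)
        refine Continuous.subtype_mk (continuous_pi fun j => ?_) _
        exact (continuous_coord _).comp (continuous_snd.comp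
          ((continuous_ret k).comp continuous_subtype_val))
  refine ⟨⟨fun p => u (ret p), hcont⟩, fun x => ?_, fun i t y => ?_⟩
  · show u (ret (0, x)) = s x
    rw [ret_of_zero, hu0 _ rfl]
  · show u (ret (t, face k i y)) = G i (t, y)
    rw [ret_of_face t _ i (face_self k i y), hu _ i (face_self k i y), drop_face]


theorem succAbove_comm {k : ℕ} (i j : Fin (k + 1)) (h : i ≤ j) (m : Fin k) :
    j.succ.succAbove (i.succAbove m) = i.castSucc.succAbove (j.succAbove m) := by
  rcases i with ⟨i, _⟩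
  rcases j with ⟨j, _⟩
  rcases m with ⟨m, _⟩
  dsimp [Fin.succAbove]
  split_ifs <;> · simp at * <;> lia

theorem face_comp {k : ℕ} (i j : Fin (k + 1)) (h : i ≤ j) :
    (face (k + 1) j.succ).comp (face k i) =
      (face (k + 1) i.castSucc).comp (face k j) := by
  refine ContinuousMap.ext fun z => ?_
  show stdSimplex.map _ (stdSimplex.map _ z) = stdSimplex.map _ (stdSimplex.map _ z)
  rw [stdSimplex.map_comp_apply, stdSimplex.map_comp_apply]
  congr 1
  exact funext fun m => succAbove_comm i j h m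

theorem face_face {k : ℕ} (i j : Fin (k + 1)) (h : i ≤ j) (z : Dl k) :
    face (k + 1) j.succ (face k i z) = face (k + 1) i.castSucc (face k j z) :=
  DFunLike.congr_fun (face_comp i j h) z

instance : IsEmpty (Dl 0) := ⟨fun x => by
  have h : ∑ i, x i = 1 := x.2.2
  simp at h⟩

/-- where two different faces meet -/
theorem match_face {k : ℕ} (i j : Fin (k + 2)) (hij : i < j) (y y' : Dl (k + 1))
    (h : face (k + 1) i y = face (k + 1) j y') :
    ∃ (i' j' : Fin (k + 1)) (z : Dl k), i' ≤ j' ∧ i = i'.castSucc ∧ j = j'.succ ∧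
      y = face k j' z ∧ y' = face k i' z := by
  obtain ⟨i', rfl⟩ : ∃ i' : Fin (k + 1), i = i'.castSucc :=
    ⟨i.castPred (Fin.ne_last_of_lt hij), (Fin.castSucc_castPred _ _).symm⟩
  obtain ⟨j', rfl⟩ : ∃ j' : Fin (k + 1), j = j'.succ :=
    ⟨j.pred (Fin.ne_zero_of_lt hij), (Fin.succ_pred _ _).symm⟩
  have hle : i' ≤ j' := by
    rw [Fin.le_def]
    have := Fin.lt_def.1 hij
    simp only [Fin.val_castSucc, Fin.val_succ] at this
    omega
  have h1 : y j' = 0 := by
    have e : i'.castSucc.succAbove j' = j'.succ := Fin.succAbove_castSucc_of_le _ _ hle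
    rw [← face_succAbove (k + 1) i'.castSucc y j', e, h, face_self]
  have h2 : y' i' = 0 := by
    have e : j'.succ.succAbove i' = i'.castSucc := Fin.succAbove_succ_of_le _ _ hle
    rw [← face_succAbove (k + 1) j'.succ y' i', e, ← h, face_self]
  have e1 := face_drop j' y h1
  have e2 := face_drop i' y' h2
  refine ⟨i', j', drop j' y h1, hle, rfl, rfl, e1.symm, ?_⟩
  rw [← e2, ← e1, face_face i' j' hle] at h
  have h3 := face_inj _ _ (face_inj _ _ h)
  rw [h3, e2]

/-- a family of functions on the faces which is compatible on the faces of faces is matching -/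
theorem matching {k : ℕ} {T : Type*} (G : Fin (k + 2) → Dl (k + 1) → T)
    (h : ∀ i j : Fin (k + 1), i ≤ j → ∀ z, G i.castSucc (face k j z) = G j.succ (face k i z))
    (i j : Fin (k + 2)) (y y' : Dl (k + 1)) (hy : face (k + 1) i y = face (k + 1) j y') :
    G i y = G j y' := by
  rcases lt_trichotomy i j with hij | hij | hij
  · obtain ⟨i', j', z, hle, rfl, rfl, rfl, rfl⟩ := match_face i j hij y y' hy
    exact h i' j' hle z
  · subst hij
    rw [face_inj _ _ hy]
  · obtain ⟨i', j', z, hle, rfl, rfl, rfl, rfl⟩ := match_face j i hij y' y hy.symm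
    exact (h i' j' hle z).symm

/-- Compatible systems of homotopies. -/
theorem exists_system
    (P : ∀ k : ℕ, C(Dl (k + 1), X) → C(I × Dl (k + 1), X) → Prop)
    (base : ∀ s : C(Dl 1, X), ∃ K : C(I × Dl 1, X), (∀ x, K (0, x) = s x) ∧ P 0 s K)
    (step : ∀ (k : ℕ) (s : C(Dl (k + 2), X)) (G : Fin (k + 2) → C(I × Dl (k + 1), X)),
      (∀ i y, G i (0, y) = s (face (k + 1) i y)) →
      (∀ i j y y', face (k + 1) i y = face (k + 1) j y' → ∀ t, G i (t, y) = G j (t, y')) →
      (∀ i, P k (s.comp (face (k + 1) i)) (G i)) →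
      ∃ K : C(I × Dl (k + 2), X), (∀ x, K (0, x) = s x) ∧
        (∀ i t y, K (t, face (k + 1) i y) = G i (t, y)) ∧ P (k + 1) s K) :
    ∃ K : ∀ k : ℕ, C(Dl (k + 1), X) → C(I × Dl (k + 1), X),
      (∀ k s x, K k s (0, x) = s x) ∧
      (∀ k s i t y, K (k + 1) s (t, face (k + 1) i y) =
        K k (s.comp (face (k + 1) i)) (t, y)) ∧
      ∀ k s, P k s (K k s) := by
  classical
  let State : ℕ → Type _ := fun k => {K : C(Dl (k + 1), X) → C(I × Dl (k + 1), X) //
    (∀ s x, K s (0, x) = s x) ∧
    (∀ (s : C(Dl (k + 2), X)) (i j : Fin (k + 2)) (y y' : Dl (k + 1)),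
      face (k + 1) i y = face (k + 1) j y' →
      ∀ t, K (s.comp (face (k + 1) i)) (t, y) = K (s.comp (face (k + 1) j)) (t, y')) ∧
    ∀ s, P k s (K s)}
  have b : State 0 := by
    choose K hK hP using base
    refine ⟨K, hK, fun s i j y y' h t => ?_, hP⟩
    refine matching (T := X) (fun i y => K (s.comp (face (0 + 1) i)) (t, y)) ?_ i j y y' h
    intro i j _ z
    exact isEmptyElim z
  have nx : ∀ (k : ℕ) (A : State k), ∃ B : State (k + 1), ∀ s i t y,
      B.1 s (t, face (k + 1) i y) = A.1 (s.comp (face (k + 1) i)) (t, y) := by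
    rintro k ⟨A, hA0, hAm, hAP⟩
    choose K hK0 hKf hKP using fun s : C(Dl (k + 2), X) =>
      step k s (fun i => A (s.comp (face (k + 1) i))) (fun i y => hA0 _ _)
        (fun i j y y' h t => hAm s i j y y' h t) (fun i => hAP _)
    refine ⟨⟨K, hK0, fun s i j y y' h t => ?_, hKP⟩, fun s i t y => hKf s i t y⟩
    refine matching (T := X) (fun i y => K (s.comp (face (k + 2) i)) (t, y)) ?_ i j y y' h
    intro i j hij z
    show K (s.comp (face (k + 2) i.castSucc)) (t, face (k + 1) j z) =
      K (s.comp (face (k + 2) j.succ)) (t, face (k + 1) i z)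
    rw [hKf, hKf, ContinuousMap.comp_assoc, ContinuousMap.comp_assoc]
    rw [face_comp i j hij]
  choose N hN using nx
  let st : ∀ k, State k := fun k => Nat.rec b (fun k A => N k A) k
  refine ⟨fun k => (st k).1, fun k => (st k).2.1, fun k s i t y => ?_, fun k => (st k).2.2.2⟩
  exact hN k (st k) s i t y


end Vale.Agent.P246.T.Sys
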