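import Vale.Agent.P246.T.PR2
import Vale.Agent.P246.T.Sys
import Vale.Agent.P246.T.LL

/-! # Block HC: the Eilenberg subcomplex -/

namespace Vale.Agent.P246.T.HC

open Topology Metric Set PR

variable {B : Type} [TopologicalSpace B]

/-- the faces with at most `n` vertices lie in `A` -/
def Gd (A : Set B) (n k : ℕ) (s : C(Dl (k + 1), B)) : Prop :=
  ∀ x : Dl (k + 1), (Finset.univ.filter fun i => x i ≠ 0).card ≤ n → s x ∈ A

theorem Gd.face {A : Set B} {n k : ℕ} {s : C(Dl (k + 2), B)} (h : Gd A n (k + 1) s)
    (i : Fin (k + 2)) : Gd A n k (s.comp (face (k + 1) i)) := fun x hx =>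
  h _ (by rw [LL.card_face]; exact hx)

theorem card_le {k : ℕ} (x : Dl k) : (Finset.univ.filter fun i => x i ≠ 0).card ≤ k :=
  (Finset.card_le_univ _).trans (by simp)

/-- the property of the homotopies -/
def PK (A : Set B) (n k : ℕ) (s : C(Dl (k + 1), B)) (K : C(I × Dl (k + 1), B)) : Prop :=
  (Gd A n k s → ∀ t x, K (t, x) = s x) ∧
    ∀ x : Dl (k + 1), (Finset.univ.filter fun i => x i ≠ 0).card ≤ n → K (1, x) ∈ A

theorem system (A : Set B) (n : ℕ) (hL : ∀ k < n, LftS A k) :
    ∃ K : ∀ k : ℕ, C(Dl (k + 1), B) → C(I × Dl (k + 1), B),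
      (∀ k s x, K k s (0, x) = s x) ∧
      (∀ k s i t y, K (k + 1) s (t, face (k + 1) i y) =
        K k (s.comp (face (k + 1) i)) (t, y)) ∧
      ∀ k s, PK A n k s (K k s) := by
  classical
  have cst : ∀ (k : ℕ) (s : C(Dl (k + 1), B)), Gd A n k s →
      PK A n k s ⟨fun q => s q.2, by fun_prop⟩ := fun k s h => ⟨fun _ _ _ => rfl, h⟩
  refine Sys.exists_system (PK A n) (fun s => ?_) (fun k s G h0 hm hP => ?_)
  · by_cases h : Gd A n 0 s
    · exact ⟨⟨fun q => s q.2, by fun_prop⟩, fun _ => rfl, cst 0 s h⟩
    · have hn : 0 < n := by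
        by_contra hn
        refine h fun x hx => ?_
        exfalso
        have h1 : (Finset.univ.filter fun i => x i ≠ 0).card = 0 := by omega
        rw [Finset.card_eq_zero, Finset.filter_eq_empty_iff] at h1
        have h2 : ∑ i, x i = 1 := x.2.2
        rw [Finset.sum_eq_zero fun i hi => not_not.1 (h1 hi)] at h2
        exact zero_ne_one h2
      have hem : IsEmpty (Dl 0) := ⟨fun x => by
        have h2 : ∑ i, x i = 1 := x.2.2
        simp at h2⟩
      obtain ⟨K, hK0, -, hK1⟩ := hL 0 hn s
        (fun _ => ⟨fun q => (hem.false q.2).elim, by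
          have : IsEmpty (I × Dl 0) := ⟨fun q => hem.false q.2⟩
          exact continuous_of_const fun q => (hem.false q.2).elim⟩)
        (fun _ x => (hem.false x).elim) (fun _ _ x => (hem.false x).elim)
        (fun _ x => (hem.false x).elim)
      exact ⟨K, hK0, fun hg => absurd hg h, fun x _ => hK1 x⟩
  · by_cases h : Gd A n (k + 1) s
    · refine ⟨⟨fun q => s q.2, by fun_prop⟩, fun _ => rfl, fun i t y => ?_, cst (k + 1) s h⟩
      exact ((hP i).1 (h.face i) t y).symm
    · by_cases hk : k + 1 < n
      · obtain ⟨K, hK0, hKf, hK1⟩ := hL (k + 1) hk s G h0 (fun i j x y hxy t => hm i j x y hxy t)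
          (fun i x => (hP i).2 x ((card_le x).trans hk.le))
        exact ⟨K, hK0, hKf, fun hg => absurd hg h, fun x _ => hK1 x⟩
      · obtain ⟨K, hK0, hKf⟩ := Sys.hep s G h0 hm
        refine ⟨K, hK0, hKf, fun hg => absurd hg h, fun x hx => ?_⟩
        obtain ⟨i, hi⟩ : ∃ i, x i = 0 := by
          by_contra hc
          push Not at hc
          have : (Finset.univ.filter fun i => x i ≠ 0) = Finset.univ :=
            Finset.filter_true_of_mem fun i _ => hc i
          rw [this, Finset.card_univ, Fintype.card_fin] at hx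
          omega
        obtain ⟨y, rfl⟩ := CV.exists_face i hi
        rw [hKf]
        exact (hP i).2 y (by rw [LL.card_face] at hx; exact hx)

/-- BLOCK HC -/
theorem main : SpecEil := by
  intro B _ A n hL
  obtain ⟨K, hK0, hKf, hKP⟩ := system A n hL
  let ρ : ∀ k, Ch k B →ₗ[ℤ] Ch k B := fun k =>
    Finsupp.lmapDomain ℤ ℤ fun σ : C(Dl (k + 1), B) => Hm.at (K k σ) 1
  let D : ∀ k, Ch k B →ₗ[ℤ] Ch (k + 1) B := fun k =>
    Finsupp.linearCombination ℤ fun σ : C(Dl (k + 1), B) => op.D B k (K k σ)
  have hρ : ∀ k σ (m : ℤ), ρ k (Finsupp.single σ m) = Finsupp.single (Hm.at (K k σ) 1) m := by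
    intro k σ m
    simp [ρ]
  have hD : ∀ k σ (m : ℤ), D k (Finsupp.single σ m) = m • op.D B k (K k σ) := by
    intro k σ m
    simp [D]
  have hat : ∀ k (σ : C(Dl (k + 2), B)) i t, (Hm.at (K (k + 1) σ) t).comp (face (k + 1) i) =
      Hm.at (K k (σ.comp (face (k + 1) i))) t := fun k σ i t =>
    ContinuousMap.ext fun y => hKf k σ i t y
  have hfc : ∀ k (σ : C(Dl (k + 2), B)) i, Hm.fc (K (k + 1) σ) i =
      K k (σ.comp (face (k + 1) i)) := fun k σ i =>
    ContinuousMap.ext fun q => hKf k σ i q.1 q.2
  have hz : ∀ k σ, Hm.at (K k σ) 0 = σ := fun k σ => ContinuousMap.ext fun x => hK0 k σ x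
  refine ⟨ρ, D, fun k c => ?_, fun c => ?_, fun k c => ?_, fun k c hc => ?_, fun k c hc => ?_,
    fun k c => ?_, fun k c hc => ?_⟩
  · induction c using Finsupp.induction_linear with
    | zero => simp only [map_zero]
    | add a b ha hb => simp only [map_add, ha, hb]
    | single σ m =>
      rw [hρ, bd_single, bd_single, map_sum]
      exact Finset.sum_congr rfl fun i _ => by rw [hρ, hat]
  · induction c using Finsupp.induction_linear with
    | zero => simp only [map_zero, sub_zero]
    | add a b ha hb => simp only [map_add, ha, hb]; abel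
    | single σ m =>
      rw [hρ, hD, map_smul, op.bd_zero, hz, smul_sub, Finsupp.smul_single, Finsupp.smul_single,
        smul_eq_mul, mul_one]
  · induction c using Finsupp.induction_linear with
    | zero => simp only [map_zero, sub_zero]
    | add a b ha hb => simp only [map_add, ha, hb]; abel
    | single σ m =>
      rw [hρ, hD, map_smul, op.bd_succ, hz, smul_sub, smul_sub, Finsupp.smul_single,
        Finsupp.smul_single, smul_eq_mul, mul_one, bd_single, map_sum, Finset.smul_sum]
      congr 1
      refine Finset.sum_congr rfl fun i _ => ?_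
      rw [hD, hfc, smul_smul]
  · refine Con_ind (P := fun c => ρ k c ∈ Con A k) ?_ ?_ ?_ hc
    · rw [map_zero]; exact Submodule.zero_mem _
    · intro a b ha hb; rw [map_add]; exact Submodule.add_mem _ ha hb
    · intro m σ h
      rw [hρ]
      refine single_mem (fun x => ?_) _
      show K k σ (1, x) ∈ A
      rw [(hKP k σ).1 (fun x _ => h x)]
      exact h x
  · refine Con_ind (P := fun c => D k c ∈ Con A (k + 1)) ?_ ?_ ?_ hc
    · rw [map_zero]; exact Submodule.zero_mem _
    · intro a b ha hb; rw [map_add]; exact Submodule.add_mem _ ha hb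
    · intro m σ h
      rw [hD]
      refine Submodule.smul_mem _ _ (pc_mem (k + 1) _ fun t x => ?_)
      rw [(hKP k σ).1 (fun x _ => h x)]
      exact h x
  · induction c using Finsupp.induction_linear with
    | zero => rw [map_zero]; exact Submodule.zero_mem _
    | add a b ha hb => rw [map_add]; exact Submodule.add_mem _ ha hb
    | single σ m =>
      rw [hρ]
      exact LL.single_mem_Sk (fun x hx => (hKP k σ).2 x hx) _
  · refine LL.Sk_ind (P := fun c => ρ k c = c) ?_ ?_ ?_ hc
    · exact map_zero _
    · intro a b ha hb; rw [map_add, ha, hb]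
    · intro m σ h
      rw [hρ]
      congr 1
      exact ContinuousMap.ext fun x => (hKP k σ).1 h 1 x

end Vale.Agent.P246.T.HC
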