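import Vale.Agent.P246.T.Spec2

/-! # P246-T, block MS: one more cell -/

namespace Vale.Agent.P246.T.MS

section

variable {R : Type} [Ring R] {S : ℕ → Type} [∀ n, AddCommGroup (S n)] [∀ n, Module R (S n)]
  {d : ∀ n, S (n + 1) →ₗ[R] S n}

theorem cyc_rel (A : ∀ n, Submodule R (S n)) : ∀ (n : ℕ) (x : S n), DCyc S d n x →
    DRel S d A n x
  | 0, _, _ => trivial
  | n + 1, x, h => by
    have h' : d n x = 0 := h
    have : d n x ∈ A n := by rw [h']; exact zero_mem _
    exact this

theorem rel_mono {A B : ∀ n, Submodule R (S n)} (hAB : ∀ n, A n ≤ B n) :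
    ∀ (n : ℕ) (x : S n), DRel S d A n x → DRel S d B n x
  | 0, _, _ => trivial
  | n + 1, _, h => hAB n h

theorem cyc_zero : ∀ n : ℕ, DCyc S d n (0 : S n)
  | 0 => trivial
  | n + 1 => map_zero (d n)

theorem cyc_add : ∀ (n : ℕ) (x y : S n), DCyc S d n x → DCyc S d n y → DCyc S d n (x + y)
  | 0, _, _, _, _ => trivial
  | n + 1, x, y, hx, hy => by
    have hx' : d n x = 0 := hx
    have hy' : d n y = 0 := hy
    have : d n (x + y) = 0 := by rw [map_add, hx', hy', add_zero]
    exact this

theorem cyc_sub : ∀ (n : ℕ) (x y : S n), DCyc S d n x → DCyc S d n y → DCyc S d n (x - y)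
  | 0, _, _, _, _ => trivial
  | n + 1, x, y, hx, hy => by
    have hx' : d n x = 0 := hx
    have hy' : d n y = 0 := hy
    have : d n (x - y) = 0 := by rw [map_sub, hx', hy', sub_zero]
    exact this

theorem cyc_d (hd : ∀ n x, d n (d (n + 1) x) = 0) : ∀ (n : ℕ) (y : S (n + 1)),
    DCyc S d n (d n y)
  | 0, _ => trivial
  | n + 1, y => hd n y

/-- A relative cycle of `(B, A)` can be changed by an element of `A` such that its boundary lies
in the model `P` of `A`. -/
theorem correct (hd : ∀ n x, d n (d (n + 1) x) = 0) {A P : ∀ n, Submodule R (S n)}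
    (hP : IsModel S d A P) : ∀ (n : ℕ) (z : S n), DRel S d A n z →
    ∃ a ∈ A n, DRel S d P n (z - a)
  | 0, _, _ => ⟨0, zero_mem _, trivial⟩
  | n + 1, z, hz => by
    obtain ⟨q, hq, -, v, hv, e⟩ := hP.surj n (d n z) hz (cyc_d hd n z)
    refine ⟨v, hv, ?_⟩
    have : d n (z - v) ∈ P n := by
      rw [map_sub, e, add_sub_cancel_right]
      exact hq
    exact this

/-- a boundary in `B` of an element of `P` is the boundary of an element of `A`, if the
homology of `(B, A)` vanishes in that degree -/
theorem pull {A B : ∀ n, Submodule R (S n)} (hd : ∀ n x, d n (d (n + 1) x) = 0) (k : ℕ)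
    (h : ∀ x ∈ B (k + 1), DRel S d A (k + 1) x → ∃ y ∈ B (k + 2), x - d (k + 1) y ∈ A (k + 1))
    {x : S k} (hx : x ∈ A k) (hy : ∃ y ∈ B (k + 1), d k y = x) :
    ∃ y ∈ A (k + 1), d k y = x := by
  obtain ⟨y, hyB, e⟩ := hy
  have hrel : DRel S d A (k + 1) y := by
    have : d k y ∈ A k := by rw [e]; exact hx
    exact this
  obtain ⟨w, -, hw⟩ := h y hyB hrel
  exact ⟨_, hw, by rw [map_sub, hd, sub_zero, e]⟩

theorem main : SpecMS := by
  intro R _ S _ _ d hd A B P _ hB hAB hP n z hzB hz rel1 rel2 rel3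
  have hPB : ∀ k, P k ≤ B k := fun k => (hP.le k).trans (hAB k)
  have hsupB : P n ⊔ Submodule.span R {z} ≤ B n :=
    sup_le (hPB n) (by rw [Submodule.span_singleton_le_iff_mem]; exact hzB)
  have hup : ∀ k, P k ≤ Function.update P n (P n ⊔ Submodule.span R {z}) k := by
    intro k
    rcases eq_or_ne k n with rfl | hk
    · rw [Function.update_self]; exact le_sup_left
    · rw [Function.update_of_ne hk]
  constructor
  · intro k
    rcases eq_or_ne k n with rfl | hk
    · rw [Function.update_self]; exact hsupB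
    · rw [Function.update_of_ne hk]; exact hPB k
  · intro k x hx
    rcases eq_or_ne (k + 1) n with hk | hk
    · subst hk
      rw [Function.update_self] at hx
      obtain ⟨p, hp, y, hy, rfl⟩ := Submodule.mem_sup.1 hx
      obtain ⟨r, rfl⟩ := Submodule.mem_span_singleton.1 hy
      refine hup k ?_
      rw [map_add, map_smul]
      exact add_mem (hP.d_mem k p hp) (Submodule.smul_mem _ _ hz)
    · rw [Function.update_of_ne hk] at hx
      exact hup k (hP.d_mem k x hx)
  · intro k x hx hc hy
    rcases eq_or_ne k n with rfl | hk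
    · -- degree `n`
      rw [Function.update_self] at hx
      obtain ⟨p, hp, y', hy', rfl⟩ := Submodule.mem_sup.1 hx
      obtain ⟨r, rfl⟩ := Submodule.mem_span_singleton.1 hy'
      have hr : r = 0 := by
        obtain ⟨y, hyB, e⟩ := hy
        refine rel3 r ⟨y, hyB, ?_⟩
        have : r • z - d k y = -p := by rw [e]; abel
        rw [this]
        exact neg_mem (hP.le k hp)
      subst hr
      rw [zero_smul, add_zero] at hc hy ⊢
      have h1 := pull hd k (rel1 (k + 1) (by omega)) (hP.le k hp) hy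
      obtain ⟨w, hw, e⟩ := hP.inj k p hp hc h1
      exact ⟨w, hup _ hw, e⟩
    · rw [Function.update_of_ne hk] at hx
      rcases eq_or_ne (k + 1) n with hk' | hk'
      · subst hk'
        obtain ⟨y, hyB, e⟩ := hy
        have hrel : DRel S d A (k + 1) y := by
          have : d k y ∈ A k := by rw [e]; exact hP.le k hx
          exact this
        obtain ⟨r, w, hwB, hA⟩ := rel2 y hyB hrel
        have hz' : d k z ∈ P k := hz
        have e2 : d k (y - r • z - d (k + 1) w) = x - r • d k z := by
          rw [map_sub, map_sub, hd, sub_zero, map_smul, e]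
        have hcyc : DCyc S d k (x - r • d k z) := by
          rw [← e2]; exact cyc_d hd k _
        obtain ⟨u, hu, e3⟩ := hP.inj k (x - r • d k z)
          (sub_mem hx (Submodule.smul_mem _ _ hz')) hcyc ⟨_, hA, e2⟩
        refine ⟨u + r • z, ?_, ?_⟩
        · rw [Function.update_self]
          exact Submodule.mem_sup.2 ⟨u, hu, r • z,
            Submodule.mem_span_singleton.2 ⟨r, rfl⟩, rfl⟩
        · rw [map_add, map_smul, e3, sub_add_cancel]
      · have h1 := pull hd k (rel1 (k + 1) hk') (hP.le k hx) hy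
        obtain ⟨w, hw, e⟩ := hP.inj k x hx hc h1
        exact ⟨w, hup _ hw, e⟩
  · intro k x hx hc
    rcases eq_or_ne k n with rfl | hk
    · obtain ⟨r, w, hwB, hA⟩ := rel2 x hx (cyc_rel A k x hc)
      -- the correction
      have key : ∃ p ∈ P k, DCyc S d k (r • z + p) := by
        cases k with
        | zero => exact ⟨0, zero_mem _, trivial⟩
        | succ m =>
          have hx0 : d m x = 0 := hc
          have hz' : d m z ∈ P m := hz
          have e2 : d m (x - r • z - d (m + 1) w) = -(r • d m z) := by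
            rw [map_sub, map_sub, hd, sub_zero, map_smul, hx0, zero_sub]
          have hcyc : DCyc S d m (-(r • d m z)) := by
            rw [← e2]; exact cyc_d hd m _
          obtain ⟨p, hp, e3⟩ := hP.inj m (-(r • d m z))
            (neg_mem (Submodule.smul_mem _ _ hz')) hcyc ⟨_, hA, e2⟩
          refine ⟨p, hp, ?_⟩
          have : d m (r • z + p) = 0 := by
            rw [map_add, map_smul, e3, add_neg_cancel]
          exact this
      obtain ⟨p, hp, hcp⟩ := key
      have hcyc : DCyc S d k (x - r • z - d k w - p) := by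
        have e4 : x - r • z - d k w - p = x - (r • z + p) - d k w := by abel
        rw [e4]
        exact cyc_sub k _ _ (cyc_sub k _ _ hc hcp) (cyc_d hd k w)
      obtain ⟨q, hq, hqc, v, hv, e⟩ := hP.surj k _ (sub_mem hA (hP.le k hp)) hcyc
      refine ⟨r • z + p + q, ?_, cyc_add k _ _ hcp hqc, w + v,
        add_mem hwB (hAB _ hv), ?_⟩
      · rw [Function.update_self]
        refine Submodule.mem_sup.2 ⟨p + q, add_mem hp hq, r • z,
          Submodule.mem_span_singleton.2 ⟨r, rfl⟩, by abel⟩
      · rw [map_add]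
        have e5 : x = (x - r • z - d k w - p) + (r • z + p + d k w) := by abel
        rw [e5, e]
        abel
    · obtain ⟨w, hwB, hA⟩ := rel1 k hk x hx (cyc_rel A k x hc)
      have hcyc : DCyc S d k (x - d k w) := cyc_sub k _ _ hc (cyc_d hd k w)
      obtain ⟨q, hq, hqc, v, hv, e⟩ := hP.surj k _ hA hcyc
      refine ⟨q, ?_, hqc, w + v, add_mem hwB (hAB _ hv), ?_⟩
      · rw [Function.update_of_ne hk]; exact hq
      · rw [map_add]
        have e5 : x = (x - d k w) + d k w := by abel
        rw [e5, e]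
        abel

end

section

variable {R : Type} [Ring R] {S : ℕ → Type} [∀ n, AddCommGroup (S n)] [∀ n, Module R (S n)]
  {d : ∀ n, S (n + 1) →ₗ[R] S n}

/-- `z` generates a free module, in direct sum with `P n` -/
theorem indep {A B P : ∀ n, Submodule R (S n)} (hP : ∀ n, P n ≤ A n) {n : ℕ} {z : S n}
    (rel3 : ∀ r : R, (∃ y ∈ B (n + 1), r • z - d n y ∈ A n) → r = 0) {r : R}
    (h : r • z ∈ P n) : r = 0 :=
  rel3 r ⟨0, zero_mem _, by rw [map_zero, sub_zero]; exact hP n h⟩

/-- `P ⊕ R ≃ P + R z` -/
noncomputable def supEquiv {M : Type} [AddCommGroup M] [Module R M] (P : Submodule R M) (z : M)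
    (h : ∀ r : R, r • z ∈ P → r = 0) : (P × R) ≃ₗ[R] (P ⊔ Submodule.span R {z} : Submodule R M) :=
  (LinearEquiv.ofInjective (P.subtype.coprod (LinearMap.toSpanSingleton R M z)) (by
    rw [← LinearMap.ker_eq_bot, LinearMap.ker_eq_bot']
    rintro ⟨p, r⟩ h0
    have h1 : (p : M) + r • z = 0 := h0
    have hr : r = 0 := by
      apply h
      have : r • z = -(p : M) := by rw [eq_neg_iff_add_eq_zero, add_comm]; exact h1
      rw [this]
      exact neg_mem p.2
    subst hr
    rw [zero_smul, add_zero] at h1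
    exact Prod.ext (Subtype.ext h1) rfl)).trans
  (LinearEquiv.ofEq _ _ (by
    rw [LinearMap.range_coprod, Submodule.range_subtype, LinearMap.range_toSpanSingleton]))

theorem supEquiv_apply {M : Type} [AddCommGroup M] [Module R M] (P : Submodule R M) (z : M)
    (h : ∀ r : R, r • z ∈ P → r = 0) (x : P × R) :
    (supEquiv P z h x : M) = x.1 + x.2 • z := rfl

theorem free_sup {M : Type} [AddCommGroup M] [Module R M] (P : Submodule R M) [Module.Free R P]
    (z : M) (h : ∀ r : R, r • z ∈ P → r = 0) :
    Module.Free R (P ⊔ Submodule.span R {z} : Submodule R M) :=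
  Module.Free.of_equiv (supEquiv P z h)

theorem finite_sup {M : Type} [AddCommGroup M] [Module R M] (P : Submodule R M)
    [Module.Finite R P] (z : M) :
    Module.Finite R (P ⊔ Submodule.span R {z} : Submodule R M) := by
  rw [Module.Finite.iff_fg]
  exact Submodule.FG.sup (Module.Finite.iff_fg.1 inferInstance) (Submodule.fg_span_singleton z)

/-- One more cell, with freeness and finiteness. -/
theorem step (hd : ∀ n x, d n (d (n + 1) x) = 0) {A B P : ∀ n, Submodule R (S n)}
    (hA : ∀ n, ∀ x ∈ A (n + 1), d n x ∈ A n) (hB : ∀ n, ∀ x ∈ B (n + 1), d n x ∈ B n)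
    (hAB : ∀ n, A n ≤ B n) (hP : IsFinModel S d A P) {n : ℕ} {z : S n} (hz : z ∈ B n)
    (hzP : DRel S d P n z)
    (rel1 : ∀ k, k ≠ n → ∀ x ∈ B k, DRel S d A k x → ∃ y ∈ B (k + 1), x - d k y ∈ A k)
    (rel2 : ∀ x ∈ B n, DRel S d A n x → ∃ r : R, ∃ y ∈ B (n + 1), x - r • z - d n y ∈ A n)
    (rel3 : ∀ r : R, (∃ y ∈ B (n + 1), r • z - d n y ∈ A n) → r = 0) :
    IsFinModel S d B (Function.update P n (P n ⊔ Submodule.span R {z})) where
  toIsModel := main R S d hd A B P hA hB hAB hP.toIsModel n z hz hzP rel1 rel2 rel3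
  free := by
    intro k
    rcases eq_or_ne k n with rfl | hk
    · rw [Function.update_self]
      have := hP.free k
      exact free_sup (P k) z fun r => indep hP.le rel3
    · rw [Function.update_of_ne hk]; exact hP.free k
  fin := by
    intro k
    rcases eq_or_ne k n with rfl | hk
    · rw [Function.update_self]
      have := hP.fin k
      exact finite_sup (P k) z
    · rw [Function.update_of_ne hk]; exact hP.fin k
  bdd := by
    obtain ⟨N, hN⟩ := hP.bdd
    refine ⟨max N n, fun k hk => ?_⟩
    rw [Function.update_of_ne (by omega), hN k (by omega)]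

/-- One more cell, starting from a relative cycle `z` of `(B, A)`: it is first corrected by an
element of `A n`. -/
theorem step' (hd : ∀ n x, d n (d (n + 1) x) = 0) {A B P : ∀ n, Submodule R (S n)}
    (hA : ∀ n, ∀ x ∈ A (n + 1), d n x ∈ A n) (hB : ∀ n, ∀ x ∈ B (n + 1), d n x ∈ B n)
    (hAB : ∀ n, A n ≤ B n) (hP : IsFinModel S d A P) {n : ℕ} {z : S n} (hz : z ∈ B n)
    (hzA : DRel S d A n z)
    (rel1 : ∀ k, k ≠ n → ∀ x ∈ B k, DRel S d A k x → ∃ y ∈ B (k + 1), x - d k y ∈ A k)
    (rel2 : ∀ x ∈ B n, DRel S d A n x → ∃ r : R, ∃ y ∈ B (n + 1), x - r • z - d n y ∈ A n)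
    (rel3 : ∀ r : R, (∃ y ∈ B (n + 1), r • z - d n y ∈ A n) → r = 0) :
    ∃ z' : S n, z - z' ∈ A n ∧ z' ∈ B n ∧ DRel S d P n z' ∧
      IsFinModel S d B (Function.update P n (P n ⊔ Submodule.span R {z'})) := by
  obtain ⟨a, ha, hrel⟩ := correct hd hP.toIsModel n z hzA
  have hz' : z - a ∈ B n := sub_mem hz (hAB n ha)
  refine ⟨z - a, by rw [sub_sub_cancel]; exact ha, hz', hrel,
    step hd hA hB hAB hP hz' hrel rel1 ?_ ?_⟩
  · intro x hx hxA
    obtain ⟨r, y, hy, h⟩ := rel2 x hx hxA
    refine ⟨r, y, hy, ?_⟩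
    have e : x - r • (z - a) - d n y = (x - r • z - d n y) + r • a := by
      rw [smul_sub]; abel
    rw [e]
    exact add_mem h (Submodule.smul_mem _ _ ha)
  · rintro r ⟨y, hy, h⟩
    refine rel3 r ⟨y, hy, ?_⟩
    have e : r • z - d n y = (r • (z - a) - d n y) + r • a := by
      rw [smul_sub]; abel
    rw [e]
    exact add_mem h (Submodule.smul_mem _ _ ha)

/-- the empty complex has the model `0` -/
theorem bot : IsFinModel S d (fun _ => ⊥) (fun _ => ⊥) where
  le _ := le_rfl
  d_mem n x hx := by
    have : x = 0 := hx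
    rw [this, map_zero]
    exact zero_mem _
  inj n x hx _ _ := by
    have : x = 0 := hx
    exact ⟨0, zero_mem _, by rw [map_zero, this]⟩
  surj n x hx _ := by
    have : x = 0 := hx
    exact ⟨0, zero_mem _, cyc_zero n, 0, zero_mem _, by rw [map_zero, this, add_zero]⟩
  free _ := inferInstance
  fin _ := inferInstance
  bdd := ⟨0, fun _ _ => rfl⟩

end

end Vale.Agent.P246.T.MS
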