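import Vale.Agent.P246.T.Spec

/-! # Block PR: the prism operator -/

namespace Vale.Agent.P246.T.PR

/-- the affine map `Δ → I × Δ` sending the vertex `i` to the vertex `(1 if p i else 0, f i)` -/
noncomputable def aff {k m : ℕ} (p : Fin k → Prop) [DecidablePred p] (f : Fin k → Fin m) :
    C(Dl k, I × Dl m) where
  toFun t := (⟨∑ i, if p i then t i else 0, by
    constructor
    · exact Finset.sum_nonneg fun i _ => by split_ifs <;> simp
    · calc ∑ i, (if p i then t i else 0) ≤ ∑ i, t i :=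
          Finset.sum_le_sum fun i _ => by split_ifs <;> simp
        _ = 1 := by simp⟩, stdSimplex.map f t)
  continuous_toFun := by
    refine Continuous.prodMk (Continuous.subtype_mk ?_ _) (stdSimplex.continuous_map f)
    refine continuous_finsetSum _ fun i _ => ?_
    split_ifs
    · exact (continuous_apply i).comp continuous_subtype_val
    · exact continuous_const

/-- the map `id × f : I × Δ → I × Δ` -/
noncomputable def pm {k m : ℕ} (f : Fin k → Fin m) : C(I × Dl k, I × Dl m) :=
  ⟨fun x => (x.1, stdSimplex.map f x.2),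
    continuous_fst.prodMk ((stdSimplex.continuous_map f).comp continuous_snd)⟩

/-- the slice `Δ → I × Δ` at time `s` -/
def sl {k : ℕ} (s : I) : C(Dl k, I × Dl k) := ⟨fun x => (s, x), by fun_prop⟩

theorem sum_map {k m : ℕ} (g : Fin k → Fin m) (p : Fin m → Prop) [DecidablePred p]
    (t : Dl k) :
    ∑ i, (if p i then stdSimplex.map g t i else 0) = ∑ i, if p (g i) then t i else 0 := by
  simp only [stdSimplex.map_coe, FunOnFinite.linearMap_apply_apply]
  rw [← Finset.sum_filter, ← Finset.sum_filter, ← Finset.sum_fiberwise_of_maps_to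
    (s := Finset.univ.filter fun i => p (g i)) (t := Finset.univ.filter p) (g := g)
    (by intro i hi; simpa using hi)]
  refine Finset.sum_congr rfl fun i hi => Finset.sum_congr ?_ fun _ _ => rfl
  ext j
  simp only [Finset.mem_filter, Finset.mem_univ, true_and] at hi ⊢
  constructor
  · intro h; exact ⟨by rw [h]; exact hi, h⟩
  · intro h; exact h.2

theorem aff_comp {k l m : ℕ} (p : Fin l → Prop) [DecidablePred p] (f : Fin l → Fin m)
    (g : Fin k → Fin l) (h : Continuous (stdSimplex.map (S := ℝ) g)) :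
    (aff p f).comp ⟨stdSimplex.map g, h⟩ = aff (fun i => p (g i)) (fun i => f (g i)) := by
  ext t
  · simp only [aff, ContinuousMap.comp_apply, ContinuousMap.coe_mk, sum_map]
  · simp only [aff, ContinuousMap.comp_apply, ContinuousMap.coe_mk, stdSimplex.map_comp_apply]
    rfl

theorem pm_aff {k l m : ℕ} (p : Fin k → Prop) [DecidablePred p] (f : Fin k → Fin l)
    (g : Fin l → Fin m) : (pm g).comp (aff p f) = aff p (fun i => g (f i)) := by
  ext t
  · simp only [aff, pm, ContinuousMap.comp_apply, ContinuousMap.coe_mk]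
  · simp only [aff, pm, ContinuousMap.comp_apply, ContinuousMap.coe_mk, stdSimplex.map_comp_apply]
    rfl

theorem aff_one {k : ℕ} (p : Fin k → Prop) [DecidablePred p] (hp : ∀ i, p i) (f : Fin k → Fin k)
    (hf : ∀ i, f i = i) : aff p f = sl 1 := by
  have hf' : f = id := funext hf
  ext t
  · simp [aff, sl, hp]
  · simp [aff, sl, hf']

theorem aff_zero {k : ℕ} (p : Fin k → Prop) [DecidablePred p] (hp : ∀ i, ¬ p i)
    (f : Fin k → Fin k) (hf : ∀ i, f i = i) : aff p f = sl 0 := by
  have hf' : f = id := funext hf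
  ext t
  · simp [aff, sl, hp]
  · simp [aff, sl, hf']

theorem aff_congr {k m : ℕ} (p p' : Fin k → Prop) [DecidablePred p] [DecidablePred p']
    (f f' : Fin k → Fin m) (h : ∀ i, p i ↔ p' i) (hf : ∀ i, f i = f' i) : aff p f = aff p' f' := by
  have h1 : p = p' := funext fun i => propext (h i)
  have h2 : f = f' := funext hf
  subst h1 h2
  congr

/-- the `j`-th simplex of the prism -/
noncomputable def Q (k : ℕ) (j : Fin k) : C(Dl (k + 1), I × Dl k) :=
  aff (fun i => j.castSucc < i) (fun i => j.predAbove i)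

theorem val_sa {n : ℕ} (i : Fin (n + 1)) (j : Fin n) :
    ((i.succAbove j : Fin (n + 1)) : ℕ) = if (j : ℕ) < i then (j : ℕ) else j + 1 := by
  unfold Fin.succAbove
  simp only [Fin.lt_def, Fin.val_castSucc]
  split_ifs <;> simp

theorem val_pa {n : ℕ} (j : Fin n) (i : Fin (n + 1)) :
    ((j.predAbove i : Fin n) : ℕ) = if (j : ℕ) < i then (i : ℕ) - 1 else i := by
  unfold Fin.predAbove
  simp only [Fin.lt_def, Fin.val_castSucc]
  split_ifs <;> simp

theorem comb {W : Type*} [AddCommGroup W] (k : ℕ) (u : Fin (k + 1) → Fin (k + 2) → W)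
    (E : Fin (k + 2) → W) (T : Fin (k + 1) → Fin k → W)
    (h1 : ∀ j, u j j.castSucc = E j.castSucc) (h2 : ∀ j, u j j.succ = E j.succ)
    (h3 : ∀ (i : Fin (k + 1)) (j : Fin k), i ≤ j.castSucc → u j.succ i.castSucc = T i j)
    (h4 : ∀ (i : Fin (k + 1)) (j : Fin k), j.castSucc < i → u j.castSucc i.succ = T i j) :
    ∑ j : Fin (k + 1), (-1 : ℤ) ^ (j : ℕ) • ∑ i : Fin (k + 2), (-1 : ℤ) ^ (i : ℕ) • u j i =
      E 0 - E (Fin.last _) - ∑ i : Fin (k + 1), (-1 : ℤ) ^ (i : ℕ) •
        ∑ j : Fin k, (-1 : ℤ) ^ (j : ℕ) • T i j := by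
  have e1 : ∀ j : Fin (k + 1), (-1 : ℤ) ^ (j : ℕ) •
      ∑ i : Fin (k + 2), (-1 : ℤ) ^ (i : ℕ) • u j i =
      E j.castSucc - E j.succ + ∑ i : Fin (k + 1), if i = j then 0 else
        (-1 : ℤ) ^ (j : ℕ) • ((-1 : ℤ) ^ ((j.castSucc.succAbove i : Fin (k + 2)) : ℕ) •
          u j (j.castSucc.succAbove i)) := by
    intro j
    rw [Fin.sum_univ_succAbove _ j.castSucc, smul_add, Finset.smul_sum]
    have : ∀ i : Fin (k + 1), (-1 : ℤ) ^ (j : ℕ) • ((-1 : ℤ) ^
        ((j.castSucc.succAbove i : Fin (k + 2)) : ℕ) • u j (j.castSucc.succAbove i)) =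
        (if i = j then (-1 : ℤ) ^ (j : ℕ) • ((-1 : ℤ) ^
        ((j.castSucc.succAbove i : Fin (k + 2)) : ℕ) • u j (j.castSucc.succAbove i)) else 0) +
        (if i = j then 0 else (-1 : ℤ) ^ (j : ℕ) • ((-1 : ℤ) ^
        ((j.castSucc.succAbove i : Fin (k + 2)) : ℕ) • u j (j.castSucc.succAbove i))) := by
      intro i; split_ifs <;> simp
    rw [Finset.sum_congr rfl fun i _ => this i, Finset.sum_add_distrib,
      Finset.sum_ite_eq' Finset.univ j, if_pos (Finset.mem_univ _)]
    rw [Fin.succAbove_castSucc_self, h1, h2]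
    have hs : (-1 : ℤ) ^ (j : ℕ) * (-1 : ℤ) ^ (j : ℕ) = 1 := by
      rw [← pow_add, ← two_mul, pow_mul]; norm_num
    simp only [Fin.val_castSucc, Fin.val_succ, smul_smul, pow_succ, ← mul_assoc, hs]
    rw [one_mul, one_smul, neg_one_smul]
    abel
  rw [Finset.sum_congr rfl fun j _ => e1 j, Finset.sum_add_distrib]
  have e2 : ∑ j : Fin (k + 1), (E j.castSucc - E j.succ) = E 0 - E (Fin.last _) := by
    rw [Finset.sum_sub_distrib]
    have a := Fin.sum_univ_succ E
    have b := Fin.sum_univ_castSucc E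
    rw [eq_comm, ← sub_eq_zero]
    rw [b] at a
    have a' := sub_eq_zero.2 a
    rw [← neg_eq_zero, ← a']
    abel
  have e3 : ∑ j : Fin (k + 1), ∑ i : Fin (k + 1), (if i = j then 0 else
        (-1 : ℤ) ^ (j : ℕ) • ((-1 : ℤ) ^ ((j.castSucc.succAbove i : Fin (k + 2)) : ℕ) •
          u j (j.castSucc.succAbove i))) =
      -∑ i : Fin (k + 1), (-1 : ℤ) ^ (i : ℕ) • ∑ j : Fin k, (-1 : ℤ) ^ (j : ℕ) • T i j := by
    rw [Finset.sum_comm, ← Finset.sum_neg_distrib]
    refine Finset.sum_congr rfl fun i _ => ?_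
    rw [Fin.sum_univ_succAbove _ i, if_pos rfl, zero_add, Finset.smul_sum,
      ← Finset.sum_neg_distrib]
    refine Finset.sum_congr rfl fun j _ => ?_
    rw [if_neg (Fin.succAbove_ne i j).symm]
    by_cases hj : j.castSucc < i
    · rw [Fin.succAbove_of_castSucc_lt _ _ hj, Fin.succAbove_of_le_castSucc _ _
        (by rw [Fin.castSucc_le_castSucc_iff]; exact hj.le), h4 i j hj]
      simp only [Fin.val_castSucc, Fin.val_succ, smul_smul, pow_succ]
      rw [← neg_smul]
      congr 1
      ring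
    · rw [Fin.succAbove_of_le_castSucc _ _ (not_lt.1 hj), Fin.succAbove_of_castSucc_lt, h3 i j
        (not_lt.1 hj)]
      · simp only [Fin.val_castSucc, Fin.val_succ, smul_smul, pow_succ]
        rw [← neg_smul]
        congr 1
        ring
      · rw [Fin.castSucc_lt_castSucc_iff]
        exact lt_of_le_of_lt (not_lt.1 hj) (Fin.castSucc_lt_succ)
  rw [e2, e3]
  abel

section

variable {M N : Type} [TopologicalSpace M] [TopologicalSpace N]

/-- the prism chain of a homotopy of simplices with `k` vertices -/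
noncomputable def pc (k : ℕ) (K : Hm k M) : Ch k M :=
  ∑ j : Fin k, (-1 : ℤ) ^ (j : ℕ) • Finsupp.single (K.comp (Q k j)) 1

theorem push_pc (f : C(M, N)) (k : ℕ) (K : Hm k M) : push f k (pc k K) = pc k (f.comp K) := by
  simp only [pc, map_sum, map_smul, push_single, ContinuousMap.comp_assoc]

theorem pc_mem (k : ℕ) (K : Hm k M) {A : Set M} (h : ∀ t x, K (t, x) ∈ A) : pc k K ∈ Con A k := by
  refine Submodule.sum_mem _ fun j _ => Submodule.smul_mem _ _ ?_
  exact Finsupp.single_mem_supported _ _ fun x => h _ _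

theorem bd_pc (k : ℕ) (K : Hm (k + 1) M) : bd k (pc (k + 1) K) =
    Finsupp.single (K.at 1) 1 - Finsupp.single (K.at 0) 1 -
      ∑ i : Fin (k + 1), ((-1 : ℤ) ^ (i : ℕ)) • pc k (K.fc i) := by
  have hb : bd k (pc (k + 1) K) = ∑ j : Fin (k + 1), (-1 : ℤ) ^ (j : ℕ) •
      ∑ i : Fin (k + 2), (-1 : ℤ) ^ (i : ℕ) •
        Finsupp.single ((K.comp (Q (k + 1) j)).comp (face (k + 1) i)) (1 : ℤ) := by
    rw [pc, map_sum]
    refine Finset.sum_congr rfl fun j _ => ?_
    rw [map_smul, bd_single]
    congr 1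
    refine Finset.sum_congr rfl fun i _ => ?_
    rw [Finsupp.smul_single, smul_eq_mul, mul_one, one_mul]
  have h := comb k (fun j i => (Finsupp.single ((K.comp (Q (k + 1) j)).comp (face (k + 1) i))
      (1 : ℤ) : Ch k M))
    (fun j => Finsupp.single (K.comp (aff (fun i => j ≤ i.castSucc) id)) 1)
    (fun i j => Finsupp.single ((K.comp (pm i.succAbove)).comp (Q k j)) 1) ?_ ?_ ?_ ?_
  · rw [hb, h, aff_one _ (by simp) _ (by simp), aff_zero _ (by
      intro i; rw [not_le]; exact Fin.castSucc_lt_last i) _ (by simp)]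
    rfl
  · intro j
    rw [ContinuousMap.comp_assoc, Q, face, aff_comp]
    congr 2
    refine aff_congr _ _ _ _ (fun i => ?_) (fun i => ?_)
    · simp only [Fin.lt_def, Fin.le_def, val_sa, Fin.val_castSucc]
      split_ifs <;> omega
    · simp only [Fin.ext_iff, val_sa, val_pa, Fin.val_castSucc, Fin.val_succ, id]
      split_ifs <;> omega
  · intro j
    rw [ContinuousMap.comp_assoc, Q, face, aff_comp]
    congr 2
    refine aff_congr _ _ _ _ (fun i => ?_) (fun i => ?_)
    · simp only [Fin.lt_def, Fin.le_def, val_sa, Fin.val_castSucc, Fin.val_succ]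
      split_ifs <;> omega
    · simp only [Fin.ext_iff, val_sa, val_pa, Fin.val_castSucc, Fin.val_succ, id]
      split_ifs <;> omega
  · intro i j hij
    rw [ContinuousMap.comp_assoc, ContinuousMap.comp_assoc, Q, Q, face, aff_comp, pm_aff]
    congr 2
    rw [Fin.le_def, Fin.val_castSucc] at hij
    refine aff_congr _ _ _ _ (fun l => ?_) (fun l => ?_)
    · simp only [Fin.lt_def, val_sa, Fin.val_castSucc, Fin.val_succ]
      split_ifs <;> omega
    · simp only [Fin.ext_iff, val_sa, val_pa, Fin.val_castSucc, Fin.val_succ]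
      split_ifs <;> omega
  · intro i j hij
    rw [ContinuousMap.comp_assoc, ContinuousMap.comp_assoc, Q, Q, face, aff_comp, pm_aff]
    congr 2
    rw [Fin.lt_def, Fin.val_castSucc] at hij
    refine aff_congr _ _ _ _ (fun l => ?_) (fun l => ?_)
    · simp only [Fin.lt_def, val_sa, Fin.val_castSucc, Fin.val_succ]
      split_ifs <;> omega
    · simp only [Fin.ext_iff, val_sa, val_pa, Fin.val_castSucc, Fin.val_succ]
      split_ifs <;> omega

end

/-- the prism operators -/
noncomputable def op : PrismOp where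
  D _ _ n K := pc (n + 1) K
  nat _ _ _ _ f n K := push_pc f (n + 1) K
  bd_zero _ _ K := by
    rw [bd_pc]
    simp [pc]
  bd_succ _ _ n K := bd_pc (n + 1) K

theorem main : SpecPrism := ⟨op⟩

end Vale.Agent.P246.T.PR
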