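import Vale.Agent.P246.T.PS1
import Vale.Agent.P246.T.CV

/-! # Block PS, part 5, and the extension of maps from the boundary of a prism -/

namespace Vale.Agent.P246.T.PS5

open Topology Metric Set CV PS1

/-- the map `[-1, 1] → [0, 1]` -/
noncomputable def hf (s : ℝ) : I := Set.projIcc 0 1 zero_le_one ((s + 1) / 2)

theorem continuous_hf : Continuous hf := by unfold hf; fun_prop

theorem hf_val {s : ℝ} (h1 : -1 ≤ s) (h2 : s ≤ 1) : (hf s : ℝ) = (s + 1) / 2 := by
  rw [hf, Set.projIcc_of_mem _ (show (s + 1) / 2 ∈ Icc (0 : ℝ) 1 from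
    ⟨by linarith, by linarith⟩)]

theorem clp_val {n : ℕ} {x : Fin n → ℝ} (h : ‖x‖ ≤ 1) : ((clp n x : Dk n) : Fin n → ℝ) = x := by
  funext i
  have hi := (norm_le_pi_norm x i).trans h
  rw [Real.norm_eq_abs, abs_le] at hi
  show max (-1) (min 1 (x i)) = x i
  rw [min_eq_right hi.2, max_eq_right hi.1]

theorem dk_le {n : ℕ} (y : Dk n) : ‖(y : Fin n → ℝ)‖ ≤ 1 := mem_closedBall_zero_iff.1 y.2

theorem norm_cons {n : ℕ} (a : ℝ) (x : Fin n → ℝ) :
    ‖(Fin.cons a x : Fin (n + 1) → ℝ)‖ = max |a| ‖x‖ := by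
  apply le_antisymm
  · rw [pi_norm_le_iff_of_nonneg (le_max_of_le_left (abs_nonneg a))]
    intro i
    refine Fin.cases ?_ (fun j => ?_) i
    · rw [Fin.cons_zero]; exact le_max_left _ _
    · rw [Fin.cons_succ]; exact (norm_le_pi_norm x j).trans (le_max_right _ _)
  · refine max_le ?_ ?_
    · have := norm_le_pi_norm (Fin.cons a x : Fin (n + 1) → ℝ) 0
      rwa [Fin.cons_zero] at this
    · rw [pi_norm_le_iff_of_nonneg (norm_nonneg _)]
      intro i
      have := norm_le_pi_norm (Fin.cons a x : Fin (n + 1) → ℝ) i.succ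
      rwa [Fin.cons_succ] at this

/-- the homeomorphism between the cube and the product of the interval and the simplex -/
theorem prismBall (k : ℕ) : ∃ q : Dk (k + 1) ≃ₜ I × Dl (k + 1),
    ∀ y : Dk (k + 1), ‖(y : Fin (k + 1) → ℝ)‖ = 1 ↔ (q y).1 = 0 ∨ (q y).1 = 1 ∨ ∃ i, (q y).2 i = 0 := by
  obtain ⟨h, hh⟩ := simplexBall k
  have e0 : ∀ y : Dk (k + 1), -1 ≤ (y : Fin (k + 1) → ℝ) 0 ∧ (y : Fin (k + 1) → ℝ) 0 ≤ 1 := by
    intro y
    have := (norm_le_pi_norm (y : Fin (k + 1) → ℝ) 0).trans (dk_le y)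
    rwa [Real.norm_eq_abs, abs_le] at this
  have et : ∀ y : Dk (k + 1), ‖Fin.tail (y : Fin (k + 1) → ℝ)‖ ≤ 1 := by
    intro y
    rw [pi_norm_le_iff_of_nonneg zero_le_one]
    intro i
    exact (norm_le_pi_norm (y : Fin (k + 1) → ℝ) i.succ).trans (dk_le y)
  have em : ∀ z : I × Dl (k + 1),
      (Fin.cons (2 * (z.1 : ℝ) - 1) (h z.2 : Fin k → ℝ) : Fin (k + 1) → ℝ) ∈
        closedBall (0 : Fin (k + 1) → ℝ) 1 := by
    intro z
    rw [mem_closedBall_zero_iff, norm_cons]
    refine max_le (abs_le.2 ⟨by linarith [z.1.2.1], by linarith [z.1.2.2]⟩) (dk_le _)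
  let q : Dk (k + 1) ≃ₜ I × Dl (k + 1) :=
  { toFun := fun y => (hf ((y : Fin (k + 1) → ℝ) 0),
      h.symm (clp k (Fin.tail (y : Fin (k + 1) → ℝ))))
    invFun := fun z => ⟨Fin.cons (2 * (z.1 : ℝ) - 1) (h z.2 : Fin k → ℝ), em z⟩
    left_inv := fun y => by
      refine Subtype.ext ?_
      show (Fin.cons (2 * (hf ((y : Fin (k + 1) → ℝ) 0) : ℝ) - 1)
        (h (h.symm (clp k (Fin.tail (y : Fin (k + 1) → ℝ)))) : Fin k → ℝ) : Fin (k + 1) → ℝ) = y
      rw [h.apply_symm_apply, clp_val (et y), hf_val (e0 y).1 (e0 y).2]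
      funext i
      refine Fin.cases ?_ (fun j => ?_) i
      · rw [Fin.cons_zero]; ring
      · rw [Fin.cons_succ]; rfl
    right_inv := fun z => by
      have e1 : hf (2 * (z.1 : ℝ) - 1) = z.1 := by
        refine Subtype.ext ?_
        rw [hf_val (by linarith [z.1.2.1]) (by linarith [z.1.2.2])]
        ring
      show (hf ((Fin.cons (2 * (z.1 : ℝ) - 1) (h z.2 : Fin k → ℝ) : Fin (k + 1) → ℝ) 0),
        h.symm (clp k (Fin.tail (Fin.cons (2 * (z.1 : ℝ) - 1) (h z.2 : Fin k → ℝ) :
          Fin (k + 1) → ℝ)))) = z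
      rw [Fin.cons_zero, e1, Fin.tail_cons]
      have e2 : clp k (h z.2 : Fin k → ℝ) = h z.2 := Subtype.ext (clp_val (dk_le _))
      rw [e2, h.symm_apply_apply]
    continuous_toFun := by
      refine (continuous_hf.comp ((continuous_apply 0).comp continuous_subtype_val)).prodMk ?_
      refine h.symm.continuous.comp ((continuous_clp k).comp ?_)
      exact continuous_pi fun i => (continuous_apply i.succ).comp continuous_subtype_val
    continuous_invFun := by
      refine Continuous.subtype_mk (continuous_pi fun i => ?_) _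
      refine Fin.cases ?_ (fun j => ?_) i
      · simp only [Fin.cons_zero]
        exact (continuous_const.mul (continuous_subtype_val.comp continuous_fst)).sub
          continuous_const
      · simp only [Fin.cons_succ]
        exact (continuous_apply j).comp (continuous_subtype_val.comp
          (h.continuous.comp continuous_snd)) }
  refine ⟨q, fun y => ?_⟩
  have e3 : ∀ z : I × Dl (k + 1), ‖((q.symm z : Dk (k + 1)) : Fin (k + 1) → ℝ)‖ = 1 ↔
      z.1 = 0 ∨ z.1 = 1 ∨ ∃ i, z.2 i = 0 := by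
    intro z
    show ‖(Fin.cons (2 * (z.1 : ℝ) - 1) (h z.2 : Fin k → ℝ) : Fin (k + 1) → ℝ)‖ = 1 ↔ _
    rw [norm_cons, hh]
    have a1 : |2 * (z.1 : ℝ) - 1| ≤ 1 :=
      abs_le.2 ⟨by linarith [z.1.2.1], by linarith [z.1.2.2]⟩
    have a2 := dk_le (h z.2)
    have a3 : |2 * (z.1 : ℝ) - 1| = 1 ↔ z.1 = 0 ∨ z.1 = 1 := by
      constructor
      · intro ha
        rcases (abs_eq zero_le_one).1 ha with hb | hb
        · right; exact Subtype.ext (by show (z.1 : ℝ) = 1; linarith)
        · left; exact Subtype.ext (by show (z.1 : ℝ) = 0; linarith)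
      · rintro (ha | ha)
        · rw [ha]; norm_num
        · rw [ha]; norm_num
    constructor
    · intro hmx
      rcases max_choice |2 * (z.1 : ℝ) - 1| ‖(h z.2 : Fin k → ℝ)‖ with hc | hc
      · rw [hc] at hmx
        rcases a3.1 hmx with hb | hb
        · exact Or.inl hb
        · exact Or.inr (Or.inl hb)
      · rw [hc] at hmx
        exact Or.inr (Or.inr hmx)
    · rintro (hb | hb | hb)
      · exact le_antisymm (max_le a1 a2) ((a3.2 (Or.inl hb)).symm.le.trans (le_max_left _ _))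
      · exact le_antisymm (max_le a1 a2) ((a3.2 (Or.inr hb)).symm.le.trans (le_max_left _ _))
      · have hb' : ‖(h z.2 : Fin k → ℝ)‖ = 1 := hb
        exact le_antisymm (max_le a1 a2) (hb'.symm.le.trans (le_max_right _ _))
  have := e3 (q y)
  rwa [q.symm_apply_apply] at this

/-- forget a zero coordinate -/
def drop {k : ℕ} (i : Fin (k + 1)) (x : Dl (k + 1)) (h : x i = 0) : Dl k :=
  ⟨fun j => x (i.succAbove j), fun j => x.2.1 _, by
    have h1 : ∑ m, x m = 1 := x.2.2
    rw [Fin.sum_univ_succAbove _ i, h, zero_add] at h1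
    exact h1⟩

theorem face_drop {k : ℕ} (i : Fin (k + 1)) (x : Dl (k + 1)) (h : x i = 0) :
    face k i (drop i x h) = x := by
  refine Subtype.ext (funext fun m => ?_)
  show face k i (drop i x h) m = x m
  refine Fin.succAboveCases i ?_ (fun j => ?_) m
  · rw [face_self, h]
  · rw [face_succAbove]; rfl

section

variable {P : Type} [TopologicalSpace P] {k : ℕ}

open Classical in
/-- the map on the boundary of the prism -/
noncomputable def bmap (p₀ : P) (τ η : C(Dl (k + 1), P)) (G : Fin (k + 1) → Hm k P)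
    (z : I × Dl (k + 1)) : P :=
  if z.1 = 0 then τ z.2 else if z.1 = 1 then η z.2 else
    if h : ∃ i, z.2 i = 0 then G h.choose (z.1, drop h.choose z.2 h.choose_spec) else p₀

theorem bmap_zero (p₀ : P) (τ η : C(Dl (k + 1), P)) (G : Fin (k + 1) → Hm k P)
    (z : I × Dl (k + 1)) (hz : z.1 = 0) : bmap p₀ τ η G z = τ z.2 := if_pos hz

theorem bmap_one (p₀ : P) (τ η : C(Dl (k + 1), P)) (G : Fin (k + 1) → Hm k P)
    (z : I × Dl (k + 1)) (hz : z.1 = 1) : bmap p₀ τ η G z = η z.2 := by
  rw [bmap, if_neg (by rw [hz]; exact one_ne_zero), if_pos hz]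

theorem bmap_face (p₀ : P) (τ η : C(Dl (k + 1), P)) (G : Fin (k + 1) → Hm k P)
    (h0 : ∀ i x, G i (0, x) = τ (face k i x)) (h1 : ∀ i x, G i (1, x) = η (face k i x))
    (hm : ∀ i j x y, face k i x = face k j y → ∀ t, G i (t, x) = G j (t, y))
    (z : I × Dl (k + 1)) (i : Fin (k + 1)) (hz : z.2 i = 0) :
    bmap p₀ τ η G z = G i (z.1, drop i z.2 hz) := by
  rcases eq_or_ne z.1 0 with e | e
  · rw [bmap_zero _ _ _ _ _ e, e, h0, face_drop]
  rcases eq_or_ne z.1 1 with e' | e'
  · rw [bmap_one _ _ _ _ _ e', e', h1, face_drop]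
  · have h : ∃ i, z.2 i = 0 := ⟨i, hz⟩
    rw [bmap, if_neg e, if_neg e', dif_pos h]
    exact hm _ _ _ _ (by rw [face_drop, face_drop]) _

/-- extension of maps from the boundary of a prism to a contractible space -/
theorem prism_ext [ContractibleSpace P] (τ η : C(Dl (k + 1), P)) (G : Fin (k + 1) → Hm k P)
    (h0 : ∀ i x, G i (0, x) = τ (face k i x)) (h1 : ∀ i x, G i (1, x) = η (face k i x))
    (hm : ∀ i j x y, face k i x = face k j y → ∀ t, G i (t, x) = G j (t, y)) :
    ∃ K : Hm (k + 1) P, (∀ x, K (0, x) = τ x) ∧ (∀ x, K (1, x) = η x) ∧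
      ∀ i t x, K (t, face k i x) = G i (t, x) := by
  obtain ⟨p₀, ⟨H⟩⟩ := id_nullhomotopic P
  obtain ⟨q, hq⟩ := prismBall k
  let nr : Dk (k + 1) → Dk (k + 1) := fun y =>
    clp (k + 1) ((max ‖(y : Fin (k + 1) → ℝ)‖ (1 / 2))⁻¹ • (y : Fin (k + 1) → ℝ))
  have hmp : ∀ y : Dk (k + 1), 0 < max ‖(y : Fin (k + 1) → ℝ)‖ (1 / 2) := fun y =>
    lt_max_of_lt_right (by norm_num)
  have hnm : Continuous fun y : Dk (k + 1) => ‖(y : Fin (k + 1) → ℝ)‖ := by fun_prop
  have hnr : Continuous nr := by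
    have h2 : Continuous fun y : Dk (k + 1) =>
        (max ‖(y : Fin (k + 1) → ℝ)‖ (1 / 2))⁻¹ • (y : Fin (k + 1) → ℝ) :=
      ((hnm.max continuous_const).inv₀ fun y => (hmp y).ne').smul continuous_subtype_val
    exact (continuous_clp (k + 1)).comp h2
  have hnr1 : ∀ y : Dk (k + 1), 1 / 2 ≤ ‖(y : Fin (k + 1) → ℝ)‖ →
      ‖((nr y : Dk (k + 1)) : Fin (k + 1) → ℝ)‖ = 1 := by
    intro y hy
    have hy0 : 0 < ‖(y : Fin (k + 1) → ℝ)‖ := lt_of_lt_of_le (by norm_num) hy
    have e : ‖(max ‖(y : Fin (k + 1) → ℝ)‖ (1 / 2))⁻¹ • (y : Fin (k + 1) → ℝ)‖ = 1 := by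
      rw [max_eq_left hy, norm_smul, norm_inv, norm_norm, inv_mul_cancel₀ hy0.ne']
    show ‖((clp (k + 1) _ : Dk (k + 1)) : Fin (k + 1) → ℝ)‖ = 1
    rw [clp_val e.le, e]
  let T : Dk (k + 1) → I := fun y =>
    Set.projIcc 0 1 zero_le_one (2 * (1 - ‖(y : Fin (k + 1) → ℝ)‖))
  have hT : Continuous T := by
    refine continuous_projIcc.comp ?_
    exact continuous_const.mul (continuous_const.sub hnm)
  let F : Dk (k + 1) → P := fun y => if 1 / 2 ≤ ‖(y : Fin (k + 1) → ℝ)‖ then
    H (T y, bmap p₀ τ η G (q (nr y))) else p₀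
  let C : Option (Option (Option (Fin (k + 1)))) → Set (Dk (k + 1)) := fun o =>
    match o with
    | none => {y | ‖(y : Fin (k + 1) → ℝ)‖ ≤ 1 / 2}
    | some none => {y | 1 / 2 ≤ ‖(y : Fin (k + 1) → ℝ)‖} ∩ {y | (q (nr y)).1 = 0}
    | some (some none) => {y | 1 / 2 ≤ ‖(y : Fin (k + 1) → ℝ)‖} ∩ {y | (q (nr y)).1 = 1}
    | some (some (some i)) => {y | 1 / 2 ≤ ‖(y : Fin (k + 1) → ℝ)‖} ∩ {y | (q (nr y)).2 i = 0}
  have hqc : Continuous fun y => q (nr y) := q.continuous.comp hnr
  have hcrd : ∀ i : Fin (k + 1), Continuous fun y => (q (nr y)).2 i := fun i =>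
    (continuous_apply i).comp (continuous_subtype_val.comp (continuous_snd.comp hqc))
  have hF : Continuous F := by
    refine LocallyFinite.continuous (f := C) (locallyFinite_of_finite _) ?_ ?_ ?_
    · refine eq_univ_of_forall fun y => mem_iUnion.2 ?_
      rcases le_total ‖(y : Fin (k + 1) → ℝ)‖ (1 / 2) with h | h
      · exact ⟨none, h⟩
      · rcases (hq _).1 (hnr1 y h) with h' | h' | ⟨i, h'⟩
        · exact ⟨some none, h, h'⟩
        · exact ⟨some (some none), h, h'⟩
        · exact ⟨some (some (some i)), h, h'⟩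
    · intro o
      match o with
      | none => exact isClosed_le hnm continuous_const
      | some none =>
        exact (isClosed_le continuous_const hnm).inter
          (isClosed_eq (continuous_fst.comp hqc) continuous_const)
      | some (some none) =>
        exact (isClosed_le continuous_const hnm).inter
          (isClosed_eq (continuous_fst.comp hqc) continuous_const)
      | some (some (some i)) =>
        exact (isClosed_le continuous_const hnm).inter
          (isClosed_eq (hcrd i) continuous_const)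
    · intro o
      match o with
      | none =>
        refine ContinuousOn.congr (f := fun _ => p₀) continuousOn_const fun y hy => ?_
        have hy' : ‖(y : Fin (k + 1) → ℝ)‖ ≤ 1 / 2 := hy
        show (if 1 / 2 ≤ ‖(y : Fin (k + 1) → ℝ)‖ then _ else p₀) = p₀
        split_ifs with h
        · have e : T y = 1 := by
            show Set.projIcc 0 1 zero_le_one (2 * (1 - ‖(y : Fin (k + 1) → ℝ)‖)) = 1
            rw [Set.projIcc_of_right_le _ (by linarith)]
            rfl
          rw [e]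
          exact H.apply_one _
        · rfl
      | some none =>
        refine ContinuousOn.congr (f := fun y => H (T y, τ (q (nr y)).2)) ?_ fun y hy => ?_
        · exact (H.continuous.comp (hT.prodMk (τ.continuous.comp
            (continuous_snd.comp hqc)))).continuousOn
        · show (if 1 / 2 ≤ ‖(y : Fin (k + 1) → ℝ)‖ then _ else p₀) = _
          have hy1 : 1 / 2 ≤ ‖(y : Fin (k + 1) → ℝ)‖ := hy.1
          rw [if_pos hy1, bmap_zero _ _ _ _ _ hy.2]
      | some (some none) =>
        refine ContinuousOn.congr (f := fun y => H (T y, η (q (nr y)).2)) ?_ fun y hy => ?_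
        · exact (H.continuous.comp (hT.prodMk (η.continuous.comp
            (continuous_snd.comp hqc)))).continuousOn
        · show (if 1 / 2 ≤ ‖(y : Fin (k + 1) → ℝ)‖ then _ else p₀) = _
          have hy1 : 1 / 2 ≤ ‖(y : Fin (k + 1) → ℝ)‖ := hy.1
          rw [if_pos hy1, bmap_one _ _ _ _ _ hy.2]
      | some (some (some i)) =>
        rw [continuousOn_iff_continuous_domRestrict]
        have : (C (some (some (some i)))).domRestrict F =
            fun y : C (some (some (some i))) =>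
              H (T y, G i ((q (nr y)).1, drop i (q (nr y)).2 y.2.2)) := by
          funext y
          show (if 1 / 2 ≤ ‖((y : Dk (k + 1)) : Fin (k + 1) → ℝ)‖ then _ else p₀) = _
          have hy1 : 1 / 2 ≤ ‖((y : Dk (k + 1)) : Fin (k + 1) → ℝ)‖ := y.2.1
          rw [if_pos hy1, bmap_face _ _ _ _ h0 h1 hm _ i y.2.2]
        rw [this]
        refine H.continuous.comp ((hT.comp continuous_subtype_val).prodMk
          ((G i).continuous.comp ((continuous_fst.comp (hqc.comp
            continuous_subtype_val)).prodMk ?_)))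
        refine Continuous.subtype_mk (continuous_pi fun j => ?_) _
        exact (hcrd _).comp continuous_subtype_val
  have key : ∀ z : I × Dl (k + 1), (z.1 = 0 ∨ z.1 = 1 ∨ ∃ i, z.2 i = 0) →
      F (q.symm z) = bmap p₀ τ η G z := by
    intro z hz
    have hn : ‖((q.symm z : Dk (k + 1)) : Fin (k + 1) → ℝ)‖ = 1 := by
      rw [hq, q.apply_symm_apply]; exact hz
    have e1 : nr (q.symm z) = q.symm z := by
      refine Subtype.ext ?_
      show ((clp (k + 1) _ : Dk (k + 1)) : Fin (k + 1) → ℝ) = _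
      rw [hn, max_eq_left (by norm_num), inv_one, one_smul, clp_val hn.le]
    have e2 : T (q.symm z) = 0 := by
      show Set.projIcc 0 1 zero_le_one (2 * (1 - ‖((q.symm z : Dk (k + 1)) :
        Fin (k + 1) → ℝ)‖)) = 0
      rw [hn, Set.projIcc_of_le_left _ (by norm_num)]
      rfl
    show (if 1 / 2 ≤ ‖((q.symm z : Dk (k + 1)) : Fin (k + 1) → ℝ)‖ then _ else p₀) = _
    rw [if_pos (by rw [hn]; norm_num), e1, e2, q.apply_symm_apply]
    exact H.apply_zero _
  refine ⟨⟨fun z => F (q.symm z), hF.comp q.symm.continuous⟩, fun x => ?_, fun x => ?_,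
    fun i t x => ?_⟩
  · show F (q.symm (0, x)) = τ x
    rw [key _ (Or.inl rfl), bmap_zero _ _ _ _ _ rfl]
  · show F (q.symm (1, x)) = η x
    rw [key _ (Or.inr (Or.inl rfl)), bmap_one _ _ _ _ _ rfl]
  · show F (q.symm (t, face k i x)) = G i (t, x)
    rw [key _ (Or.inr (Or.inr ⟨i, face_self k i x⟩)),
      bmap_face _ _ _ _ h0 h1 hm _ i (face_self k i x)]
    exact hm _ _ _ _ (face_drop _ _ _) _

end

/-- the path `ω` followed by the path `g`, run through with speed `1 + t` -/
theorem P5 {B : Type} [TopologicalSpace B] (b : B) (A : Set B) (k : ℕ) (hB : PathConnectedSpace B)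
    (hf : ∀ f : Fin (k + 1) → C(Dl k, PP b), (∀ i x, ev b (f i x) ∈ A) →
      (∀ i j x y, face k i x = face k j y → f i x = f j y) →
      ∃ h : C(Dl (k + 1), PP b), (∀ i x, h (face k i x) = f i x) ∧ ∀ x, ev b (h x) ∈ A) :
    LftS A k := by
  intro s G hG0 hGm hG1
  obtain ⟨τ, hτ⟩ := P2 hB b k s
  have hτ' : ∀ x, (τ x).1 1 = s x := fun x => DFunLike.congr_fun hτ x
  -- the lifted homotopies
  let L : Fin (k + 1) → C((I × Dl k) × I, B) := fun i =>
    ⟨fun z => if (1 + (z.1.1 : ℝ)) * z.2 ≤ 1 then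
        (τ (face k i z.1.2)).1 (Set.projIcc 0 1 zero_le_one ((1 + (z.1.1 : ℝ)) * z.2))
      else G i (Set.projIcc 0 1 zero_le_one ((1 + (z.1.1 : ℝ)) * z.2 - 1), z.1.2), by
      have hc : Continuous fun z : (I × Dl k) × I => (1 + (z.1.1 : ℝ)) * (z.2 : ℝ) := by fun_prop
      refine Continuous.if_le ?_ ?_ hc continuous_const fun z hz => ?_
      · have hc2 : Continuous fun z : (I × Dl k) × I => ((τ (face k i z.1.2)).1,
            (Set.projIcc 0 1 zero_le_one ((1 + (z.1.1 : ℝ)) * z.2) : I)) := by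
          refine Continuous.prodMk ?_ (continuous_projIcc.comp hc)
          exact continuous_subtype_val.comp (τ.continuous.comp ((face k i).continuous.comp
            (continuous_snd.comp continuous_fst)))
        exact ContinuousEval.continuous_eval.comp hc2
      · refine (G i).continuous.comp (Continuous.prodMk ?_ (continuous_snd.comp continuous_fst))
        exact continuous_projIcc.comp (hc.sub continuous_const)
      · rw [hz, Set.projIcc_of_right_le _ le_rfl, Set.projIcc_of_le_left _ (by norm_num)]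
        rw [show (⟨0, left_mem_Icc.2 zero_le_one⟩ : I) = 0 from rfl, hG0]
        exact hτ' _⟩
  have hL0 : ∀ i z, L i (z, 0) = b := fun i z => by
    show (if (1 + (z.1 : ℝ)) * ((0 : I) : ℝ) ≤ 1 then _ else _) = b
    rw [if_pos (by simp)]
    have : (Set.projIcc 0 1 zero_le_one ((1 + (z.1 : ℝ)) * ((0 : I) : ℝ)) : I) = 0 := by simp
    rw [this]
    exact (τ _).2
  have hL1 : ∀ i (z : I × Dl k), L i (z, 1) = G i z := fun i z => by
    show (if (1 + (z.1 : ℝ)) * ((1 : I) : ℝ) ≤ 1 then _ else _) = G i z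
    have e : (1 + (z.1 : ℝ)) * ((1 : I) : ℝ) = 1 + (z.1 : ℝ) := by simp
    rw [e]
    split_ifs with h
    · have hz : z.1 = 0 := Subtype.ext (le_antisymm (by show (z.1 : ℝ) ≤ 0; linarith) z.1.2.1)
      have e2 : (Set.projIcc 0 1 zero_le_one (1 + (z.1 : ℝ)) : I) = 1 := by
        rw [hz, Set.projIcc_of_right_le _ (by simp)]; rfl
      rw [e2, hτ']
      have : z = (0, z.2) := Prod.ext hz rfl
      conv_rhs => rw [this]
      exact (hG0 _ _).symm
    · have e2 : (Set.projIcc 0 1 zero_le_one (1 + (z.1 : ℝ) - 1) : I) = z.1 := by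
        rw [add_sub_cancel_left, Set.projIcc_of_mem _ z.1.2]
      rw [e2]
  have hL2 : ∀ i x t, L i ((0, x), t) = (τ (face k i x)).1 t := fun i x t => by
    show (if (1 + ((0 : I) : ℝ)) * (t : ℝ) ≤ 1 then _ else _) = _
    have e : (1 + ((0 : I) : ℝ)) * (t : ℝ) = t := by simp
    rw [e, if_pos t.2.2, Set.projIcc_of_mem _ t.2]
  have hLm : ∀ i j x y, face k i x = face k j y → ∀ t r, L i ((t, x), r) = L j ((t, y), r) := by
    intro i j x y hxy t r
    show (if (1 + (t : ℝ)) * (r : ℝ) ≤ 1 then _ else _) =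
      (if (1 + (t : ℝ)) * (r : ℝ) ≤ 1 then _ else _)
    split_ifs with h
    · simp only [hxy]
    · exact hGm i j x y hxy _
  let Gt : Fin (k + 1) → Hm k (PP b) := fun i => mk (L i) (hL0 i)
  have hGLm : ∀ i j x y, face k i x = face k j y → ∀ t, Gt i (t, x) = Gt j (t, y) :=
    fun i j x y hxy t => Subtype.ext (ContinuousMap.ext fun r => hLm i j x y hxy t r)
  obtain ⟨h, hh1, hh2⟩ := hf (fun i => (Gt i).comp ⟨fun x => (1, x), by fun_prop⟩)
    (fun i x => by
      show L i ((1, x), 1) ∈ A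
      rw [hL1]; exact hG1 i x)
    (fun i j x y hxy => hGLm i j x y hxy 1)
  have := P1 b
  obtain ⟨K, hK0, hK1, hKf⟩ := prism_ext τ h Gt
    (fun i x => Subtype.ext (ContinuousMap.ext fun t => hL2 i x t))
    (fun i x => (hh1 i x).symm) hGLm
  refine ⟨(ev b).comp K, fun x => ?_, fun i t x => ?_, fun x => ?_⟩
  · show ev b (K (0, x)) = s x
    rw [hK0]; exact hτ' x
  · show ev b (K (t, face k i x)) = G i (t, x)
    rw [hKf]
    exact hL1 i (t, x)
  · show ev b (K (1, x)) ∈ A
    rw [hK1]; exact hh2 x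

end Vale.Agent.P246.T.PS5
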