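import Mathlib.Analysis.SpecialFunctions.Complex.Arg
import Mathlib.Analysis.SpecialFunctions.Trigonometric.Angle
import Vale.Agent.P246.T.PS5

/-! # Block RH, part 1: low dimensions, and the extension of maps from the boundary of the square to
a simply connected space -/

namespace Vale.Agent.P246.T.RH

open Topology Metric Set CV PS1 PS5

/-! ## The square -/

/-- the vector with the angle `2πx` -/
noncomputable def vec (x : ℝ) : Fin 2 → ℝ :=
  ![Real.cos (2 * Real.pi * x), Real.sin (2 * Real.pi * x)]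

theorem continuous_vec : Continuous vec := by
  refine continuous_pi fun i => ?_
  fin_cases i
  · show Continuous fun x : ℝ => Real.cos (2 * Real.pi * x)
    fun_prop
  · show Continuous fun x : ℝ => Real.sin (2 * Real.pi * x)
    fun_prop

theorem vec_pos (x : ℝ) : 0 < ‖vec x‖ := by
  rw [norm_pos_iff]
  intro h
  have h0 : Real.cos (2 * Real.pi * x) = 0 := congrFun h 0
  have h1 : Real.sin (2 * Real.pi * x) = 0 := congrFun h 1
  have h2 := Real.sin_sq_add_cos_sq (2 * Real.pi * x)
  rw [h0, h1] at h2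
  norm_num at h2

theorem vec_inj {x y c : ℝ} (hc : 0 < c) (h : vec x = c • vec y) :
    ∃ n : ℤ, x = y + n := by
  have h0 : Real.cos (2 * Real.pi * x) = c * Real.cos (2 * Real.pi * y) := congrFun h 0
  have h1 : Real.sin (2 * Real.pi * x) = c * Real.sin (2 * Real.pi * y) := congrFun h 1
  have hx := Real.sin_sq_add_cos_sq (2 * Real.pi * x)
  have hy := Real.sin_sq_add_cos_sq (2 * Real.pi * y)
  have hc1 : c = 1 := by
    rw [h0, h1] at hx
    have : c ^ 2 = 1 := by nlinarith
    nlinarith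
  rw [hc1, one_mul] at h0 h1
  obtain ⟨k, hk⟩ := Real.Angle.angle_eq_iff_two_pi_dvd_sub.1 (Real.Angle.cos_sin_inj h0 h1)
  refine ⟨k, ?_⟩
  have h3 : 2 * Real.pi * (x - (y + k)) = 0 := by linear_combination hk
  have h4 : x - (y + k) = 0 := by
    rcases mul_eq_zero.1 h3 with h | h
    · exact absurd h (by positivity)
    · exact h
  linarith

theorem exists_vec {z : Fin 2 → ℝ} (hz : z ≠ 0) : ∃ x : I, ∃ c : ℝ, 0 < c ∧ z = c • vec x := by
  set w : ℂ := ⟨z 0, z 1⟩ with hw
  have hw0 : w ≠ 0 := by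
    intro h
    apply hz
    have h1 : z 0 = 0 := congrArg Complex.re h
    have h2 : z 1 = 0 := congrArg Complex.im h
    funext i
    fin_cases i
    · exact h1
    · exact h2
  set θ := Complex.arg w
  have hf := Int.fract_nonneg (θ / (2 * Real.pi))
  have hf' := (Int.fract_lt_one (θ / (2 * Real.pi))).le
  have e : 2 * Real.pi * Int.fract (θ / (2 * Real.pi)) =
      θ - ⌊θ / (2 * Real.pi)⌋ * (2 * Real.pi) := by
    rw [Int.fract]
    have := Real.pi_pos
    field_simp
  refine ⟨⟨Int.fract (θ / (2 * Real.pi)), hf, hf'⟩, ‖w‖, norm_pos_iff.2 hw0, ?_⟩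
  funext i
  fin_cases i
  · show z 0 = ‖w‖ * Real.cos (2 * Real.pi * Int.fract (θ / (2 * Real.pi)))
    rw [e, Real.cos_sub_int_mul_two_pi, Complex.norm_mul_cos_arg]
  · show z 1 = ‖w‖ * Real.sin (2 * Real.pi * Int.fract (θ / (2 * Real.pi)))
    rw [e, Real.sin_sub_int_mul_two_pi, Complex.norm_mul_sin_arg]

/-- polar coordinates of the square -/
noncomputable def pol (z : I × I) : Fin 2 → ℝ := (1 - (z.1 : ℝ)) • ‖vec z.2‖⁻¹ • vec z.2

theorem continuous_pol : Continuous pol := by
  have h : Continuous fun z : I × I => vec z.2 :=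
    continuous_vec.comp (continuous_subtype_val.comp continuous_snd)
  exact (continuous_const.sub (continuous_subtype_val.comp continuous_fst)).smul
    ((h.norm.inv₀ fun z => (vec_pos _).ne').smul h)

theorem norm_pol (z : I × I) : ‖pol z‖ = 1 - (z.1 : ℝ) := by
  rw [pol, norm_smul, norm_smul, norm_inv, norm_norm, inv_mul_cancel₀ (vec_pos _).ne', mul_one,
    Real.norm_of_nonneg (by linarith [z.1.2.2])]

theorem pol_mem (z : I × I) : pol z ∈ closedBall (0 : Fin 2 → ℝ) 1 := by
  rw [mem_closedBall_zero_iff, norm_pol]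
  linarith [z.1.2.1]

/-- polar coordinates of the square -/
noncomputable def polq : C(I × I, Dk 2) :=
  ⟨fun z => ⟨pol z, pol_mem z⟩, continuous_pol.subtype_mk pol_mem⟩

theorem polq_surj : Function.Surjective polq := by
  intro y
  have hy := dk_le y
  by_cases h : (y : Fin 2 → ℝ) = 0
  · refine ⟨(1, 0), Subtype.ext ?_⟩
    show (1 - ((1 : I) : ℝ)) • ‖vec ((0 : I) : ℝ)‖⁻¹ • vec ((0 : I) : ℝ) = (y : Fin 2 → ℝ)
    rw [h, Set.Icc.coe_one, sub_self, zero_smul]
  · obtain ⟨x, c, hc, hx⟩ := exists_vec h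
    refine ⟨(⟨1 - ‖(y : Fin 2 → ℝ)‖, by linarith, by linarith [norm_nonneg (y : Fin 2 → ℝ)]⟩, x),
      Subtype.ext ?_⟩
    show (1 - (1 - ‖(y : Fin 2 → ℝ)‖)) • ‖vec x‖⁻¹ • vec x = (y : Fin 2 → ℝ)
    rw [sub_sub_cancel, smul_smul]
    have : ‖(y : Fin 2 → ℝ)‖ = c * ‖vec x‖ := by
      rw [hx, norm_smul, Real.norm_of_nonneg hc.le]
    rw [this, mul_assoc, mul_inv_cancel₀ (vec_pos _).ne', mul_one]
    exact hx.symm

theorem polq_eq {z z' : I × I} (h : polq z = polq z') :
    z = z' ∨ (z.1 = 1 ∧ z'.1 = 1) ∨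
      (z.1 = z'.1 ∧ ((z.2 = 0 ∧ z'.2 = 1) ∨ (z.2 = 1 ∧ z'.2 = 0))) := by
  have h' : pol z = pol z' := congrArg Subtype.val h
  have h1 : z.1 = z'.1 := by
    have := congrArg norm h'
    rw [norm_pol, norm_pol] at this
    exact Subtype.ext (by linarith)
  by_cases h2 : z.1 = 1
  · exact Or.inr (Or.inl ⟨h2, h1 ▸ h2⟩)
  have h3 : 0 < 1 - (z.1 : ℝ) := by
    rcases lt_or_eq_of_le z.1.2.2 with h | h
    · linarith
    · exact absurd (Subtype.ext h) h2
  have h4 : ‖vec z.2‖⁻¹ • vec z.2 = ‖vec z'.2‖⁻¹ • vec z'.2 := by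
    rw [pol, pol, ← h1] at h'
    exact smul_right_injective _ h3.ne' h'
  have h5 : vec z.2 = (‖vec z.2‖ * ‖vec z'.2‖⁻¹) • vec z'.2 := by
    rw [mul_smul, ← h4, smul_smul, mul_inv_cancel₀ (vec_pos _).ne', one_smul]
  obtain ⟨n, hn⟩ := vec_inj (mul_pos (vec_pos _) (inv_pos.2 (vec_pos _))) h5
  have a1 := z.2.2.1
  have a2 := z.2.2.2
  have a3 := z'.2.2.1
  have a4 := z'.2.2.2
  have b1 : -1 ≤ n := by
    have : (-1 : ℝ) ≤ n := by linarith
    exact_mod_cast this
  have b2 : n ≤ 1 := by
    have : (n : ℝ) ≤ 1 := by linarith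
    exact_mod_cast this
  obtain rfl | rfl | rfl : n = -1 ∨ n = 0 ∨ n = 1 := by omega
  · refine Or.inr (Or.inr ⟨h1, Or.inl ⟨Subtype.ext ?_, Subtype.ext ?_⟩⟩)
    · show (z.2 : ℝ) = 0
      push_cast at hn; linarith
    · show (z'.2 : ℝ) = 1
      push_cast at hn; linarith
  · left
    refine Prod.ext h1 (Subtype.ext ?_)
    push_cast at hn; linarith
  · refine Or.inr (Or.inr ⟨h1, Or.inr ⟨Subtype.ext ?_, Subtype.ext ?_⟩⟩)
    · show (z.2 : ℝ) = 1
      push_cast at hn; linarith
    · show (z'.2 : ℝ) = 0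
      push_cast at hn; linarith

/-- maps from the boundary of the square to a simply connected space extend to the square -/
theorem fill (B : Type) [TopologicalSpace B] [SimplyConnectedSpace B] (f : C(bdk 2, B)) :
    ∃ F : C(Dk 2, B), ∀ x : bdk 2, F x = f x := by
  have hu : ∀ x : I, polq (0, x) ∈ bdk 2 := fun x => by
    show ‖pol (0, x)‖ = 1
    rw [norm_pol]
    simp
  have hu1 : polq (0, 1) = polq (0, 0) := by
    refine Subtype.ext ?_
    show (1 - ((0 : I) : ℝ)) • ‖vec ((1 : I) : ℝ)‖⁻¹ • vec ((1 : I) : ℝ) =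
      (1 - ((0 : I) : ℝ)) • ‖vec ((0 : I) : ℝ)‖⁻¹ • vec ((0 : I) : ℝ)
    have : vec ((1 : I) : ℝ) = vec ((0 : I) : ℝ) := by
      rw [Set.Icc.coe_one, Set.Icc.coe_zero, vec, vec]
      simp
    rw [this]
  let b : B := f ⟨polq (0, 0), hu 0⟩
  let γ : Path b b :=
    { toFun := fun x => f ⟨polq (0, x), hu x⟩
      continuous_toFun := f.continuous.comp
        ((polq.continuous.comp (continuous_const.prodMk continuous_id)).subtype_mk _)
      source' := rfl
      target' := congrArg f (Subtype.ext hu1) }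
  obtain ⟨H⟩ : γ.Homotopic (Path.refl b) := SimplyConnectedSpace.paths_homotopic _ _
  let Hc : C(I × I, B) := ⟨fun z => H z, H.continuous⟩
  have hq : IsQuotientMap polq :=
    (polq.continuous.isClosedMap).isQuotientMap polq.continuous polq_surj
  have hfac : Function.FactorsThrough Hc polq := by
    intro z z' h
    show H z = H z'
    rcases polq_eq h with h | ⟨h1, h2⟩ | ⟨h1, ⟨h2, h3⟩ | ⟨h2, h3⟩⟩
    · rw [h]
    · obtain ⟨a, c⟩ := z
      obtain ⟨a', c'⟩ := z'
      obtain rfl : a = 1 := h1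
      obtain rfl : a' = 1 := h2
      rw [H.apply_one, H.apply_one]
      rfl
    · obtain ⟨a, c⟩ := z
      obtain ⟨a', c'⟩ := z'
      obtain rfl : a = a' := h1
      obtain rfl : c = 0 := h2
      obtain rfl : c' = 1 := h3
      rw [H.source, H.target]
    · obtain ⟨a, c⟩ := z
      obtain ⟨a', c'⟩ := z'
      obtain rfl : a = a' := h1
      obtain rfl : c = 1 := h2
      obtain rfl : c' = 0 := h3
      rw [H.source, H.target]
  refine ⟨hq.lift Hc hfac, ?_⟩
  rintro ⟨x, hx⟩
  obtain ⟨⟨t, y⟩, rfl⟩ := polq_surj x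
  have ht : t = 0 := by
    have h : ‖pol (t, y)‖ = 1 := hx
    rw [norm_pol] at h
    exact Subtype.ext (by show (t : ℝ) = 0; linarith)
  subst ht
  have h1 : hq.lift Hc hfac (polq (0, y)) = Hc (0, y) :=
    DFunLike.congr_fun (hq.lift_comp Hc hfac) (0, y)
  show hq.lift Hc hfac (polq (0, y)) = _
  rw [h1]
  exact H.apply_zero y

/-! ## Prisms -/

/-- extension of maps from the boundary of a prism, from the extension for cubes -/
theorem prism_fill {P : Type} [TopologicalSpace P] [Nonempty P] (k : ℕ)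
    (hP : ∀ f : C(bdk (k + 1), P), ∃ F : C(Dk (k + 1), P), ∀ x : bdk (k + 1), F x = f x)
    (τ η : C(Dl (k + 1), P)) (G : Fin (k + 1) → Hm k P)
    (h0 : ∀ i x, G i (0, x) = τ (face k i x)) (h1 : ∀ i x, G i (1, x) = η (face k i x))
    (hm : ∀ i j x y, face k i x = face k j y → ∀ t, G i (t, x) = G j (t, y)) :
    ∃ K : Hm (k + 1) P, (∀ x, K (0, x) = τ x) ∧ (∀ x, K (1, x) = η x) ∧
      ∀ i t x, K (t, face k i x) = G i (t, x) := by
  obtain ⟨p₀⟩ := ‹Nonempty P›
  obtain ⟨q, hq⟩ := prismBall k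
  let f : bdk (k + 1) → P := fun y => bmap p₀ τ η G (q y)
  let C : Option (Option (Fin (k + 1))) → Set (bdk (k + 1)) := fun o =>
    match o with
    | none => {y | (q y).1 = 0}
    | some none => {y | (q y).1 = 1}
    | some (some i) => {y | (q y).2 i = 0}
  have hqc : Continuous fun y : bdk (k + 1) => q y := q.continuous.comp continuous_subtype_val
  have hcrd : ∀ i : Fin (k + 1), Continuous fun y : bdk (k + 1) => (q y).2 i := fun i =>
    (continuous_apply i).comp (continuous_subtype_val.comp (continuous_snd.comp hqc))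
  have hf : Continuous f := by
    refine LocallyFinite.continuous (f := C) (locallyFinite_of_finite _) ?_ ?_ ?_
    · refine eq_univ_of_forall fun y => mem_iUnion.2 ?_
      rcases (hq _).1 y.2 with h' | h' | ⟨i, h'⟩
      · exact ⟨none, h'⟩
      · exact ⟨some none, h'⟩
      · exact ⟨some (some i), h'⟩
    · intro o
      match o with
      | none => exact isClosed_eq (continuous_fst.comp hqc) continuous_const
      | some none => exact isClosed_eq (continuous_fst.comp hqc) continuous_const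
      | some (some i) => exact isClosed_eq (hcrd i) continuous_const
    · intro o
      match o with
      | none =>
        refine ContinuousOn.congr (f := fun y : bdk (k + 1) => τ (q y).2) ?_ fun y hy => ?_
        · exact (τ.continuous.comp (continuous_snd.comp hqc)).continuousOn
        · exact bmap_zero _ _ _ _ _ hy
      | some none =>
        refine ContinuousOn.congr (f := fun y : bdk (k + 1) => η (q y).2) ?_ fun y hy => ?_
        · exact (η.continuous.comp (continuous_snd.comp hqc)).continuousOn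
        · exact bmap_one _ _ _ _ _ hy
      | some (some i) =>
        rw [continuousOn_iff_continuous_domRestrict]
        have : (C (some (some i))).domRestrict f =
            fun y : C (some (some i)) => G i ((q y.1).1, drop i (q y.1).2 y.2) := by
          funext y
          exact bmap_face _ _ _ _ h0 h1 hm _ i y.2
        rw [this]
        refine (G i).continuous.comp ((continuous_fst.comp (hqc.comp
            continuous_subtype_val)).prodMk ?_)
        refine Continuous.subtype_mk (continuous_pi fun j => ?_) _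
        exact (hcrd _).comp continuous_subtype_val
  obtain ⟨F, hF⟩ := hP ⟨f, hf⟩
  have key : ∀ z : I × Dl (k + 1), (z.1 = 0 ∨ z.1 = 1 ∨ ∃ i, z.2 i = 0) →
      F (q.symm z) = bmap p₀ τ η G z := by
    intro z hz
    have hn : q.symm z ∈ bdk (k + 1) := by
      show ‖((q.symm z : Dk (k + 1)) : Fin (k + 1) → ℝ)‖ = 1
      rw [hq, q.apply_symm_apply]; exact hz
    have h1 : F (q.symm z) = bmap p₀ τ η G (q (q.symm z)) := hF ⟨_, hn⟩
    rw [h1, q.apply_symm_apply]
  refine ⟨⟨fun z => F (q.symm z), F.continuous.comp q.symm.continuous⟩, fun x => ?_, fun x => ?_,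
    fun i t x => ?_⟩
  · show F (q.symm (0, x)) = τ x
    rw [key _ (Or.inl rfl), bmap_zero _ _ _ _ _ rfl]
  · show F (q.symm (1, x)) = η x
    rw [key _ (Or.inr (Or.inl rfl)), bmap_one _ _ _ _ _ rfl]
  · show F (q.symm (t, face k i x)) = G i (t, x)
    rw [key _ (Or.inr (Or.inr ⟨i, face_self k i x⟩)),
      bmap_face _ _ _ _ h0 h1 hm _ i (face_self k i x)]
    exact hm _ _ _ _ (face_drop _ _ _) _

/-! ## Low dimensions -/

theorem dl1_eq (x y : Dl 1) : x = y := by
  refine Subtype.ext (funext fun i => ?_)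
  have hx : ∑ m, x m = 1 := x.2.2
  have hy : ∑ m, y m = 1 := y.2.2
  rw [Fin.sum_univ_one] at hx hy
  obtain rfl : i = 0 := Subsingleton.elim _ _
  exact hx.trans hy.symm

/-- the second coordinate -/
def cr1 : C(Dl 2, I) :=
  ⟨fun t => ⟨t 1, t.2.1 1, stdSimplex.le_one t 1⟩,
    ((continuous_apply 1).comp continuous_subtype_val).subtype_mk _⟩

theorem lft0 {B : Type} [TopologicalSpace B] [PathConnectedSpace B] {A : Set B}
    (hA : A.Nonempty) : LftS A 0 := by
  intro s G _ _ _
  obtain ⟨a, ha⟩ := hA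
  have x0 : Dl 1 := Classical.arbitrary _
  let γ : Path (s x0) a := PathConnectedSpace.somePath _ _
  refine ⟨⟨fun z => γ z.1, γ.continuous.comp continuous_fst⟩, fun x => ?_, fun i t x => ?_,
    fun x => ?_⟩
  · show γ 0 = s x
    rw [γ.source, dl1_eq x0 x]
  · exact absurd x.2.2 (by simp)
  · show γ 1 ∈ A
    rw [γ.target]
    exact ha

theorem lft1 {B : Type} [TopologicalSpace B] [SimplyConnectedSpace B] {A : Set B}
    (hA : IsPathConnected A) : LftS A 1 := by
  intro s G h0 hm h1
  have x0 : Dl 1 := Classical.arbitrary _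
  obtain ⟨δ, hδ⟩ : ∃ δ : Path (G 1 (1, x0)) (G 0 (1, x0)), ∀ t, δ t ∈ A :=
    hA.joinedIn _ (h1 1 x0) _ (h1 0 x0)
  have : Nonempty B := ⟨δ 0⟩
  obtain ⟨K, hK0, hK1, hKf⟩ := prism_fill 1 (fill B) s (δ.toContinuousMap.comp (cr1)) G h0
    (fun i x => by
      rw [dl1_eq x x0]
      show _ = δ (cr1 (face 1 i x0))
      have e : ∑ m, x0 m = 1 := x0.2.2
      rw [Fin.sum_univ_one] at e
      fin_cases i
      · have : cr1 (face 1 0 x0) = 1 := by
          refine Subtype.ext ?_
          show face 1 0 x0 1 = 1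
          exact (face_succAbove 1 0 x0 0).trans e
        show G 0 (1, x0) = δ (cr1 (face 1 0 x0))
        rw [this, δ.target]
      · have : cr1 (face 1 1 x0) = 0 := by
          refine Subtype.ext ?_
          show face 1 1 x0 1 = 0
          exact face_self 1 1 x0
        show G 1 (1, x0) = δ (cr1 (face 1 1 x0))
        rw [this, δ.source]) hm
  exact ⟨K, hK0, hKf, fun x => by rw [hK1]; exact hδ _⟩

end Vale.Agent.P246.T.RH
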