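import Vale.Agent.P246.T.RHa

/-! # P246, topological version: two lemmas for the relative Hurewicz theorem -/

namespace Vale.Agent.P246.T.RH

open Topology Metric Set

theorem cyc_bound (P : Type) [TopologicalSpace P] [ContractibleSpace P] (F : Set P) (n : ℕ)
    (h : HZero univ F (n + 2)) (c : Ch (n + 1) P) (hc : c ∈ Con F (n + 1)) (hb : bd n c = 0) :
    ∃ b ∈ Con F (n + 2), bd (n + 1) b = c := by
  obtain ⟨b0, h0⟩ := PR.exists_bd n c hb
  obtain ⟨a, -, ha⟩ := h b0 (PR.Con_univ b0) (by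
    change bd (n + 1) b0 ∈ Con F (n + 1)
    rw [h0]; exact hc)
  exact ⟨_, ha, by rw [map_sub, SD.bd_bd, sub_zero, h0]⟩

theorem hzero_pt (F : Type) [TopologicalSpace F] [PathConnectedSpace F] (f0 : F) (n : ℕ)
    (h : ∀ k < n, ∀ c : Ch (k + 1) F, bd k c = 0 → ∃ b, bd (k + 1) b = c) :
    ∀ k ≤ n, HZero univ {f0} k := by
  intro k hk c _ hc
  cases k with
  | zero =>
    obtain ⟨b, hb⟩ := PR.zero_chain f0 c
    refine ⟨b, PR.Con_univ b, ?_⟩
    rw [hb, sub_sub_cancel]
    exact Submodule.smul_mem _ _ (PR.single_mem (fun _ => rfl) 1)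
  | succ k =>
    have hc' : bd k c ∈ Con {f0} k := hc
    obtain ⟨b1, hb1, h1⟩ : ∃ b1 ∈ Con {f0} (k + 1), bd k b1 = bd k c := by
      cases k with
      | zero => exact (PR.acyc_singleton f0).zero _ hc' (PR.wt_bd_zero c)
      | succ k => exact (PR.acyc_singleton f0).succ k _ hc' (SD.bd_bd k c)
    obtain ⟨b2, h2⟩ := h k (by omega) (c - b1) (by rw [map_sub, h1, sub_self])
    refine ⟨b2, PR.Con_univ b2, ?_⟩
    rw [h2, sub_sub_cancel]
    exact hb1

theorem cyc : SCyc := fun P _ _ F n h c hc hb => cyc_bound P F n h c hc hb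

theorem pt : SPt := fun F _ _ f0 n h => hzero_pt F f0 n h

end Vale.Agent.P246.T.RH
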