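import Vale.Agent.P246.T.Sys

/-! # P246, topological version: maps on the boundary of a simplex extend if the homotopy groups
vanish -/

namespace Vale.Agent.P246.T.RH

open Topology Metric Set
open scoped unitInterval

/-- every compatible family of maps on the faces of a simplex extends to the simplex -/
theorem ext_of_lft (F : Type) [TopologicalSpace F] (f0 : F) (n : ℕ)
    (h : ∀ k ≤ n, LftS ({f0} : Set F) k) (f : Fin (n + 2) → C(Dl (n + 1), F))
    (hf : ∀ i j x y, face (n + 1) i x = face (n + 1) j y → f i x = f j y) :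
    ∃ g : C(Dl (n + 2), F), ∀ i x, g (face (n + 1) i x) = f i x := by
  obtain ⟨K, hK0, hKf, hK1⟩ := Sys.exists_system (X := F)
    (fun k _ K => k ≤ n → ∀ x, K (1, x) = f0)
    (by
      intro s
      obtain ⟨K, h0, -, h1⟩ := h 0 (Nat.zero_le n) s (fun i => ⟨fun q => isEmptyElim q.2, by
          refine continuous_iff_continuousAt.2 fun q => isEmptyElim q.2⟩)
        (fun i x => isEmptyElim x) (fun i j x => isEmptyElim x) (fun i x => isEmptyElim x)
      exact ⟨K, h0, fun _ x => h1 x⟩)
    (by
      intro k s G g0 gm gP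
      by_cases hk : k + 1 ≤ n
      · obtain ⟨K, h0, hf, h1⟩ := h (k + 1) hk s G g0
          (fun i j x y hxy t => gm i j x y hxy t)
          (fun i x => gP i (by omega) x)
        exact ⟨K, h0, fun i t y => hf i t y, fun _ x => h1 x⟩
      · obtain ⟨K, h0, hf⟩ := Sys.hep s G g0 gm
        exact ⟨K, h0, hf, fun h => absurd h hk⟩)
  -- the homotopies of the faces match
  have hmatch : ∀ i j x y, face (n + 1) i x = face (n + 1) j y →
      ∀ t, K n (f i) (t, x) = K n (f j) (t, y) := by
    intro i j x y hxy t
    refine Sys.matching (T := F) (fun i y => K n (f i) (t, y)) ?_ i j x y hxy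
    intro i j hij z
    cases n with
    | zero => exact isEmptyElim z
    | succ m =>
      show K (m + 1) (f i.castSucc) (t, face (m + 1) j z) = K (m + 1) (f j.succ) (t, face (m + 1) i z)
      rw [hKf, hKf]
      congr 2
      ext w
      exact hf _ _ _ _ (Sys.face_face i j hij w).symm
  obtain ⟨K', h0, h1⟩ := Sys.hep (k := n + 1) (ContinuousMap.const (Dl (n + 2)) f0)
    (fun i => ⟨fun q => K n (f i) (unitInterval.symm q.1, q.2), by fun_prop⟩)
    (fun i y => by
      show K n (f i) (unitInterval.symm 0, y) = f0
      rw [unitInterval.symm_zero]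
      exact hK1 n (f i) le_rfl y)
    (fun i j x y hxy t => hmatch i j x y hxy _)
  refine ⟨⟨fun x => K' (1, x), by fun_prop⟩, ?_⟩
  intro i x
  show K' (1, face (n + 1) i x) = f i x
  rw [h1]
  show K n (f i) (unitInterval.symm 1, x) = f i x
  rw [unitInterval.symm_one, hK0]

end Vale.Agent.P246.T.RH
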