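import Vale.Agent.P246.T.PR2

/-! # P246, topological version, block RH: the induction -/

namespace Vale.Agent.P246.T.RH

open Topology Metric Set PR

/-- part 1, degree 0 -/
def SLft0 : Prop := ∀ (B : Type) [TopologicalSpace B] [PathConnectedSpace B] (A : Set B),
  A.Nonempty → LftS A 0

/-- part 1, degree 1 -/
def SLft1 : Prop := ∀ (B : Type) [TopologicalSpace B] [SimplyConnectedSpace B] (A : Set B),
  IsPathConnected A → LftS A 1

/-- part 2, first half -/
def SCyc : Prop := ∀ (P : Type) [TopologicalSpace P] [ContractibleSpace P] (F : Set P) (n : ℕ),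
  HZero univ F (n + 2) → ∀ c : Ch (n + 1) P, c ∈ Con F (n + 1) → bd n c = 0 →
    ∃ b ∈ Con F (n + 2), bd (n + 1) b = c

/-- part 2, second half -/
def SPt : Prop := ∀ (F : Type) [TopologicalSpace F] [PathConnectedSpace F] (f0 : F) (n : ℕ),
  (∀ k < n, ∀ c : Ch (k + 1) F, bd k c = 0 → ∃ b, bd (k + 1) b = c) →
    ∀ k ≤ n, HZero univ ({f0} : Set F) k

/-- part 3 -/
def SExt : Prop := ∀ (F : Type) [TopologicalSpace F] (f0 : F) (n : ℕ),
  (∀ k ≤ n, LftS ({f0} : Set F) k) → ∀ f : Fin (n + 2) → C(Dl (n + 1), F),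
  (∀ i j x y, face (n + 1) i x = face (n + 1) j y → f i x = f j y) →
  ∃ g : C(Dl (n + 2), F), ∀ i x, g (face (n + 1) i x) = f i x

theorem step (hPS : SpecPath) (hLL : SpecLoop) (hBS : SpecBase) (h2a : SCyc) (h2b : SPt)
    (h3 : SExt) (n : ℕ)
    (ih : ∀ (B : Type) [TopologicalSpace B] [SimplyConnectedSpace B] (A : Set B)
      [SimplyConnectedSpace A], (∀ k ≤ n + 1, HZero univ A k) → ∀ k ≤ n + 1, LftS A k)
    (B : Type) [TopologicalSpace B] [SimplyConnectedSpace B] (A : Set B)
    [SimplyConnectedSpace A] (hz : ∀ k ≤ n + 2, HZero univ A k) : LftS A (n + 2) := by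
  have hlow : ∀ k ≤ n + 1, LftS A k := ih B A fun k hk => hz k (by omega)
  obtain ⟨⟨a, ha⟩⟩ : Nonempty A := inferInstance
  obtain ⟨hc, hlift, -, -, hP5⟩ := hPS B a
  set F : Set (PP a) := ev a ⁻¹' A with hF
  have hzF : ∀ j ≤ n + 2, HZero univ F j := fun j hj =>
    hLL B a A j (fun k hk => hlow k (by omega)) (hz j hj)
  have hcyc : ∀ k ≤ n, ∀ c : Ch (k + 1) (PP a), c ∈ Con F (k + 1) → bd k c = 0 →
      ∃ b ∈ Con F (k + 2), bd (k + 1) b = c := fun k hk =>
    h2a (PP a) F k (hzF (k + 2) (by omega))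
  have hsc : SimplyConnectedSpace F := hBS B A a ha (hcyc 0 (by omega))
  obtain ⟨f0⟩ : Nonempty F := inferInstance
  have hcycF : ∀ k < n + 1, ∀ c : Ch (k + 1) F, bd k c = 0 → ∃ b, bd (k + 1) b = c := by
    intro k hk c hc0
    obtain ⟨b, hb, hbc⟩ := hcyc k (by omega) (push (inc F) (k + 1) c) (push_inc_mem c) (by
      rw [push_bd, hc0, map_zero])
    obtain ⟨b', rfl⟩ := exists_push_inc hb
    refine ⟨b', push_inc_injective (k + 1) ?_⟩
    rw [← push_bd, hbc]
  have hpt := h2b F f0 (n + 1) hcycF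
  have : SimplyConnectedSpace ({f0} : Set F) := by
    have : Unique ({f0} : Set F) := Set.uniqueSingleton f0
    infer_instance
  have hlf := ih F {f0} hpt
  refine hP5 A (n + 2) inferInstance ?_
  intro f hfA hff
  obtain ⟨g, hg⟩ := h3 F f0 (n + 1) hlf
    (fun i => ⟨fun x => ⟨f i x, hfA i x⟩, (f i).continuous.subtype_mk _⟩)
    (fun i j x y hxy => Subtype.ext (hff i j x y hxy))
  refine ⟨(inc F).comp g, fun i x => ?_, fun x => (g x).2⟩
  rw [ContinuousMap.comp_apply, hg]
  rfl

theorem main_of (h10 : SLft0) (h11 : SLft1) (h2a : SCyc) (h2b : SPt) (h3 : SExt)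
    (hPS : SpecPath) (hLL : SpecLoop) (hBS : SpecBase) : SpecRH := by
  have key : ∀ n : ℕ, ∀ (B : Type) [TopologicalSpace B] [SimplyConnectedSpace B] (A : Set B)
      [SimplyConnectedSpace A], (∀ k ≤ n + 1, HZero univ A k) → ∀ k ≤ n + 1, LftS A k := by
    intro n
    induction n with
    | zero =>
      intro B _ _ A _ _ k hk
      have hA : IsPathConnected A := isPathConnected_iff_pathConnectedSpace.2 inferInstance
      rcases k with _ | _ | k
      · exact h10 B A hA.nonempty
      · exact h11 B A hA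
      · omega
    | succ n ih =>
      intro B _ _ A _ hz k hk
      rcases Nat.lt_or_ge k (n + 2) with h | h
      · exact ih B A (fun j hj => hz j (by omega)) k (by omega)
      · obtain rfl : k = n + 2 := by omega
        exact step hPS hLL hBS h2a h2b h3 n ih B A fun j hj => hz j (by omega)
  intro B _ _ A _ hz n
  exact key n B A (fun k _ => hz k) n (by omega)

end Vale.Agent.P246.T.RH
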