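import Vale.Agent.P246.T.Spec2
import Vale.Agent.P246.T.SD
import Vale.Agent.P246.T.PR

/-! # P246-T, block RV: two quasi-isomorphisms from the same complex -/

open Topology Set

namespace Vale.Agent.P246.T.RV

section Htpy

variable {M N : Type} [TopologicalSpace M] [TopologicalSpace N] {f₀ f₁ : C(M, N)}

/-- the homotopy of a simplex -/
def hs (H : ContinuousMap.Homotopy f₀ f₁) {k : ℕ} (σ : C(Dl k, M)) : Hm k N :=
  ⟨fun q => H (q.1, σ q.2), by fun_prop⟩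

/-- the chain homotopy of a homotopy -/
noncomputable def DD (P : PrismOp) (H : ContinuousMap.Homotopy f₀ f₁) (n : ℕ) :
    Ch n M →ₗ[ℤ] Ch (n + 1) N :=
  Finsupp.linearCombination ℤ fun σ : C(Dl (n + 1), M) => P.D N n (hs H σ)

theorem DD_single (P : PrismOp) (H : ContinuousMap.Homotopy f₀ f₁) (n : ℕ)
    (σ : C(Dl (n + 1), M)) (a : ℤ) :
    DD P H n (Finsupp.single σ a) = a • P.D N n (hs H σ) :=
  Finsupp.linearCombination_single ℤ a σ

theorem hs_at_zero (H : ContinuousMap.Homotopy f₀ f₁) {k : ℕ} (σ : C(Dl k, M)) :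
    (hs H σ).at 0 = f₀.comp σ := ContinuousMap.ext fun x => H.apply_zero (σ x)

theorem hs_at_one (H : ContinuousMap.Homotopy f₀ f₁) {k : ℕ} (σ : C(Dl k, M)) :
    (hs H σ).at 1 = f₁.comp σ := ContinuousMap.ext fun x => H.apply_one (σ x)

theorem hs_fc (H : ContinuousMap.Homotopy f₀ f₁) {k : ℕ} (σ : C(Dl (k + 1), M))
    (i : Fin (k + 1)) : (hs H σ).fc i = hs H (σ.comp (face k i)) := rfl

theorem bd_DD_zero (P : PrismOp) (H : ContinuousMap.Homotopy f₀ f₁) (c : Ch 0 M) :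
    bd 0 (DD P H 0 c) = push f₁ 0 c - push f₀ 0 c := by
  induction c using Finsupp.induction_linear with
  | zero => simp only [map_zero, sub_zero]
  | add a b ha hb => rw [map_add, map_add, ha, hb, map_add, map_add]; abel
  | single σ a =>
    rw [DD_single, map_smul, P.bd_zero, hs_at_zero, hs_at_one, push_single, push_single,
      smul_sub, Finsupp.smul_single, Finsupp.smul_single, smul_eq_mul, mul_one]

theorem bd_DD_succ (P : PrismOp) (H : ContinuousMap.Homotopy f₀ f₁) (n : ℕ) (c : Ch (n + 1) M) :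
    bd (n + 1) (DD P H (n + 1) c) =
      push f₁ (n + 1) c - push f₀ (n + 1) c - DD P H n (bd n c) := by
  induction c using Finsupp.induction_linear with
  | zero => simp only [map_zero, sub_zero]
  | add a b ha hb => simp only [map_add, ha, hb]; abel
  | single σ a =>
    rw [DD_single, map_smul, P.bd_succ, hs_at_zero, hs_at_one, push_single, push_single,
      smul_sub, smul_sub, Finsupp.smul_single, Finsupp.smul_single, smul_eq_mul, mul_one,
      bd_single, map_sum, Finset.smul_sum]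
    congr 1
    refine Finset.sum_congr rfl fun i _ => ?_
    rw [DD_single, hs_fc, smul_smul]

/-- homotopic maps agree on cycles up to boundaries -/
theorem homotopic_cyc (h : f₀.Homotopic f₁) (n : ℕ) (w : Ch n M) (hw : Cyc n w) :
    ∃ b : Ch (n + 1) N, push f₁ n w - push f₀ n w = bd n b := by
  obtain ⟨P⟩ := PR.main
  obtain ⟨H⟩ := h
  cases n with
  | zero => exact ⟨DD P H 0 w, (bd_DD_zero P H w).symm⟩
  | succ n =>
    refine ⟨DD P H (n + 1) w, ?_⟩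
    have h0 : bd n w = 0 := hw
    rw [bd_DD_succ, h0, map_zero, sub_zero]

/-- a map with a left homotopy inverse is injective on homology -/
theorem inj_of_homotopic {f : C(M, N)} {h : C(N, M)}
    (hf : (h.comp f).Homotopic (ContinuousMap.id M)) (n : ℕ) (w : Ch n M) (hw : Cyc n w)
    (z : Ch (n + 1) N) (hz : push f n w = bd n z) : ∃ b : Ch (n + 1) M, w = bd n b := by
  obtain ⟨b, hb⟩ := homotopic_cyc hf n w hw
  refine ⟨b + push h (n + 1) z, ?_⟩
  rw [push_id, push_comp, hz, ← push_bd] at hb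
  rw [map_add, ← hb]
  abel

end Htpy

section Alg

variable {G : Type} [Group G] {E F : Type} [TopologicalSpace E] [MulAction G E]
  [ContinuousConstSMul G E] [TopologicalSpace F] [MulAction G F] [ContinuousConstSMul G F]
  {f : C(F, E)} {Pr : FinPresentation G} {A : Set F}
  {ψ0 : ZG G →ₗ[ZG G] SC G 0 F} {ψ1 : (Fin Pr.gens → ZG G) →ₗ[ZG G] SC G 1 F}
  {ψ2 : (Fin Pr.rels → ZG G) →ₗ[ZG G] SC G 2 F} {ψ0' : ZG G →ₗ[ZG G] SC G 0 E}
  {ψ1' : (Fin Pr.gens → ZG G) →ₗ[ZG G] SC G 1 E} {ψ2' : (Fin Pr.rels → ZG G) →ₗ[ZG G] SC G 2 E}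

/-- a cycle of `A` which bounds in the whole space bounds in `A` -/
theorem inj_A (h : FoxQI Pr A ψ0 ψ1 ψ2) (h' : FoxQI Pr univ ψ0' ψ1' ψ2')
    (e0 : ∀ v, (ψ0' v).un = push f 0 (ψ0 v).un) (e1 : ∀ v, (ψ1' v).un = push f 1 (ψ1 v).un)
    (e2 : ∀ v, (ψ2' v).un = push f 2 (ψ2 v).un) (j : ℕ) (x : Ch j F) (hx : x ∈ Con A j)
    (c : Ch (j + 1) F) (hc : bd j c = x) : ∃ a ∈ Con A (j + 1), bd j a = x := by
  have hu : ∀ (k : ℕ) (y : Ch k E), y ∈ Con (univ : Set E) k := fun k y => by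
    rw [Con, Finsupp.mem_supported]
    exact fun σ _ x => trivial
  match j, x, hx, c, hc with
  | 0, x, hx, c, hc =>
    obtain ⟨v, y, hy, hxy⟩ := h.s0 x hx
    obtain ⟨u, rfl⟩ := h'.i0 v ⟨push f 1 c - push f 1 y, hu _ _, by
      rw [e0, map_sub, push_bd, push_bd, hc, hxy, map_add]; abel⟩
    refine ⟨(ψ1 u).un + y, Submodule.add_mem _ (h.m1 u) hy, ?_⟩
    rw [map_add, hxy, ← h.c1 u, SC.un_d]
  | 1, x, hx, c, hc =>
    obtain ⟨v, hv, y, hy, hxy⟩ := h.s1 x hx (by rw [← hc]; exact SD.bd_bd 0 c)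
    obtain ⟨u, rfl⟩ := h'.i1 v hv ⟨push f 2 c - push f 2 y, hu _ _, by
      rw [e1, map_sub, push_bd, push_bd, hc, hxy, map_add]; abel⟩
    refine ⟨(ψ2 u).un + y, Submodule.add_mem _ (h.m2 u) hy, ?_⟩
    rw [map_add, hxy, ← h.c2 u, SC.un_d]
  | 2, x, hx, c, hc =>
    obtain ⟨v, hv, y, hy, hxy⟩ := h.s2 x hx (by rw [← hc]; exact SD.bd_bd 1 c)
    have h0 := h'.i2 v hv ⟨push f 3 c - push f 3 y, hu _ _, by
      rw [e2, map_sub, push_bd, push_bd, hc, hxy, map_add]; abel⟩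
    subst h0
    refine ⟨y, hy, ?_⟩
    rw [hxy, map_zero, SC.un_zero, zero_add]
  | j + 3, x, hx, c, hc =>
    obtain ⟨y, hy, hxy⟩ := h.s3 j x hx (by rw [← hc]; exact SD.bd_bd (j + 2) c)
    exact ⟨y, hy, hxy.symm⟩

/-- every cycle is homologous to a cycle of `A` -/
theorem surj_A (hf : ∃ h : C(E, F), (h.comp f).Homotopic (ContinuousMap.id F))
    (h : FoxQI Pr A ψ0 ψ1 ψ2) (h' : FoxQI Pr univ ψ0' ψ1' ψ2')
    (e0 : ∀ v, (ψ0' v).un = push f 0 (ψ0 v).un) (e1 : ∀ v, (ψ1' v).un = push f 1 (ψ1 v).un)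
    (e2 : ∀ v, (ψ2' v).un = push f 2 (ψ2 v).un) (k : ℕ) (y : Ch k F) (hy : Cyc k y) :
    ∃ a ∈ Con A k, ∃ b : Ch (k + 1) F, y = a + bd k b := by
  obtain ⟨r, hr⟩ := hf
  have hu : ∀ (k : ℕ) (y : Ch k E), y ∈ Con (univ : Set E) k := fun k y => by
    rw [Con, Finsupp.mem_supported]
    exact fun σ _ x => trivial
  match k, y, hy with
  | 0, y, _ =>
    obtain ⟨v, z, -, hz⟩ := h'.s0 (push f 0 y) (hu _ _)
    obtain ⟨b, hb⟩ := inj_of_homotopic hr 0 (y - (ψ0 v).un) trivial z (by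
      rw [map_sub, hz, e0]; abel)
    exact ⟨_, h.m0 v, b, by rw [← hb]; abel⟩
  | 1, y, hy =>
    have hy' : bd 0 y = 0 := hy
    obtain ⟨v, hv, z, -, hz⟩ := h'.s1 (push f 1 y) (hu _ _) (by rw [push_bd, hy', map_zero])
    have h1 : bd 0 (ψ1 v).un = 0 := by
      rw [← SC.un_d, h.c1, hv, map_zero, SC.un_zero]
    obtain ⟨b, hb⟩ := inj_of_homotopic hr 1 (y - (ψ1 v).un)
      (by change bd 0 _ = 0; rw [map_sub, hy', h1, sub_zero]) z (by rw [map_sub, hz, e1]; abel)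
    exact ⟨_, h.m1 v, b, by rw [← hb]; abel⟩
  | 2, y, hy =>
    have hy' : bd 1 y = 0 := hy
    obtain ⟨v, hv, z, -, hz⟩ := h'.s2 (push f 2 y) (hu _ _) (by rw [push_bd, hy', map_zero])
    have h1 : bd 1 (ψ2 v).un = 0 := by
      rw [← SC.un_d, h.c2, hv, map_zero, SC.un_zero]
    obtain ⟨b, hb⟩ := inj_of_homotopic hr 2 (y - (ψ2 v).un)
      (by change bd 1 _ = 0; rw [map_sub, hy', h1, sub_zero]) z (by rw [map_sub, hz, e2]; abel)
    exact ⟨_, h.m2 v, b, by rw [← hb]; abel⟩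
  | k + 3, y, hy =>
    have hy' : bd (k + 2) y = 0 := hy
    obtain ⟨z, -, hz⟩ := h'.s3 k (push f (k + 3) y) (hu _ _) (by rw [push_bd, hy', map_zero])
    obtain ⟨b, hb⟩ := inj_of_homotopic hr (k + 3) y hy z hz
    exact ⟨0, Submodule.zero_mem _, b, by rw [← hb]; abel⟩

end Alg

theorem main : SpecRV := by
  rintro G E F _ _ _ _ _ _ _ f - ⟨r, -, hr⟩ Pr A ψ0 ψ1 ψ2 ψ0' ψ1' ψ2' h h' e0 e1 e2 k c - hc
  have hu : ∀ (k : ℕ) (y : Ch k F), y ∈ Con (univ : Set F) k := fun k y => by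
    rw [Con, Finsupp.mem_supported]
    exact fun σ _ x => trivial
  have key : ∃ a₀ ∈ Con A k, Cyc k (c - a₀) := by
    cases k with
    | zero => exact ⟨0, Submodule.zero_mem _, trivial⟩
    | succ k =>
      have hc' : bd k c ∈ Con A k := hc
      obtain ⟨a₀, ha₀, hb⟩ := inj_A h h' e0 e1 e2 k (bd k c) hc' c rfl
      refine ⟨a₀, ha₀, ?_⟩
      change bd k (c - a₀) = 0
      rw [map_sub, hb, sub_self]
  obtain ⟨a₀, ha₀, hcyc⟩ := key
  obtain ⟨a, ha, b, hb⟩ := surj_A ⟨r, hr⟩ h h' e0 e1 e2 k _ hcyc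
  refine ⟨b, hu _ _, ?_⟩
  have e : c - bd k b = a + a₀ := by
    have := hb
    rw [sub_eq_iff_eq_add] at this
    rw [this]
    abel
  rw [e]
  exact Submodule.add_mem _ ha ha₀

end Vale.Agent.P246.T.RV
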