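import Vale.Agent.P246.T.Spec2

/-! # Block WC: natural chains comparing the path of a word with its Fox derivative -/

namespace Vale.Agent.P246.T.WC

open Topology Metric Set

theorem face_sa (n : ℕ) (i : Fin (n + 1)) (x : Dl n) (j : Fin n) :
    face n i x (i.succAbove j) = x j := by
  change stdSimplex.map (S := ℝ) i.succAbove x (i.succAbove j) = x j
  rw [stdSimplex.map_coe, FunOnFinite.linearMap_apply_apply]
  rw [Finset.sum_eq_single j]
  · intro b hb hbj
    exact absurd (Fin.succAbove_right_injective (Finset.mem_filter.1 hb).2) hbj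
  · intro h
    exact absurd (by simp) h

theorem face_self (n : ℕ) (i : Fin (n + 1)) (x : Dl n) : face n i x i = 0 := by
  change stdSimplex.map (S := ℝ) i.succAbove x i = 0
  rw [stdSimplex.map_coe, FunOnFinite.linearMap_apply_apply]
  apply Finset.sum_eq_zero
  intro y hy
  exact absurd (Finset.mem_filter.1 hy).2 (Fin.succAbove_ne i y)

theorem dl2 (x : Dl 2) : x 0 + x 1 = 1 := by
  have h : ∑ i, x i = 1 := x.2.2
  rwa [Fin.sum_univ_two] at h

theorem dl3 (x : Dl 3) : x 0 + x 1 + x 2 = 1 := by
  have h : ∑ i, x i = 1 := x.2.2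
  rwa [Fin.sum_univ_three] at h

theorem dl_nonneg {k : ℕ} (x : Dl k) (i : Fin k) : 0 ≤ x i := x.2.1 i

theorem tm_mem (t : Dl 3) : t 1 / 2 + t 2 ∈ unitInterval := by
  have h0 := dl_nonneg t 0
  have h1 := dl_nonneg t 1
  have h2 := dl_nonneg t 2
  have h3 := dl3 t
  constructor
  · positivity
  · linarith

theorem tm_cont : Continuous fun t : Dl 3 => t 1 / 2 + t 2 :=
  (((continuous_apply (1 : Fin 3)).comp continuous_subtype_val).div_const 2).add
    ((continuous_apply (2 : Fin 3)).comp continuous_subtype_val)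

/-- the time on the triangle with vertices at the times 0, 1/2, 1 -/
noncomputable def tm : C(Dl 3, I) := ⟨fun t => ⟨t 1 / 2 + t 2, tm_mem t⟩, tm_cont.subtype_mk tm_mem⟩

theorem tm_val (t : Dl 3) : (tm t : ℝ) = t 1 / 2 + t 2 := rfl

theorem crd_val {k : ℕ} (i : Fin k) (t : Dl k) : (crd i t : ℝ) = t i := rfl

theorem f0 (x : Dl 2) : face 2 0 x 0 = 0 ∧ face 2 0 x 1 = x 0 ∧ face 2 0 x 2 = x 1 :=
  ⟨face_self 2 0 x, face_sa 2 0 x 0, face_sa 2 0 x 1⟩

theorem f1 (x : Dl 2) : face 2 1 x 0 = x 0 ∧ face 2 1 x 1 = 0 ∧ face 2 1 x 2 = x 1 :=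
  ⟨face_sa 2 1 x 0, face_self 2 1 x, face_sa 2 1 x 1⟩

theorem f2 (x : Dl 2) : face 2 2 x 0 = x 0 ∧ face 2 2 x 1 = x 1 ∧ face 2 2 x 2 = 0 :=
  ⟨face_sa 2 2 x 0, face_sa 2 2 x 1, face_self 2 2 x⟩

section

variable {E : Type} [TopologicalSpace E]

/-- the boundary of a 2-simplex -/
theorem bd_two (σ : C(Dl 3, E)) (a : ℤ) : bd 1 (Finsupp.single σ a) =
    Finsupp.single (σ.comp (face 2 0)) a - Finsupp.single (σ.comp (face 2 1)) a +
      Finsupp.single (σ.comp (face 2 2)) a := by
  rw [bd_single, Fin.sum_univ_three]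
  simp [sub_eq_add_neg]

/-- the triangle of a path -/
noncomputable def tri (γ : C(I, E)) : Ch 2 E := Finsupp.single (γ.comp tm) 1

/-- the triangle with vertices at the times 0, 1, 0 -/
noncomputable def rev (γ : C(I, E)) : Ch 2 E := Finsupp.single (γ.comp (crd 1)) 1

theorem bd_tri {a b c : E} (γ : Path a b) (δ : Path b c) :
    bd 1 (tri (γ.trans δ).toContinuousMap) = psx δ - psx (γ.trans δ) + psx γ := by
  rw [tri, bd_two]
  have h0 : ((γ.trans δ).toContinuousMap.comp tm).comp (face 2 0) =
      δ.toContinuousMap.comp (crd 1) := by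
    ext x
    obtain ⟨-, e1, e2⟩ := f0 x
    have e0 := dl2 x
    have n0 := dl_nonneg x 0
    have n1 := dl_nonneg x 1
    change (γ.trans δ) (tm (face 2 0 x)) = δ (crd 1 x)
    rw [Path.trans_apply]
    split_ifs with h
    · have hx : x 1 = 0 := by
        rw [tm_val, e1, e2] at h
        linarith
      have h1 : (⟨2 * (tm (face 2 0 x) : ℝ), (unitInterval.mul_pos_mem_iff zero_lt_two).2
          ⟨(tm (face 2 0 x)).2.1, h⟩⟩ : I) = 1 := by
        apply Subtype.ext
        change 2 * (tm (face 2 0 x) : ℝ) = 1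
        rw [tm_val, e1, e2]
        linarith
      have h2 : crd 1 x = 0 := by
        apply Subtype.ext
        rw [crd_val, hx]
        rfl
      rw [h1, h2, γ.target, δ.source]
    · congr 1
      apply Subtype.ext
      change 2 * (tm (face 2 0 x) : ℝ) - 1 = x 1
      rw [tm_val, e1, e2]
      linarith
  have h1 : ((γ.trans δ).toContinuousMap.comp tm).comp (face 2 1) =
      (γ.trans δ).toContinuousMap.comp (crd 1) := by
    ext x
    obtain ⟨-, e1, e2⟩ := f1 x
    change (γ.trans δ) (tm (face 2 1 x)) = (γ.trans δ) (crd 1 x)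
    congr 1
    apply Subtype.ext
    rw [tm_val, crd_val, e1, e2]
    ring
  have h2 : ((γ.trans δ).toContinuousMap.comp tm).comp (face 2 2) =
      γ.toContinuousMap.comp (crd 1) := by
    ext x
    obtain ⟨-, e1, e2⟩ := f2 x
    have e0 := dl2 x
    have n0 := dl_nonneg x 0
    change (γ.trans δ) (tm (face 2 2 x)) = γ (crd 1 x)
    rw [Path.trans_apply]
    split_ifs with h
    · congr 1
      apply Subtype.ext
      change 2 * (tm (face 2 2 x) : ℝ) = x 1
      rw [tm_val, e1, e2]
      ring
    · exfalso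
      apply h
      rw [tm_val, e1, e2]
      linarith
  rw [h0, h1, h2]
  rfl

theorem bd_rev {a b : E} (γ : Path a b) :
    bd 1 (rev γ.toContinuousMap) = psx γ.symm - ksx 1 a + psx γ := by
  rw [rev, bd_two]
  have h0 : (γ.toContinuousMap.comp (crd 1)).comp (face 2 0) =
      γ.symm.toContinuousMap.comp (crd 1) := by
    ext x
    obtain ⟨-, e1, e2⟩ := f0 x
    have e0 := dl2 x
    change γ (crd 1 (face 2 0 x)) = γ (unitInterval.symm (crd 1 x))
    congr 1
    apply Subtype.ext
    rw [unitInterval.coe_symm_eq, crd_val, crd_val, e1]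
    linarith
  have h1 : (γ.toContinuousMap.comp (crd 1)).comp (face 2 1) =
      ContinuousMap.const (Dl (1 + 1)) a := by
    ext x
    obtain ⟨-, e1, e2⟩ := f1 x
    change γ (crd 1 (face 2 1 x)) = a
    have : crd 1 (face 2 1 x) = 0 := by
      apply Subtype.ext
      rw [crd_val, e1]
      rfl
    rw [this, γ.source]
  have h2 : (γ.toContinuousMap.comp (crd 1)).comp (face 2 2) =
      γ.toContinuousMap.comp (crd 1) := by
    ext x
    obtain ⟨-, e1, e2⟩ := f2 x
    change γ (crd 1 (face 2 2 x)) = γ (crd 1 x)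
    congr 1
    apply Subtype.ext
    rw [crd_val, crd_val, e1]
  rw [h0, h1, h2]
  rfl

theorem bd_ksx (e : E) : bd 1 (ksx 2 e) = ksx 1 e := by
  rw [ksx, bd_two]
  have h : ∀ i, (ContinuousMap.const (Dl (2 + 1)) e).comp (face 2 i) =
      ContinuousMap.const (Dl (1 + 1)) e := fun i => rfl
  rw [h, h, h, sub_self, zero_add]
  rfl

theorem push_ksx {F : Type} [TopologicalSpace F] (f : C(E, F)) (n : ℕ) (e : E) :
    push f n (ksx n e) = ksx n (f e) := by
  rw [ksx, push_single]; rfl

theorem push_tri {F : Type} [TopologicalSpace F] (f : C(E, F)) (γ : C(I, E)) :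
    push f 2 (tri γ) = tri (f.comp γ) := by
  rw [tri, push_single]; rfl

theorem push_rev {F : Type} [TopologicalSpace F] (f : C(E, F)) (γ : C(I, E)) :
    push f 2 (rev γ) = rev (f.comp γ) := by
  rw [rev, push_single]; rfl

theorem single_mem {A : Set E} {n : ℕ} {σ : C(Dl (n + 1), E)} (h : ∀ x, σ x ∈ A) (a : ℤ) :
    Finsupp.single σ a ∈ Con A n := by
  rw [Con, Finsupp.mem_supported]
  intro τ hτ
  have := Finsupp.support_single_subset hτ
  rw [Finset.mem_singleton] at this
  rw [this]
  exact h

end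

section

variable {G E : Type} [Group G] [TopologicalSpace E] [MulAction G E] [ContinuousConstSMul G E]
  {m : ℕ}

/-- the correction of a letter -/
noncomputable def lcor (x : Fin m → G) (e : E) (α : ∀ i, Path e (x i • e)) (l : Fin m × Bool) :
    Ch 2 E :=
  if l.2 then 0 else -push (gm (x l.1)⁻¹) 2 (rev (α l.1).toContinuousMap + ksx 2 e)

/-- the correction of a word -/
noncomputable def cor (x : Fin m → G) (e : E) (α : ∀ i, Path e (x i • e)) :
    List (Fin m × Bool) → Ch 2 E
  | [] => -ksx 2 e
  | l :: w => lcor x e α l + push (gm (lval x l)) 2 (cor x e α w) +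
      tri (wpath x α (l :: w)).toContinuousMap

theorem phi1_un_add (x : Fin m → G) {e : E} (α : ∀ i, Path e (x i • e)) (u v : Fin m → ZG G) :
    (phi1 x α (u + v)).un = (phi1 x α u).un + (phi1 x α v).un := by
  rw [map_add, SC.un_add]

theorem phi1_single (x : Fin m → G) {e : E} (α : ∀ i, Path e (x i • e)) (i : Fin m) :
    (phi1 x α (fun k => if k = i then 1 else 0)).un = psx (α i) := by
  have : phi1 x α (fun k => if k = i then 1 else 0) = SC.mk G (psx (α i)) := by
    rw [phi1, lmap, Fintype.linearCombination_apply, Finset.sum_eq_single i]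
    · rw [if_pos rfl, one_smul]
    · intro k _ hk
      rw [if_neg hk, zero_smul]
    · intro h
      exact absurd (Finset.mem_univ i) h
  rw [this]
  rfl

theorem phi1_smul (x : Fin m → G) {e : E} (α : ∀ i, Path e (x i • e)) (g : G)
    (v : Fin m → ZG G) :
    (phi1 x α (fun k => elt g * v k)).un = push (gm g) 1 (phi1 x α v).un := by
  have : (fun k => elt g * v k) = elt g • v := rfl
  rw [this, map_smul, SC.un_elt_smul]

theorem psx_gpath (g : G) {a b : E} (γ : Path a b) :
    push (gm g) 1 (psx γ) = psx (gpath g γ) := by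
  rw [psx, push_single]; rfl

theorem psx_cast {a b a' b' : E} (γ : Path a b) (h : a' = a) (h' : b' = b) :
    psx (γ.cast h h') = psx γ := rfl

theorem bd_lcor (x : Fin m → G) (e : E) (α : ∀ i, Path e (x i • e)) (l : Fin m × Bool)
    (v : Fin m → ZG G) :
    bd 1 (lcor x e α l) + psx (lpath x α l) + push (gm (lval x l)) 1 (phi1 x α v).un =
      (phi1 x α (foxStep x l v)).un := by
  obtain ⟨i, b⟩ := l
  cases b with
  | true =>
    have h1 : foxStep x (i, true) v = (fun k => if k = i then 1 else 0) +
        fun k => elt (x i) * v k := by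
      funext k
      simp [foxStep]
    rw [h1, phi1_un_add, phi1_single, phi1_smul]
    simp only [lcor, if_true, map_zero, zero_add, lval]
    rfl
  | false =>
    have h1 : foxStep x (i, false) v = (fun k => elt (x i)⁻¹ * (v k - if k = i then 1 else 0)) := by
      funext k
      simp [foxStep]
    have h2 : (fun k => v k - if k = i then 1 else 0) = v - fun k => if k = i then (1 : ZG G) else 0 :=
      rfl
    have h3 : psx (lpath x α (i, false)) = push (gm (x i)⁻¹) 1 (psx (α i).symm) := by
      rw [psx_gpath]; rfl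
    have h4 : bd 1 (lcor x e α (i, false)) = -(push (gm (x i)⁻¹) 1 (psx (α i).symm) +
        push (gm (x i)⁻¹) 1 (psx (α i))) := by
      have h5 : lcor x e α (i, false) =
          -push (gm (x i)⁻¹) 2 (rev (α i).toContinuousMap + ksx 2 e) := rfl
      rw [h5, map_neg, push_bd, map_add, bd_rev, bd_ksx, ← map_add]
      congr 2
      abel
    have h6 : lval x (i, false) = (x i)⁻¹ := rfl
    rw [h1, phi1_smul, h2, map_sub, SC.un_sub, phi1_single, map_sub, h3, h4, h6]
    abel

theorem bd_cor (x : Fin m → G) (e : E) (α : ∀ i, Path e (x i • e)) (w : List (Fin m × Bool)) :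
    bd 1 (cor x e α w) = (phi1 x α (foxWord x w)).un - psx (wpath x α w) := by
  induction w with
  | nil =>
    have h1 : foxWord x ([] : List (Fin m × Bool)) = 0 := rfl
    rw [h1, map_zero, SC.un_zero, cor, map_neg, bd_ksx, zero_sub]
    rfl
  | cons l w ih =>
    have h1 : foxWord x (l :: w) = foxStep x l (foxWord x w) := rfl
    have h2 : bd 1 (tri (wpath x α (l :: w)).toContinuousMap) =
        psx (gpath (lval x l) (wpath x α w)) - psx (wpath x α (l :: w)) + psx (lpath x α l) :=
      bd_tri (lpath x α l) (gpath (lval x l) (wpath x α w))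
    rw [cor, map_add, map_add, push_bd, ih, h2, h1, ← bd_lcor, map_sub, psx_gpath]
    abel

theorem wpath_cons (x : Fin m → G) {e : E} (α : ∀ i, Path e (x i • e)) (l : Fin m × Bool)
    (w : List (Fin m × Bool)) (t : I) : wpath x α (l :: w) t =
      (lpath x α l).trans (gpath (lval x l) (wpath x α w)) t := rfl

section nat

variable {F : Type} [TopologicalSpace F] [MulAction G F] [ContinuousConstSMul G F]
  {f : C(E, F)} (hf : ∀ (g : G) y, f (g • y) = g • f y) {x : Fin m → G} {e : E}
  {α : ∀ i, Path e (x i • e)} {e' : F} {α' : ∀ i, Path e' (x i • e')}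

include hf in
theorem lpath_nat (hα : ∀ i t, α' i t = f (α i t)) (l : Fin m × Bool) (t : I) :
    lpath x α' l t = f (lpath x α l t) := by
  obtain ⟨i, b⟩ := l
  cases b with
  | true => exact hα i t
  | false =>
    change (x i)⁻¹ • α' i (unitInterval.symm t) = f ((x i)⁻¹ • α i (unitInterval.symm t))
    rw [hf, hα]

include hf in
theorem wpath_nat (he : e' = f e) (hα : ∀ i t, α' i t = f (α i t)) (w : List (Fin m × Bool)) :
    ∀ t : I, wpath x α' w t = f (wpath x α w t) := by
  induction w with
  | nil => exact fun _ => he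
  | cons l w ih =>
    intro t
    rw [wpath_cons, wpath_cons, Path.trans_apply, Path.trans_apply]
    split_ifs with h
    · exact lpath_nat hf hα l _
    · change lval x l • wpath x α' w _ = f (lval x l • wpath x α w _)
      rw [hf, ih]

include hf in
theorem gm_nat (g : G) (n : ℕ) (c : Ch n E) :
    push f n (push (gm g) n c) = push (gm g) n (push f n c) := by
  rw [← push_comp, ← push_comp]
  congr 1
  congr 1
  ext y
  exact hf g y

include hf in
theorem cor_nat (he : e' = f e) (hα : ∀ i t, α' i t = f (α i t)) (w : List (Fin m × Bool)) :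
    push f 2 (cor x e α w) = cor x e' α' w := by
  induction w with
  | nil => rw [cor, cor, map_neg, push_ksx, he]
  | cons l w ih =>
    rw [cor, cor, map_add, map_add, gm_nat hf, ih, push_tri]
    congr 1
    · congr 1
      unfold lcor
      split_ifs
      · exact map_zero _
      · rw [map_neg, gm_nat hf, map_add, push_rev, push_ksx, ← he]
        congr 3
        congr 1
        ext t
        exact (hα l.1 t).symm
    · congr 1
      ext t
      exact (wpath_nat hf he hα (l :: w) t).symm

end nat

section supp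

variable {x : Fin m → G} {e : E} {α : ∀ i, Path e (x i • e)} {A : Set E}

theorem lpath_mem (hA : ∀ (g : G), ∀ y ∈ A, g • y ∈ A) (hα : ∀ i t, α i t ∈ A)
    (l : Fin m × Bool) (t : I) : lpath x α l t ∈ A := by
  obtain ⟨i, b⟩ := l
  cases b with
  | true => exact hα i t
  | false => exact hA _ _ (hα i _)

theorem wpath_mem (he : e ∈ A) (hA : ∀ (g : G), ∀ y ∈ A, g • y ∈ A) (hα : ∀ i t, α i t ∈ A)
    (w : List (Fin m × Bool)) : ∀ t : I, wpath x α w t ∈ A := by
  induction w with
  | nil => exact fun _ => he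
  | cons l w ih =>
    intro t
    rw [wpath_cons, Path.trans_apply]
    split_ifs with h
    · exact lpath_mem hA hα l _
    · exact hA _ _ (ih _)

theorem cor_mem (he : e ∈ A) (hA : ∀ (g : G), ∀ y ∈ A, g • y ∈ A) (hα : ∀ i t, α i t ∈ A)
    (w : List (Fin m × Bool)) : cor x e α w ∈ Con A 2 := by
  induction w with
  | nil => exact Submodule.neg_mem _ (single_mem (fun _ => he) 1)
  | cons l w ih =>
    refine Submodule.add_mem _ (Submodule.add_mem _ ?_ (push_mem (hA _) ih))
      (single_mem (fun t => wpath_mem he hA hα (l :: w) _) 1)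
    unfold lcor
    split_ifs
    · exact Submodule.zero_mem _
    · refine Submodule.neg_mem _ (push_mem (hA _) (Submodule.add_mem _ ?_ ?_))
      · exact single_mem (fun t => hα _ _) 1
      · exact single_mem (fun _ => he) 1

end supp

end

/-- BLOCK WC. -/
theorem main : SpecWC :=
  ⟨{ cor := fun _ _ _ _ _ _ _ x e α w => cor x e α w
     bd_cor := fun _ _ _ _ _ _ _ x e α w => bd_cor x e α w
     nat := fun _ _ _ _ _ _ _ _ _ _ _ hf _ _ _ _ _ _ he hα w => cor_nat hf he hα w
     supp := fun _ _ _ _ _ _ _ _ _ _ _ he hA hα w => cor_mem he hA hα w }⟩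

end Vale.Agent.P246.T.WC
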