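import Vale.Agent.P246.T.Spec

/-! # P246, topological version: block WH (Whitehead's theorem) -/

namespace Vale.Agent.P246.T.WH

open Topology Metric Set

section Basic

variable {X : Type} [TopologicalSpace X]

theorem built_subset {C D : Set X} (h : Built C D) : C ⊆ D := by
  induction h with
  | base => exact subset_rfl
  | cell n Φ _ hatt ih => rw [hatt.eq]; exact ih.trans subset_union_left

variable [T2Space X]

theorem attach_closed {n : ℕ} {A B : Set X} {Φ : C(Dk n, X)} (h : Attach n A B Φ)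
    (hA : IsClosed A) : IsClosed B := by
  rw [h.eq]
  exact hA.union (isCompact_range Φ.continuous).isClosed

theorem built_closed {C D : Set X} (hC : IsClosed C) (h : Built C D) : IsClosed D := by
  induction h with
  | base => exact hC
  | cell n Φ _ hatt ih => exact attach_closed hatt ih

/-- a function on `I × range Φ` is continuous if its pull back to `I × Dk n` is -/
theorem contOn_range {B : Type} [TopologicalSpace B] {n : ℕ} (Φ : C(Dk n, X)) (H : I × X → B)
    (K : C(I × Dk n, B)) (hK : ∀ t x, H (t, Φ x) = K (t, x)) :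
    ContinuousOn H (univ ×ˢ range Φ) := by
  have hq : Continuous fun q : I × Dk n => (q.1, Φ q.2) := by fun_prop
  rw [continuousOn_iff_isClosed]
  intro F hF
  refine ⟨(fun q : I × Dk n => (q.1, Φ q.2)) '' (K ⁻¹' F), ?_, ?_⟩
  · exact ((hF.preimage K.continuous).isCompact.image hq).isClosed
  · ext ⟨t, y⟩
    constructor
    · rintro ⟨h1, -, x, rfl⟩
      refine ⟨⟨(t, x), ?_, rfl⟩, trivial, x, rfl⟩
      have h1' : H (t, Φ x) ∈ F := h1
      rw [hK] at h1'
      exact h1'
    · rintro ⟨⟨⟨t', x⟩, h1, h2⟩, h3⟩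
      refine ⟨?_, h3⟩
      obtain ⟨rfl, rfl⟩ := Prod.mk.inj h2
      change H (t', Φ x) ∈ F
      rw [hK]
      exact h1

/-- the homotopy extension and lifting property -/
theorem help {B : Type} [TopologicalSpace B] {A : Set B} (hA : ∀ n, Lft A n) {C D : Set X}
    (hC : IsClosed C) (hD : Built C D) :
    ∀ (f : X → B) (H : I × X → B), ContinuousOn f D → ContinuousOn H (univ ×ˢ C) →
      (∀ x ∈ C, H (0, x) = f x) → (∀ x ∈ C, H (1, x) ∈ A) →
      ∃ H' : I × X → B, ContinuousOn H' (univ ×ˢ D) ∧ (∀ x ∈ D, H' (0, x) = f x) ∧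
        (∀ x ∈ D, H' (1, x) ∈ A) ∧ ∀ t, ∀ x ∈ C, H' (t, x) = H (t, x) := by
  induction hD with
  | base => intro f H hf hH h0 h1; exact ⟨H, hH, h0, h1, fun _ _ _ => rfl⟩
  | @cell D E n Φ hb hatt ih =>
    intro f H hf hH h0 h1
    have hDE : D ⊆ E := by rw [hatt.eq]; exact subset_union_left
    have hDc : IsClosed D := built_closed hC hb
    obtain ⟨H₁, hH₁, h₁0, h₁1, h₁C⟩ := ih f H (hf.mono hDE) hH h0 h1
    have hΦE : ∀ x, Φ x ∈ E := fun x => by rw [hatt.eq]; exact Or.inr ⟨x, rfl⟩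
    have hle : ∀ x : Dk n, ‖(x : Fin n → ℝ)‖ ≤ 1 := fun x => mem_closedBall_zero_iff.1 x.2
    obtain ⟨K, hK0, hKb, hK1⟩ := hA n
      ⟨fun x => f (Φ x), hf.comp_continuous Φ.continuous hΦE⟩
      ⟨fun q => H₁ (q.1, Φ q.2), hH₁.comp_continuous (by fun_prop)
        (fun q => ⟨trivial, hatt.bdry q.2 q.2.2⟩)⟩
      (fun x => h₁0 _ (hatt.bdry _ x.2)) (fun x => h₁1 _ (hatt.bdry _ x.2))
    classical
    let H' : I × X → B := fun q =>
      if q.2 ∈ D then H₁ q else if h : ∃ x, Φ x = q.2 then K (q.1, h.choose) else H₁ q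
    have hH'D : ∀ q : I × X, q.2 ∈ D → H' q = H₁ q := fun q hq => if_pos hq
    have hH'Φ : ∀ t x, H' (t, Φ x) = K (t, x) := by
      intro t x
      by_cases hx : Φ x ∈ D
      · have hx1 : ‖(x : Fin n → ℝ)‖ = 1 := by
          by_contra hne
          exact hatt.int x (lt_of_le_of_ne (hle x) hne) hx
        rw [hH'D _ hx]
        exact (hKb t ⟨x, hx1⟩).symm
      · have hint : ∀ y : Dk n, Φ y = Φ x → ‖(y : Fin n → ℝ)‖ < 1 := fun y hy =>
          lt_of_le_of_ne (hle y) fun h1 => hx (hy ▸ hatt.bdry y h1)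
        have hex : ∃ y, Φ y = Φ x := ⟨x, rfl⟩
        have hxx : hex.choose = x :=
          hatt.inj _ _ (hint _ hex.choose_spec) (hint x rfl) hex.choose_spec
        change (if Φ x ∈ D then H₁ (t, Φ x) else if h : ∃ y, Φ y = Φ x then K (t, h.choose)
          else H₁ (t, Φ x)) = K (t, x)
        rw [if_neg hx, dif_pos hex, hxx]
    refine ⟨H', ?_, ?_, ?_, ?_⟩
    · have hun : (univ : Set I) ×ˢ E = (univ ×ˢ D) ∪ (univ ×ˢ range Φ) := by
        rw [hatt.eq, prod_union]
      rw [hun]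
      exact ContinuousOn.union_of_isClosed (hH₁.congr fun q hq => hH'D q hq.2)
        (contOn_range Φ H' K hH'Φ) (isClosed_univ.prod hDc)
        (isClosed_univ.prod (isCompact_range Φ.continuous).isClosed)
    · intro x hx
      rw [hatt.eq] at hx
      rcases hx with hx | ⟨y, rfl⟩
      · rw [hH'D _ hx]; exact h₁0 x hx
      · rw [hH'Φ]; exact hK0 y
    · intro x hx
      rw [hatt.eq] at hx
      rcases hx with hx | ⟨y, rfl⟩
      · rw [hH'D _ hx]; exact h₁1 x hx
      · rw [hH'Φ]; exact hK1 y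
    · intro t x hx
      rw [hH'D _ (built_subset hb hx)]
      exact h₁C t x hx

end Basic

/-! ## The product with the interval -/

section Prod

/-- the map `ℝ → [0, 1]` -/
noncomputable def par (s : ℝ) : I := Set.projIcc 0 1 zero_le_one ((s + 1) / 2)

theorem continuous_par : Continuous par := by unfold par; fun_prop

theorem par_val {s : ℝ} (h1 : -1 ≤ s) (h2 : s ≤ 1) : (par s : ℝ) = (s + 1) / 2 := by
  rw [par, Set.projIcc_of_mem zero_le_one ⟨by linarith, by linarith⟩]

theorem clp_val {n : ℕ} {x : Fin n → ℝ} (h : ‖x‖ ≤ 1) : ((clp n x : Dk n) : Fin n → ℝ) = x := by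
  funext i
  have hi : |x i| ≤ 1 := by
    rw [← Real.norm_eq_abs]; exact (norm_le_pi_norm x i).trans h
  rw [abs_le] at hi
  change max (-1) (min 1 (x i)) = x i
  rw [min_eq_right hi.2, max_eq_right hi.1]

theorem norm_lt_iff {n : ℕ} (y : Fin (n + 1) → ℝ) :
    ‖y‖ < 1 ↔ |y 0| < 1 ∧ ‖Fin.tail y‖ < 1 := by
  rw [pi_norm_lt_iff one_pos, pi_norm_lt_iff one_pos, Fin.forall_fin_succ]
  simp only [Real.norm_eq_abs, Fin.tail]

theorem norm_le_iff {n : ℕ} (y : Fin (n + 1) → ℝ) :
    ‖y‖ ≤ 1 ↔ |y 0| ≤ 1 ∧ ‖Fin.tail y‖ ≤ 1 := by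
  rw [pi_norm_le_iff_of_nonneg zero_le_one, pi_norm_le_iff_of_nonneg zero_le_one,
    Fin.forall_fin_succ]
  simp only [Real.norm_eq_abs, Fin.tail]

/-- the tail of a point of the cube -/
noncomputable def tl {n : ℕ} (y : Dk (n + 1)) : Dk n := clp n (Fin.tail (y : Fin (n + 1) → ℝ))

theorem continuous_tl {n : ℕ} : Continuous (tl : Dk (n + 1) → Dk n) := by
  refine (continuous_clp n).comp (continuous_pi fun i => ?_)
  exact (continuous_apply _).comp continuous_subtype_val

theorem dk_le {n : ℕ} (y : Dk n) : ‖(y : Fin n → ℝ)‖ ≤ 1 := mem_closedBall_zero_iff.1 y.2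

theorem tl_val {n : ℕ} (y : Dk (n + 1)) :
    ((tl y : Dk n) : Fin n → ℝ) = Fin.tail (y : Fin (n + 1) → ℝ) :=
  clp_val ((norm_le_iff _).1 (dk_le y)).2

variable {X : Type} [TopologicalSpace X]

/-- the characteristic map of the product of a cell with the interval -/
noncomputable def pc {n : ℕ} (Φ : C(Dk n, X)) : C(Dk (n + 1), I × X) :=
  ⟨fun y => (par ((y : Fin (n + 1) → ℝ) 0), Φ (tl y)),
    (continuous_par.comp ((continuous_apply 0).comp continuous_subtype_val)).prodMk
      (Φ.continuous.comp continuous_tl)⟩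

theorem pc_apply {n : ℕ} (Φ : C(Dk n, X)) (y : Dk (n + 1)) :
    pc Φ y = (par ((y : Fin (n + 1) → ℝ) 0), Φ (tl y)) := rfl

theorem pc_range {n : ℕ} (Φ : C(Dk n, X)) : range (pc Φ) = univ ×ˢ range Φ := by
  ext ⟨t, z⟩
  constructor
  · rintro ⟨y, hy⟩
    rw [pc_apply] at hy
    obtain ⟨rfl, rfl⟩ := Prod.mk.inj hy
    exact ⟨trivial, _, rfl⟩
  · rintro ⟨-, x, hx⟩
    have hx' : Φ x = z := hx
    subst hx'
    have ht := t.2
    have hcons : ‖(Fin.cons (2 * (t : ℝ) - 1) (x : Fin n → ℝ) : Fin (n + 1) → ℝ)‖ ≤ 1 := by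
      rw [norm_le_iff]
      refine ⟨?_, ?_⟩
      · rw [Fin.cons_zero, abs_le]
        constructor <;> linarith [ht.1, ht.2]
      · rw [Fin.tail_cons]; exact dk_le x
    refine ⟨⟨Fin.cons (2 * (t : ℝ) - 1) (x : Fin n → ℝ), mem_closedBall_zero_iff.2 hcons⟩, ?_⟩
    rw [pc_apply]
    refine Prod.ext ?_ ?_
    · apply Subtype.ext
      change ((par ((Fin.cons (2 * (t : ℝ) - 1) (x : Fin n → ℝ) : Fin (n + 1) → ℝ) 0) : I) : ℝ) = t
      rw [Fin.cons_zero, par_val (by linarith [ht.1]) (by linarith [ht.2])]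
      ring
    · change Φ _ = Φ x
      congr 1
      apply Subtype.ext
      rw [tl_val]
      exact Fin.tail_cons _ _

theorem attach_prod {n : ℕ} {A B S : Set X} {Φ : C(Dk n, X)} (h : Attach n A B Φ) (hB : B ⊆ S) :
    Attach (n + 1) (({0, 1} : Set I) ×ˢ S ∪ univ ×ˢ A) (({0, 1} : Set I) ×ˢ S ∪ univ ×ˢ B)
      (pc Φ) := by
  have hΦ : ∀ x, Φ x ∈ S := fun x => hB (by rw [h.eq]; exact Or.inr ⟨x, rfl⟩)
  refine ⟨?_, ?_, ?_, ?_⟩
  · intro y hy
    rw [pc_apply]
    have hle := (norm_le_iff _).1 hy.le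
    by_cases h0 : |(y : Fin (n + 1) → ℝ) 0| = 1
    · left
      refine ⟨?_, hΦ _⟩
      rcases (abs_eq zero_le_one).1 h0 with h0 | h0
      · right
        apply Subtype.ext
        change ((par _ : I) : ℝ) = 1
        rw [h0, par_val (by norm_num) le_rfl]; norm_num
      · left
        apply Subtype.ext
        change ((par _ : I) : ℝ) = 0
        rw [h0, par_val le_rfl (by norm_num)]; norm_num
    · right
      refine ⟨trivial, h.bdry _ ?_⟩
      rw [tl_val]
      by_contra hne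
      have := (norm_lt_iff _).2 ⟨lt_of_le_of_ne hle.1 h0, lt_of_le_of_ne hle.2 hne⟩
      exact absurd hy this.ne
  · intro y hy hmem
    rw [pc_apply] at hmem
    have hlt := (norm_lt_iff _).1 hy
    have h0 := abs_lt.1 hlt.1
    rcases hmem with ⟨h1, -⟩ | ⟨-, h1⟩
    · rcases h1 with h1 | h1
      · have h2 : ((par ((y : Fin (n + 1) → ℝ) 0) : I) : ℝ) = 0 := congrArg Subtype.val h1
        rw [par_val h0.1.le h0.2.le] at h2
        linarith
      · have h2 : ((par ((y : Fin (n + 1) → ℝ) 0) : I) : ℝ) = 1 := congrArg Subtype.val h1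
        rw [par_val h0.1.le h0.2.le] at h2
        linarith
    · refine h.int (tl y) ?_ h1
      rw [tl_val]; exact hlt.2
  · intro y y' hy hy' he
    rw [pc_apply, pc_apply] at he
    have hlt := (norm_lt_iff _).1 hy
    have hlt' := (norm_lt_iff _).1 hy'
    have h0 := abs_lt.1 hlt.1
    have h0' := abs_lt.1 hlt'.1
    obtain ⟨e1, e2⟩ := Prod.mk.inj he
    have e1' := congrArg Subtype.val e1
    rw [par_val h0.1.le h0.2.le, par_val h0'.1.le h0'.2.le] at e1'
    have e3 := h.inj (tl y) (tl y') (by rw [tl_val]; exact hlt.2) (by rw [tl_val]; exact hlt'.2) e2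
    have e4 := congrArg Subtype.val e3
    rw [tl_val, tl_val] at e4
    apply Subtype.ext
    rw [← Fin.cons_self_tail (y : Fin (n + 1) → ℝ), ← Fin.cons_self_tail (y' : Fin (n + 1) → ℝ),
      e4]
    congr 1
    linarith
  · rw [pc_range, h.eq, prod_union, union_assoc]

theorem built_prod {S D : Set X} (h : Built ∅ D) (hS : D ⊆ S) :
    Built (({0, 1} : Set I) ×ˢ S) (({0, 1} : Set I) ×ˢ S ∪ univ ×ˢ D) := by
  induction h with
  | base => rw [prod_empty, union_empty]; exact Built.base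
  | @cell A B n Φ hb hatt ih =>
    have hAB : A ⊆ B := by rw [hatt.eq]; exact subset_union_left
    exact Built.cell (n + 1) (pc Φ) (ih (hAB.trans hS)) (attach_prod hatt hS)

end Prod

/-- two maps to `A` which are homotopic in `B` are homotopic in `A` -/
theorem homotopic_of_incl {B : Type} [TopologicalSpace B] [T2Space B] {A : Set B}
    (hb : Built ∅ A) (hA : ∀ n, Lft A n) (ι : C(A, B)) (hι : ∀ x, ι x = x) (f g : C(A, A))
    (h : (ι.comp f).Homotopic (ι.comp g)) : f.Homotopic g := by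
  classical
  obtain ⟨F⟩ := h
  have hAc : IsClosed A := built_closed isClosed_empty hb
  let F' : I × B → B := fun z => if h : z.2 ∈ A then F (z.1, ⟨z.2, h⟩) else z.2
  have hF' : ∀ t (a : A), F' (t, a) = F (t, a) := fun t a => by
    change (if h : (a : B) ∈ A then F (t, ⟨a, h⟩) else (a : B)) = F (t, a)
    rw [dif_pos a.2]
  have hF'c : ContinuousOn F' (univ ×ˢ A) := by
    rw [continuousOn_iff_continuous_domRestrict]
    have : (univ ×ˢ A).domRestrict F' = fun z : ((univ : Set I) ×ˢ A : Set (I × B)) =>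
        F (z.1.1, ⟨z.1.2, z.2.2⟩) := by
      funext z
      exact hF' z.1.1 ⟨z.1.2, z.2.2⟩
    rw [this]
    refine F.continuous.comp (Continuous.prodMk (by fun_prop) ?_)
    exact Continuous.subtype_mk (by fun_prop) _
  have hbu : Built (({0, 1} : Set I) ×ˢ A) (univ ×ˢ A) := by
    have := built_prod hb (subset_refl A)
    rwa [union_eq_self_of_subset_left (prod_mono_left (subset_univ _))] at this
  have hcl : IsClosed (({0, 1} : Set I) ×ˢ A) :=
    ((Set.finite_singleton (1 : I)).insert 0).isClosed.prod hAc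
  have hend : ∀ z ∈ ({0, 1} : Set I) ×ˢ A, F' z ∈ A := by
    rintro ⟨t, a⟩ ⟨ht, ha⟩
    have h1 := hF' t ⟨a, ha⟩
    have h2 : F' (t, a) = F (t, ⟨a, ha⟩) := h1
    rw [h2]
    rcases ht with ht | ht
    · have ht' : t = 0 := ht
      rw [ht', F.apply_zero, ContinuousMap.comp_apply, hι]
      exact (f _).2
    · have ht' : t = 1 := ht
      rw [ht', F.apply_one, ContinuousMap.comp_apply, hι]
      exact (g _).2
  obtain ⟨H', hc, h0, h1, h2⟩ := help hA hcl hbu F' (fun q => F' q.2) hF'c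
    (hF'c.comp continuous_snd.continuousOn fun q hq =>
      ⟨trivial, hq.2.2⟩) (fun _ _ => rfl) hend
  have hmem : ∀ q : I × A, H' (1, (q.1, (q.2 : B))) ∈ A := fun q => h1 _ ⟨trivial, q.2.2⟩
  have hcont : Continuous fun q : I × A => H' (1, (q.1, (q.2 : B))) :=
    hc.comp_continuous (by fun_prop) fun q => ⟨trivial, trivial, q.2.2⟩
  refine ⟨⟨⟨fun q => ⟨H' (1, (q.1, (q.2 : B))), hmem q⟩, hcont.subtype_mk _⟩, ?_, ?_⟩⟩
  · intro a
    apply Subtype.ext
    change H' (1, (0, (a : B))) = f a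
    rw [h2 1 (0, (a : B)) ⟨Or.inl rfl, a.2⟩]
    change F' (0, (a : B)) = f a
    rw [hF' 0 a, F.apply_zero, ContinuousMap.comp_apply, hι]
  · intro a
    apply Subtype.ext
    change H' (1, (1, (a : B))) = g a
    rw [h2 1 (1, (a : B)) ⟨Or.inr rfl, a.2⟩]
    change F' (1, (a : B)) = g a
    rw [hF' 1 a, F.apply_one, ContinuousMap.comp_apply, hι]

theorem main : SpecWh := by
  intro X B _ _ _ _ A hX hb hA ⟨e⟩
  obtain ⟨H, hc, h0, h1, -⟩ := help hA isClosed_empty hX (fun x => e.toFun x)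
    (fun q => e.toFun q.2) e.toFun.continuous.continuousOn (by simp) (by simp) (by simp)
  have hHc : Continuous H := by
    rw [← continuousOn_univ]
    rwa [univ_prod_univ] at hc
  let ι : C(A, B) := ⟨Subtype.val, continuous_subtype_val⟩
  let φ : C(X, A) := ⟨fun x => ⟨H (1, x), h1 x trivial⟩,
    (hHc.comp (by fun_prop : Continuous fun x : X => ((1 : I), x))).subtype_mk _⟩
  let ψ : C(A, X) := e.invFun.comp ι
  have hφ : (ι.comp φ).Homotopic e.toFun := by
    refine ContinuousMap.Homotopic.symm ⟨⟨⟨H, hHc⟩, ?_, ?_⟩⟩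
    · intro x; exact h0 x trivial
    · intro x; rfl
  have hψ : (ψ.comp φ).Homotopic (ContinuousMap.id X) := by
    have h3 : (e.invFun.comp (ι.comp φ)).Homotopic (e.invFun.comp e.toFun) :=
      (ContinuousMap.Homotopic.refl e.invFun).comp hφ
    exact h3.trans e.left_inv
  have hφψ : (φ.comp ψ).Homotopic (ContinuousMap.id A) := by
    apply homotopic_of_incl hb hA ι (fun _ => rfl)
    have h4 : ((ι.comp φ).comp ψ).Homotopic (e.toFun.comp ψ) :=
      hφ.comp (ContinuousMap.Homotopic.refl ψ)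
    have h5 : ((e.toFun.comp e.invFun).comp ι).Homotopic ((ContinuousMap.id B).comp ι) :=
      e.right_inv.comp (ContinuousMap.Homotopic.refl ι)
    exact h4.trans h5
  exact ⟨⟨φ, ψ, hψ, hφψ⟩⟩

end Vale.Agent.P246.T.WH
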