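import Vale.Agent.P246.T.Spec2

/-! # P246, topological version, block YC: the presentation complex inside `X × WW` -/

namespace Vale.Agent.P246.T.YC

open Topology Metric Set

section

variable {G : Type} [Group G] {m : ℕ} {E F : Type} [TopologicalSpace E] [MulAction G E]
  [ContinuousConstSMul G E] [TopologicalSpace F] [MulAction G F] [ContinuousConstSMul G F]

theorem gpath_apply (g : G) {a b : E} (γ : Path a b) (t : I) : gpath g γ t = g • γ t := rfl

theorem wpath_nil (x : Fin m → G) {e : E} (α : ∀ i, Path e (x i • e)) (t : I) :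
    wpath x α [] t = e := rfl

theorem wpath_cons (x : Fin m → G) {e : E} (α : ∀ i, Path e (x i • e)) (l : Fin m × Bool)
    (w : List (Fin m × Bool)) (t : I) : wpath x α (l :: w) t =
      (lpath x α l).trans (gpath (lval x l) (wpath x α w)) t := rfl

theorem lpath_true (x : Fin m → G) {e : E} (α : ∀ i, Path e (x i • e)) (i : Fin m) (t : I) :
    lpath x α (i, true) t = α i t := rfl

theorem lpath_false (x : Fin m → G) {e : E} (α : ∀ i, Path e (x i • e)) (i : Fin m) (t : I) :
    lpath x α (i, false) t = (x i)⁻¹ • α i (unitInterval.symm t) := rfl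

/-- naturality of the path of a word -/
theorem wpath_nat (f : E → F) (hf : ∀ (g : G) y, f (g • y) = g • f y) (x : Fin m → G) {e : E}
    (α : ∀ i, Path e (x i • e)) {e' : F} (α' : ∀ i, Path e' (x i • e')) (he : e' = f e)
    (hα : ∀ i t, α' i t = f (α i t)) (w : List (Fin m × Bool)) (t : I) :
    wpath x α' w t = f (wpath x α w t) := by
  induction w generalizing t with
  | nil => rw [wpath_nil, wpath_nil, he]
  | cons l w ih =>
    rw [wpath_cons, wpath_cons, Path.trans_apply, Path.trans_apply]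
    split_ifs with h
    · obtain ⟨i, b⟩ := l
      cases b
      · rw [lpath_false, lpath_false, hα, hf]
      · rw [lpath_true, lpath_true, hα]
    · rw [gpath_apply, gpath_apply, ih, hf]

/-- the path of a word stays in an invariant set -/
theorem wpath_mem (A : Set E) (hA : ∀ (g : G), ∀ y ∈ A, g • y ∈ A) (x : Fin m → G) {e : E}
    (α : ∀ i, Path e (x i • e)) (he : e ∈ A) (hα : ∀ i t, α i t ∈ A) (w : List (Fin m × Bool))
    (t : I) : wpath x α w t ∈ A := by
  induction w generalizing t with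
  | nil => rw [wpath_nil]; exact he
  | cons l w ih =>
    rw [wpath_cons, Path.trans_apply]
    split_ifs with h
    · obtain ⟨i, b⟩ := l
      cases b
      · rw [lpath_false]; exact hA _ _ (hα _ _)
      · rw [lpath_true]; exact hα _ _
    · rw [gpath_apply]; exact hA _ _ (ih _)

end

/-- the bump -/
noncomputable def kap {n : ℕ} (z : Fin n → ℝ) : Fin (n + 1) → ℝ :=
  Fin.cons (1 - ‖z‖) ((1 - ‖z‖) • z)

theorem continuous_kap (n : ℕ) : Continuous (kap : (Fin n → ℝ) → _) := by
  unfold kap
  refine continuous_pi fun i => ?_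
  refine Fin.cases ?_ (fun i => ?_) i
  · simp only [Fin.cons_zero]; fun_prop
  · simp only [Fin.cons_succ]; fun_prop

theorem kap_zero {n : ℕ} {z : Fin n → ℝ} (h : ‖z‖ = 1) : kap z = 0 := by
  funext i
  refine Fin.cases ?_ (fun i => ?_) i
  · simp [kap, h]
  · simp [kap, h]

theorem kap_ne {n : ℕ} {z : Fin n → ℝ} (h : ‖z‖ < 1) : kap z ≠ 0 := by
  intro h0
  have := congrFun h0 0
  simp only [kap, Fin.cons_zero, Pi.zero_apply] at this
  linarith

theorem kap_inj {n : ℕ} {z z' : Fin n → ℝ} (h : ‖z‖ < 1) (he : kap z = kap z') : z = z' := by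
  have h0 := congrFun he 0
  simp only [kap, Fin.cons_zero] at h0
  have hn : ‖z'‖ = ‖z‖ := by linarith
  funext i
  have h1 := congrFun he i.succ
  simp only [kap, Fin.cons_succ, Pi.smul_apply, smul_eq_mul, hn] at h1
  have h2 : (1 - ‖z‖) ≠ 0 := by linarith
  exact mul_left_cancel₀ h2 h1

theorem continuous_single {ι : Type} [DecidableEq ι] {V : Type} [TopologicalSpace V] [Zero V]
    (i : ι) : Continuous (fun v : V => (Pi.single i v : ι → V)) := by
  refine continuous_pi fun j => ?_
  by_cases h : j = i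
  · subst h; simp only [Pi.single_eq_same]; exact continuous_id
  · simp only [Pi.single_eq_of_ne h]; exact continuous_const

/-- the affine map `[0, 1] → [-1, 1]` -/
def sgm (t : I) : Fin 1 → ℝ := fun _ => 2 * (t : ℝ) - 1

theorem continuous_sgm : Continuous sgm := by unfold sgm; fun_prop

theorem norm_sgm (t : I) : ‖sgm t‖ = |2 * (t : ℝ) - 1| := by
  have : sgm t = fun _ => 2 * (t : ℝ) - 1 := rfl
  rw [this, pi_norm_const]; rfl

theorem sgm_par (z : Dk 1) : sgm (par ((z : Fin 1 → ℝ) 0)) = z := by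
  funext i
  have h := z.2
  rw [mem_closedBall_zero_iff] at h
  have h1 := (norm_le_pi_norm (z : Fin 1 → ℝ) 0).trans h
  rw [Real.norm_eq_abs, abs_le] at h1
  have hi : i = 0 := Subsingleton.elim _ _
  subst hi
  have e : sgm (par ((z : Fin 1 → ℝ) 0)) 0 = 2 * (par ((z : Fin 1 → ℝ) 0) : ℝ) - 1 := rfl
  rw [e, par, Set.coe_projIcc, min_eq_right (by linarith), max_eq_right (by linarith)]
  ring

theorem par_sgm (t : I) : par (sgm t 0) = t := by
  apply Subtype.ext
  have h0 := t.2.1
  have h1 := t.2.2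
  have e : sgm t 0 = 2 * (t : ℝ) - 1 := rfl
  rw [e, par, Set.coe_projIcc]
  have : ((2 * (t : ℝ) - 1 + 1) / 2) = t := by ring
  rw [this, min_eq_right h1, max_eq_right h0]

theorem sgm_mem (t : I) : sgm t ∈ closedBall (0 : Fin 1 → ℝ) 1 := by
  rw [mem_closedBall_zero_iff, norm_sgm, abs_le]
  constructor <;> linarith [t.2.1, t.2.2]

section Main

variable {G X E : Type} [Group G] [TopologicalSpace X]
  [TopologicalSpace E] [MulAction G E] [ContinuousConstSMul G E] (p : C(E, X))
  (Pr : FinPresentation G) {e : E} (α : ∀ i, Path e (Pr.x i • e))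
  (δ : Fin Pr.rels → C(Dk 2, E))

/-- the base point -/
def e' (e : E) : EW G E Pr.gens Pr.rels := (e, 0)

/-- the edges -/
noncomputable def ea (i : Fin Pr.gens) : Path (e' Pr e) (Pr.x i • e' Pr e) where
  toFun t := ((α i t, (Pi.single i (kap (sgm t)), 0)) : E × WW Pr.gens Pr.rels)
  continuous_toFun := by
    refine (α i).continuous.prodMk (Continuous.prodMk ?_ continuous_const)
    exact (continuous_single i).comp ((continuous_kap 1).comp continuous_sgm)
  source' := by
    change ((α i 0, (Pi.single i (kap (sgm 0)), 0)) : E × WW Pr.gens Pr.rels) = (e, 0)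
    rw [(α i).source, kap_zero (by rw [norm_sgm]; norm_num), Pi.single_zero]; rfl
  target' := by
    change ((α i 1, (Pi.single i (kap (sgm 1)), 0)) : E × WW Pr.gens Pr.rels) = (Pr.x i • e, 0)
    rw [(α i).target, kap_zero (by rw [norm_sgm]; norm_num), Pi.single_zero]; rfl

theorem ea_apply (i : Fin Pr.gens) (t : I) : ea Pr α i t =
    ((α i t, (Pi.single i (kap (sgm t)), 0)) : E × WW Pr.gens Pr.rels) := rfl

theorem fst_smul (g : G) (y : EW G E Pr.gens Pr.rels) : (g • y).1 = g • y.1 := rfl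

theorem snd_smul (g : G) (y : EW G E Pr.gens Pr.rels) : (g • y).2 = y.2 := rfl

theorem wpath_fst (w : List (Fin Pr.gens × Bool)) (t : I) :
    (wpath Pr.x (ea Pr α) w t).1 = wpath Pr.x α w t :=
  (wpath_nat (fun z : EW G E Pr.gens Pr.rels => z.1) (fun _ _ => rfl) Pr.x (ea Pr α) α rfl
    (fun _ _ => rfl) w t).symm

theorem wpath_snd_snd (w : List (Fin Pr.gens × Bool)) (t : I) :
    (wpath Pr.x (ea Pr α) w t).2.2 = 0 :=
  wpath_mem {z : EW G E Pr.gens Pr.rels | z.2.2 = 0} (fun _ _ h => h) Pr.x (ea Pr α) rfl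
    (fun _ _ => rfl) w t

/-- the face block -/
noncomputable def fb (w : List (Fin Pr.gens × Bool)) (z : Dk 2) : Fin Pr.gens → Fin 2 → ℝ :=
  (((z : Fin 2 → ℝ) 0 + 1) / 2) • (wpath Pr.x (ea Pr α) w (par ((z : Fin 2 → ℝ) 1))).2.1

theorem continuous_fb (w : List (Fin Pr.gens × Bool)) : Continuous (fb Pr α w) := by
  have h1 : Continuous fun z : Dk 2 => (z : Fin 2 → ℝ) 0 :=
    (continuous_apply 0).comp continuous_subtype_val
  have h2 : Continuous fun z : Dk 2 => (z : Fin 2 → ℝ) 1 :=
    (continuous_apply 1).comp continuous_subtype_val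
  have h3 : Continuous fun y : EW G E Pr.gens Pr.rels => y.2.1 :=
    (continuous_fst.comp continuous_snd : Continuous fun y : E × WW Pr.gens Pr.rels => y.2.1)
  exact ((h1.add continuous_const).div_const 2).smul (h3.comp
    ((wpath Pr.x (ea Pr α) w).continuous.comp (continuous_par.comp h2)))

/-- the faces -/
noncomputable def fa (j : Fin Pr.rels) : C(Dk 2, EW G E Pr.gens Pr.rels) where
  toFun z := ((δ j z, (fb Pr α (Pr.r j).toWord z, Pi.single j (kap (z : Fin 2 → ℝ)))) :
    E × WW Pr.gens Pr.rels)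
  continuous_toFun := by
    refine (δ j).continuous.prodMk (Continuous.prodMk (continuous_fb Pr α _) ?_)
    exact (continuous_single j).comp ((continuous_kap 2).comp continuous_subtype_val)

theorem fa_apply (j : Fin Pr.rels) (z : Dk 2) : fa Pr α δ j z =
    ((δ j z, (fb Pr α (Pr.r j).toWord z, Pi.single j (kap (z : Fin 2 → ℝ)))) :
      E × WW Pr.gens Pr.rels) := rfl

theorem coord_le (z : Dk 2) (i : Fin 2) : |(z : Fin 2 → ℝ) i| ≤ 1 := by
  have h := z.2
  rw [mem_closedBall_zero_iff] at h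
  exact (norm_le_pi_norm (z : Fin 2 → ℝ) i).trans h

theorem fb_side (w : List (Fin Pr.gens × Bool)) (z : Dk 2) (h : (z : Fin 2 → ℝ) 0 = 1) :
    fb Pr α w z = (wpath Pr.x (ea Pr α) w (par ((z : Fin 2 → ℝ) 1))).2.1 := by
  rw [fb, h]; norm_num

theorem fb_rest (w : List (Fin Pr.gens × Bool)) (z : Dk 2) (hz : ‖(z : Fin 2 → ℝ)‖ = 1)
    (h : (z : Fin 2 → ℝ) 0 ≠ 1) : fb Pr α w z = 0 := by
  have h0 := coord_le z 0
  have h1 := coord_le z 1
  by_cases h2 : (z : Fin 2 → ℝ) 0 = -1
  · rw [fb, h2]; norm_num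
  · have h3 : |(z : Fin 2 → ℝ) 0| < 1 := by
      rw [abs_le] at h0
      rw [abs_lt]
      exact ⟨lt_of_le_of_ne h0.1 (Ne.symm h2), lt_of_le_of_ne h0.2 h⟩
    have h4 : |(z : Fin 2 → ℝ) 1| = 1 := by
      by_contra hne
      have h5 : |(z : Fin 2 → ℝ) 1| < 1 := lt_of_le_of_ne h1 hne
      have : ‖(z : Fin 2 → ℝ)‖ < 1 := by
        rw [pi_norm_lt_iff one_pos]
        intro i
        fin_cases i
        · exact h3
        · exact h5
      linarith
    rw [fb]
    have h5 : (wpath Pr.x (ea Pr α) w (par ((z : Fin 2 → ℝ) 1))).2.1 = 0 := by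
      rcases (abs_eq one_pos.le).1 h4 with h6 | h6
      · rw [h6]
        have : par 1 = 1 := by
          apply Subtype.ext
          rw [par, Set.coe_projIcc]; norm_num
        rw [this, Path.target]
        rfl
      · rw [h6]
        have : par (-1) = 0 := by
          apply Subtype.ext
          rw [par, Set.coe_projIcc]; norm_num
        rw [this, Path.source]
        rfl
    rw [h5, smul_zero]

/-- the presentation complex -/
noncomputable def cx (hδ : ∀ j, BdryWord Pr.x α (Pr.r j).toWord (δ j)) :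
    PresCx Pr (pW G Pr.gens Pr.rels p) where
  e := e' Pr e
  a := ea Pr α
  b := fa Pr α δ
  bdry := by
    intro j z hz
    constructor
    · intro h
      rw [fa_apply, fb_side Pr α _ z h, kap_zero hz, Pi.single_zero, ((hδ j) z hz).1 h]
      exact Prod.ext (wpath_fst Pr α _ _).symm (Prod.ext rfl (wpath_snd_snd Pr α _ _).symm)
    · intro h
      rw [fa_apply, fb_rest Pr α _ z hz h, kap_zero hz, Pi.single_zero, ((hδ j) z hz).2 h]
      rfl

variable (hδ : ∀ j, BdryWord Pr.x α (Pr.r j).toWord (δ j))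

theorem pW_apply (z : EW G E Pr.gens Pr.rels) :
    pW G Pr.gens Pr.rels p z = ((p z.1, z.2) : X × WW Pr.gens Pr.rels) := rfl

theorem edge_apply (i : Fin Pr.gens) (z : Dk 1) : (pW G Pr.gens Pr.rels p) ((cx p Pr α δ hδ).edge i z) =
    (p (α i (par ((z : Fin 1 → ℝ) 0))), (Pi.single i (kap (z : Fin 1 → ℝ)), 0)) := by
  change ((p (α i (par ((z : Fin 1 → ℝ) 0))),
    (Pi.single i (kap (sgm (par ((z : Fin 1 → ℝ) 0)))), 0)) : X × WW Pr.gens Pr.rels) = _
  rw [sgm_par]

theorem Y1_snd_snd {k : ℕ} {y : X × WW Pr.gens Pr.rels} (hy : y ∈ (cx p Pr α δ hδ).Y1 k) :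
    y.2.2 = 0 := by
  rcases hy with hy | hy
  · rw [mem_singleton_iff.1 hy]; rfl
  · simp only [mem_iUnion] at hy
    obtain ⟨i, _, z, rfl⟩ := hy
    rw [ContinuousMap.comp_apply, edge_apply]

theorem Y1_block {k : ℕ} {y : X × WW Pr.gens Pr.rels} (hy : y ∈ (cx p Pr α δ hδ).Y1 k)
    (i : Fin Pr.gens) (hi : k ≤ i) : y.2.1 i = 0 := by
  rcases hy with hy | hy
  · rw [mem_singleton_iff.1 hy]; rfl
  · simp only [mem_iUnion] at hy
    obtain ⟨i', hi', z, rfl⟩ := hy
    rw [ContinuousMap.comp_apply, edge_apply]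
    exact Pi.single_eq_of_ne (by rintro rfl; omega) _

theorem Y2_block {k : ℕ} {y : X × WW Pr.gens Pr.rels} (hy : y ∈ (cx p Pr α δ hδ).Y2 k)
    (j : Fin Pr.rels) (hj : k ≤ j) : y.2.2 j = 0 := by
  rcases hy with hy | hy
  · rw [Y1_snd_snd p Pr α δ hδ hy]; rfl
  · simp only [mem_iUnion] at hy
    obtain ⟨j', hj', z, rfl⟩ := hy
    change (Pi.single j' (kap (z : Fin 2 → ℝ)) : Fin Pr.rels → Fin 3 → ℝ) j = 0
    exact Pi.single_eq_of_ne (by rintro rfl; omega) _

theorem mem_Y1 (hp : ∀ (g : G) y, p (g • y) = p y) (i : Fin Pr.gens) (t : I) :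
    (pW G Pr.gens Pr.rels p) (ea Pr α i t) ∈ (cx p Pr α δ hδ).Y1 Pr.gens := by
  refine Or.inr (mem_iUnion.2 ⟨i, mem_iUnion.2 ⟨i.2, ⟨⟨sgm t, sgm_mem t⟩, ?_⟩⟩⟩)
  rw [ContinuousMap.comp_apply]
  change (pW G Pr.gens Pr.rels p) (ea Pr α i (par (sgm t 0))) = _
  rw [par_sgm]

theorem good (hp : ∀ (g : G) y, p (g • y) = p y) : (cx p Pr α δ hδ).Good where
  att1 i := by
    refine ⟨fun z hz => ?_, fun z hz hm => ?_, fun z z' hz hz' he => ?_, ?_⟩
    · left
      rw [ContinuousMap.comp_apply, edge_apply, kap_zero hz, Pi.single_zero, mem_singleton_iff]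
      change _ = ((p e, 0) : X × WW Pr.gens Pr.rels)
      have h1 : |(z : Fin 1 → ℝ) 0| = 1 := by
        have h2 : ‖(z : Fin 1 → ℝ)‖ = |(z : Fin 1 → ℝ) 0| := by
          have : (z : Fin 1 → ℝ) = fun _ => (z : Fin 1 → ℝ) 0 := by
            funext i; rw [Subsingleton.elim i 0]
          conv_lhs => rw [this]
          rw [pi_norm_const]; rfl
        rw [← h2, hz]
      rcases (abs_eq one_pos.le).1 h1 with h2 | h2
      · rw [h2]
        have : par 1 = 1 := by
          apply Subtype.ext
          rw [par, Set.coe_projIcc]; norm_num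
        rw [this, Path.target, hp]
        rfl
      · rw [h2]
        have : par (-1) = 0 := by
          apply Subtype.ext
          rw [par, Set.coe_projIcc]; norm_num
        rw [this, Path.source]
        rfl
    · have := Y1_block p Pr α δ hδ hm i le_rfl
      rw [ContinuousMap.comp_apply, edge_apply] at this
      change (Pi.single i (kap (z : Fin 1 → ℝ)) : Fin Pr.gens → Fin 2 → ℝ) i = 0 at this
      rw [Pi.single_eq_same] at this
      exact kap_ne hz this
    · rw [ContinuousMap.comp_apply, ContinuousMap.comp_apply, edge_apply, edge_apply] at he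
      have h1 := congrFun (congrArg (fun y : X × WW Pr.gens Pr.rels => y.2.1) he) i
      simp only [Pi.single_eq_same] at h1
      exact Subtype.ext (kap_inj hz h1)
    · ext y
      simp only [PresCx.Y1, mem_union, mem_iUnion, mem_singleton_iff]
      constructor
      · rintro (h | ⟨i', h1, h2⟩)
        · exact Or.inl (Or.inl h)
        · by_cases h3 : (i' : ℕ) < i
          · exact Or.inl (Or.inr ⟨i', h3, h2⟩)
          · have : i' = i := Fin.ext (by omega)
            subst this
            exact Or.inr h2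
      · rintro ((h | ⟨i', h1, h2⟩) | h)
        · exact Or.inl h
        · exact Or.inr ⟨i', by omega, h2⟩
        · exact Or.inr ⟨i, by omega, h⟩
  att2 j := by
    refine ⟨fun z hz => ?_, fun z hz hm => ?_, fun z z' hz hz' he => ?_, ?_⟩
    · left
      have hmem : ∀ w t, (pW G Pr.gens Pr.rels p) (wpath Pr.x (ea Pr α) w t) ∈
          (cx p Pr α δ hδ).Y1 Pr.gens := by
        intro w t
        refine wpath_mem {y | (pW G Pr.gens Pr.rels p) y ∈ (cx p Pr α δ hδ).Y1 Pr.gens} ?_ Pr.x
          (ea Pr α) (Or.inl rfl) (fun i t => mem_Y1 p Pr α δ hδ hp i t) w t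
        intro g y hy
        have : (pW G Pr.gens Pr.rels p) (g • y) = (pW G Pr.gens Pr.rels p) y := by
          rw [pW_apply, pW_apply, fst_smul, snd_smul, hp]
        refine (?_ : (pW G Pr.gens Pr.rels p) (g • y) ∈ (cx p Pr α δ hδ).Y1 Pr.gens)
        rw [this]
        exact hy
      rw [ContinuousMap.comp_apply]
      by_cases h : (z : Fin 2 → ℝ) 0 = 1
      · rw [((cx p Pr α δ hδ).bdry j z hz).1 h]
        exact hmem _ _
      · rw [((cx p Pr α δ hδ).bdry j z hz).2 h]
        exact Or.inl rfl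
    · have := Y2_block p Pr α δ hδ hm j le_rfl
      rw [ContinuousMap.comp_apply] at this
      change (Pi.single j (kap (z : Fin 2 → ℝ)) : Fin Pr.rels → Fin 3 → ℝ) j = 0 at this
      rw [Pi.single_eq_same] at this
      exact kap_ne hz this
    · rw [ContinuousMap.comp_apply, ContinuousMap.comp_apply] at he
      have h1 := congrFun (congrArg (fun y : X × WW Pr.gens Pr.rels => y.2.2) he) j
      change (Pi.single j (kap (z : Fin 2 → ℝ)) : Fin Pr.rels → Fin 3 → ℝ) j =
        (Pi.single j (kap (z' : Fin 2 → ℝ)) : Fin Pr.rels → Fin 3 → ℝ) j at h1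
      rw [Pi.single_eq_same, Pi.single_eq_same] at h1
      exact Subtype.ext (kap_inj hz h1)
    · ext y
      simp only [PresCx.Y2, mem_union, mem_iUnion]
      constructor
      · rintro (h | ⟨i', h1, h2⟩)
        · exact Or.inl (Or.inl h)
        · by_cases h3 : (i' : ℕ) < j
          · exact Or.inl (Or.inr ⟨i', h3, h2⟩)
          · have : i' = j := Fin.ext (by omega)
            subst this
            exact Or.inr h2
      · rintro ((h | ⟨i', h1, h2⟩) | h)
        · exact Or.inl h
        · exact Or.inr ⟨i', by omega, h2⟩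
        · exact Or.inr ⟨j, by omega, h⟩

end Main

theorem main : SpecYC := by
  intro G X E _ _ _ _ _ _ p hp Pr e α δ hδ
  exact ⟨cx p Pr α δ hδ, good p Pr α δ hδ (fun g y => hp.map_smul g), rfl,
    fun _ _ => rfl, fun _ _ => rfl⟩

end Vale.Agent.P246.T.YC
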