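import Vale.Agent.P246.T.Spec2
import Vale.Agent.P246.T.CC
import Vale.Agent.P246.T.SD

/-! # Block YH: the chains of the covering of the presentation complex -/

namespace Vale.Agent.P246.T.YH

open Topology Metric Set

variable {G X E : Type} [Group G] [TopologicalSpace X] [TopologicalSpace E] [MulAction G E]
  [ContinuousConstSMul G E] {p : C(E, X)}

theorem inv (hp : IsQuotientCoveringMap p G) (A : Set X) :
    ∀ (g : G), ∀ x ∈ p ⁻¹' A, g • x ∈ p ⁻¹' A := fun g x hx => by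
  change p (g • x) ∈ A
  rw [hp.map_smul]
  exact hx

/-- The chains over `A`. -/
noncomputable abbrev SA (hp : IsQuotientCoveringMap p G) (A : Set X) (n : ℕ) :
    Submodule (ZG G) (SC G n E) := SCon n (p ⁻¹' A) (inv hp A)

theorem mem_SA {hp : IsQuotientCoveringMap p G} {A : Set X} {n : ℕ} {c : SC G n E} :
    c ∈ SA hp A n ↔ c.un ∈ Con (p ⁻¹' A) n := Iff.rfl

/-- The model property. -/
abbrev Mdl (hp : IsQuotientCoveringMap p G) (A : Set X)
    (P : ∀ n, Submodule (ZG G) (SC G n E)) : Prop :=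
  IsModel (fun n => SC G n E) (fun n => SC.d G n E) (fun n => SA hp A n) P

theorem con_mono {M : Type} [TopologicalSpace M] {A B : Set M} (h : A ⊆ B) (n : ℕ) :
    Con A n ≤ Con B n := Finsupp.supported_mono fun _ hσ x => h (hσ x)

theorem bd_mem {M : Type} [TopologicalSpace M] {A : Set M} {n : ℕ} {c : Ch (n + 1) M}
    (h : c ∈ Con A (n + 1)) : bd n c ∈ Con A n := by
  classical
  rw [bd, Finsupp.linearCombination_apply, Finsupp.sum]
  refine Submodule.sum_mem _ fun σ hσ => Submodule.smul_mem _ _ (Submodule.sum_mem _ fun i _ => ?_)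
  exact Finsupp.single_mem_supported ℤ _ fun x => h hσ _

theorem smul_sum (r : ZG G) {n : ℕ} (Ψ : C(Dk n, E)) (ζ : Ch n (Dk n)) :
    (r • SC.mk G (push Ψ n ζ)).un = r.coeff.sum fun g a => a • push ((gm g).comp Ψ) n ζ := by
  rw [SC.un_smul, SC.un_mk]
  simp only [push_comp]

variable [T2Space X]

theorem step (hms : SpecMS) (hcl : SpecCL) (hp : IsQuotientCoveringMap p G) {n : ℕ} {A B : Set X}
    {Φ : C(Dk n, X)} {Ψ : C(Dk n, E)} (hA : IsClosed A) (h : Attach n A B Φ)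
    (hΨ : ∀ x, p (Ψ x) = Φ x) {ζ : Ch n (Dk n)} (hζ : IsFund n ζ)
    {P : ∀ n, Submodule (ZG G) (SC G n E)} (hP : Mdl hp A P) {z : SC G n E}
    (hz : z - SC.mk G (push Ψ n ζ) ∈ SA hp A n)
    (hzP : DRel (fun n => SC G n E) (fun n => SC.d G n E) P n z) :
    Mdl hp B (Function.update P n (P n ⊔ Submodule.span (ZG G) {z})) ∧
      ∀ r : ZG G, r • z ∈ SA hp A n → r = 0 := by
  have hAB : A ⊆ B := by rw [h.eq]; exact subset_union_left
  have hcd := CC.main2 G X E p hp n A B Φ Ψ hA h hΨ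
  obtain ⟨k1, k2, k3⟩ := hcl E n G (p ⁻¹' B) (p ⁻¹' A) _ ζ hζ hcd
  have hzB : z ∈ SA hp B n := by
    have h1 : SC.mk G (push Ψ n ζ) ∈ SA hp B n := by
      rw [mem_SA, SC.un_mk]
      refine push_mem (A := univ) (fun x _ => ?_) (Finsupp.mem_supported _ _ |>.2 fun σ _ x => trivial)
      change p (Ψ x) ∈ B
      rw [hΨ, h.eq]
      exact Or.inr ⟨x, rfl⟩
    have h2 := (SA hp B n).add_mem (con_mono (preimage_mono hAB) n hz) h1
    rwa [sub_add_cancel] at h2
  have key : ∀ r : ZG G, (r • z).un - (r.coeff.sum fun g a => a • push ((gm g).comp Ψ) n ζ) ∈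
      Con (p ⁻¹' A) n := by
    intro r
    have h1 := (SA hp A n).smul_mem r hz
    rw [smul_sub, mem_SA, SC.un_sub, smul_sum] at h1
    exact h1
  have rel3 : ∀ r : ZG G, (∃ y ∈ SA hp B (n + 1), r • z - SC.d G n E y ∈ SA hp A n) → r = 0 := by
    rintro r ⟨y, hy, hy1⟩
    have h1 : r.coeff = 0 := by
      refine k3 r.coeff ⟨y.un, hy, ?_⟩
      have h2 := (Con (p ⁻¹' A) n).sub_mem (mem_SA.1 hy1) (key r)
      rw [SC.un_sub, SC.un_d] at h2
      convert h2 using 1
      abel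
    exact MonoidAlgebra.coeff_eq_zero.1 h1
  refine ⟨?_, fun r hr => rel3 r ⟨0, (SA hp B (n + 1)).zero_mem, by rwa [map_zero, sub_zero]⟩⟩
  refine hms (ZG G) (fun n => SC G n E) (fun n => SC.d G n E) (fun n x => ?_)
    (fun n => SA hp A n) (fun n => SA hp B n) P (fun n x hx => ?_) (fun n x hx => ?_)
    (fun n x hx => con_mono (preimage_mono hAB) n hx) hP n z hzB hzP ?_ ?_ rel3
  · exact SD.bd_bd n x.un
  · exact bd_mem hx
  · exact bd_mem hx
  · intro k hk x hx hr
    obtain ⟨b, hb, hb1⟩ := k1 k hk x.un hx (by cases k <;> exact hr)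
    exact ⟨SC.mk G b, hb, hb1⟩
  · intro x hx hr
    obtain ⟨m, b, hb, hb1⟩ := k2 x.un hx (by cases n <;> exact hr)
    refine ⟨MonoidAlgebra.ofCoeff m, SC.mk G b, hb, ?_⟩
    have h2 := (Con (p ⁻¹' A) n).sub_mem hb1 (key (MonoidAlgebra.ofCoeff m))
    rw [mem_SA, SC.un_sub, SC.un_sub, SC.un_d, SC.un_mk]
    convert h2 using 1
    rw [MonoidAlgebra.coeff_ofCoeff]
    abel

/-! ### Affine simplices and boundaries -/

section Aff

theorem face_self {k : ℕ} (i : Fin (k + 1)) (t : Dl k) : face k i t i = 0 := by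
  change stdSimplex.map (S := ℝ) i.succAbove t i = 0
  rw [stdSimplex.map_coe, FunOnFinite.linearMap_apply_apply]
  refine Finset.sum_eq_zero fun j hj => ?_
  exact absurd (Finset.mem_filter.1 hj).2 (Fin.succAbove_ne i j)

theorem face_succAbove {k : ℕ} (i : Fin (k + 1)) (t : Dl k) (j : Fin k) :
    face k i t (i.succAbove j) = t j := by
  change stdSimplex.map (S := ℝ) i.succAbove t (i.succAbove j) = t j
  rw [stdSimplex.map_coe, FunOnFinite.linearMap_apply_apply]
  rw [Finset.sum_eq_single j]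
  · intro l hl hlj
    exact absurd (Fin.succAbove_right_injective (Finset.mem_filter.1 hl).2) hlj
  · intro h
    exact (h (by simp)).elim

theorem asx_face {n k : ℕ} (v : Fin (k + 1) → Fin n → ℝ) (i : Fin (k + 1)) :
    (asx v).comp (face k i) = asx fun j => v (i.succAbove j) := by
  ext t : 1
  change clp n (∑ j, face k i t j • v j) = clp n (∑ j, t j • v (i.succAbove j))
  rw [Fin.sum_univ_succAbove _ i, face_self, zero_smul, zero_add]
  simp only [face_succAbove]

theorem clp_of_mem {n : ℕ} {x : Fin n → ℝ} (h : ∀ i, |x i| ≤ 1) (i : Fin n) :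
    ((clp n x : Dk n) : Fin n → ℝ) i = x i := by
  have h1 := abs_le.1 (h i)
  change max (-1) (min 1 (x i)) = x i
  rw [min_eq_right h1.2, max_eq_right h1.1]

theorem asx_apply {n k : ℕ} (v : Fin k → Fin n → ℝ) (t : Dl k)
    (h : ∀ j, |(∑ i, t i • v i) j| ≤ 1) (j : Fin n) :
    ((asx v t : Dk n) : Fin n → ℝ) j = (∑ i, t i • v i) j := clp_of_mem h j

theorem sum_two (t : Dl 2) : t 0 + t 1 = 1 := by
  have := stdSimplex.sum_eq_one t
  rwa [Fin.sum_univ_two] at this

theorem bd_psx {a b : E} (γ : Path a b) : bd 0 (psx γ) = ksx 0 b - ksx 0 a := by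
  have h1 : ∀ x : Dl 1, x 0 = 1 := fun x => by
    have := stdSimplex.sum_eq_one x
    rwa [Fin.sum_univ_one] at this
  have e0 : (γ.toContinuousMap.comp (crd 1)).comp (face 1 0) = ContinuousMap.const (Dl 1) b := by
    ext x
    change γ (crd 1 (face 1 0 x)) = b
    have : crd (k := 2) 1 (face 1 0 x) = 1 := by
      apply Subtype.ext
      change face 1 0 x 1 = 1
      have := face_succAbove (0 : Fin 2) x 0
      rw [h1] at this
      exact this
    rw [this, γ.target]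
  have e1 : (γ.toContinuousMap.comp (crd 1)).comp (face 1 1) = ContinuousMap.const (Dl 1) a := by
    ext x
    change γ (crd 1 (face 1 1 x)) = a
    have : crd (k := 2) 1 (face 1 1 x) = 0 := by
      apply Subtype.ext
      exact face_self (1 : Fin 2) x
    rw [this, γ.source]
  rw [psx, bd_single, Fin.sum_univ_two, e0, e1]
  simp [ksx, sub_eq_add_neg]

theorem bd_ksx2 (e : E) : bd 1 (ksx 2 e) = ksx 1 e := by
  have h : ∀ i, (ContinuousMap.const (Dl 3) e).comp (face 2 i) = ContinuousMap.const (Dl 2) e :=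
    fun i => rfl
  rw [ksx, bd_single, Fin.sum_univ_three, h, h, h, ksx]
  simp

theorem asx_two (v : Fin 2 → Fin 2 → ℝ) (hv : ∀ i j, |v i j| ≤ 1) (t : Dl 2) (j : Fin 2) :
    ((asx v t : Dk 2) : Fin 2 → ℝ) j = t 0 * v 0 j + t 1 * v 1 j := by
  have hsum : ∀ j, (∑ i, t i • v i) j = t 0 * v 0 j + t 1 * v 1 j := fun j => by
    rw [Fin.sum_univ_two]; rfl
  rw [asx_apply, hsum]
  intro j
  rw [hsum]
  have ht := sum_two t
  have h0 := stdSimplex.zero_le t 0
  have h1 := stdSimplex.zero_le t 1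
  have a0 := abs_le.1 (hv 0 j)
  have a1 := abs_le.1 (hv 1 j)
  rw [abs_le]
  constructor <;> nlinarith

theorem norm_asx (v : Fin 2 → Fin 2 → ℝ) (hv : ∀ i j, |v i j| ≤ 1) (t : Dl 2) (j : Fin 2)
    (h0 : |v 0 j| = 1) (h1 : v 1 j = v 0 j) : ‖((asx v t : Dk 2) : Fin 2 → ℝ)‖ = 1 := by
  refine le_antisymm (mem_closedBall_zero_iff.1 (asx v t : Dk 2).2) ?_
  refine le_trans (le_of_eq ?_) (norm_le_pi_norm _ j)
  rw [asx_two v hv, h1, ← add_mul, sum_two, one_mul, Real.norm_eq_abs, h0]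

theorem par_one : par 1 = 1 := Set.projIcc_of_right_le zero_le_one (by norm_num)

theorem par_neg_one : par (-1) = 0 := Set.projIcc_of_le_left zero_le_one (by norm_num)

theorem vert_abs {v : Fin 2 → Fin 2 → ℝ} (h : ∀ i j, v i j = 1 ∨ v i j = -1) (i j : Fin 2) :
    |v i j| ≤ 1 := by
  rcases h i j with h | h <;> rw [h] <;> norm_num

theorem bd_face {m : ℕ} (x : Fin m → G) {e : E} (α : ∀ i, Path e (x i • e))
    (w : List (Fin m × Bool)) (hw : wval x w = 1) (δ : C(Dk 2, E)) (h : BdryWord x α w δ) :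
    bd 1 (push δ 2 zeta2) = psx (wpath x α w) - ksx 1 e := by
  have hconst : ∀ z : Dk 2, ‖(z : Fin 2 → ℝ)‖ = 1 → ((z : Fin 2 → ℝ) 0 = 1 →
      (z : Fin 2 → ℝ) 1 = 1 ∨ (z : Fin 2 → ℝ) 1 = -1) → δ z = e := by
    intro z hz hz1
    by_cases h0 : (z : Fin 2 → ℝ) 0 = 1
    · rw [(h z hz).1 h0]
      rcases hz1 h0 with h1 | h1
      · rw [h1, par_one, Path.target, hw, one_smul]
      · rw [h1, par_neg_one, Path.source]
    · exact (h z hz).2 h0
  have hr : δ.comp (asx ![![1, -1], ![1, 1]]) = (wpath x α w).toContinuousMap.comp (crd 1) := by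
    have hv : ∀ i j, |(![![1, -1], ![1, 1]] : Fin 2 → Fin 2 → ℝ) i j| ≤ 1 := by
      intro i j
      fin_cases i <;> fin_cases j <;> simp
    ext t
    have ht := sum_two t
    have h1 := stdSimplex.zero_le t 1
    have h0 := stdSimplex.zero_le t 0
    have e0 := asx_two _ hv t 0
    have e1 := asx_two _ hv t 1
    have hn := norm_asx _ hv t 0 (by simp) (by simp)
    change δ (asx ![![1, -1], ![1, 1]] t) = wpath x α w (crd 1 t)
    rw [(h _ hn).1 (by rw [e0]; simpa using ht), e1]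
    congr 1
    apply Subtype.ext
    have e2 : t 0 * (![![1, -1], ![1, 1]] : Fin 2 → Fin 2 → ℝ) 0 1 +
        t 1 * (![![1, -1], ![1, 1]] : Fin 2 → Fin 2 → ℝ) 1 1 = t 1 - t 0 := by
      simp; ring
    rw [e2, par]
    have : (t 1 - t 0 + 1) / 2 = t 1 := by linarith
    rw [this, Set.projIcc_of_mem zero_le_one ⟨h1, by linarith⟩]
    rfl
  have hb : δ.comp (asx ![![-1, -1], ![1, -1]]) = ContinuousMap.const (Dl 2) e := by
    have hv : ∀ i j, |(![![-1, -1], ![1, -1]] : Fin 2 → Fin 2 → ℝ) i j| ≤ 1 := by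
      intro i j
      fin_cases i <;> fin_cases j <;> simp
    ext t
    refine hconst _ (norm_asx _ hv t 1 (by simp) (by simp)) fun _ => Or.inr ?_
    rw [asx_two _ hv]
    simp only [Matrix.cons_val_zero, Matrix.cons_val_one, Matrix.cons_val_fin_one]
    linarith [sum_two t]
  have htp : δ.comp (asx ![![-1, 1], ![1, 1]]) = ContinuousMap.const (Dl 2) e := by
    have hv : ∀ i j, |(![![-1, 1], ![1, 1]] : Fin 2 → Fin 2 → ℝ) i j| ≤ 1 := by
      intro i j
      fin_cases i <;> fin_cases j <;> simp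
    ext t
    refine hconst _ (norm_asx _ hv t 1 (by simp) (by simp)) fun _ => Or.inl ?_
    rw [asx_two _ hv]
    simp only [Matrix.cons_val_zero, Matrix.cons_val_one, Matrix.cons_val_fin_one]
    linarith [sum_two t]
  have hl : δ.comp (asx ![![-1, -1], ![-1, 1]]) = ContinuousMap.const (Dl 2) e := by
    have hv : ∀ i j, |(![![-1, -1], ![-1, 1]] : Fin 2 → Fin 2 → ℝ) i j| ≤ 1 := by
      intro i j
      fin_cases i <;> fin_cases j <;> simp
    ext t
    refine hconst _ (norm_asx _ hv t 0 (by simp) (by simp)) fun h0 => ?_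
    rw [asx_two _ hv] at h0
    simp only [Matrix.cons_val_zero, Matrix.cons_val_one, Matrix.cons_val_fin_one] at h0
    linarith [sum_two t]
  have hf : ∀ (v : Fin 3 → Fin 2 → ℝ) (i : Fin 3),
      (δ.comp (asx v)).comp (face 2 i) = δ.comp (asx fun j => v (i.succAbove j)) := fun v i => by
    rw [ContinuousMap.comp_assoc, asx_face]
  have g0 : (fun j => (![![-1, -1], ![1, -1], ![1, 1]] : Fin 3 → Fin 2 → ℝ)
      ((0 : Fin 3).succAbove j)) = ![![1, -1], ![1, 1]] := by
    funext j; fin_cases j <;> rfl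
  have g1 : (fun j => (![![-1, -1], ![1, -1], ![1, 1]] : Fin 3 → Fin 2 → ℝ)
      ((1 : Fin 3).succAbove j)) = ![![-1, -1], ![1, 1]] := by
    funext j; fin_cases j <;> rfl
  have g2 : (fun j => (![![-1, -1], ![1, -1], ![1, 1]] : Fin 3 → Fin 2 → ℝ)
      ((2 : Fin 3).succAbove j)) = ![![-1, -1], ![1, -1]] := by
    funext j; fin_cases j <;> rfl
  have g0' : (fun j => (![![-1, -1], ![-1, 1], ![1, 1]] : Fin 3 → Fin 2 → ℝ)
      ((0 : Fin 3).succAbove j)) = ![![-1, 1], ![1, 1]] := by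
    funext j; fin_cases j <;> rfl
  have g1' : (fun j => (![![-1, -1], ![-1, 1], ![1, 1]] : Fin 3 → Fin 2 → ℝ)
      ((1 : Fin 3).succAbove j)) = ![![-1, -1], ![1, 1]] := by
    funext j; fin_cases j <;> rfl
  have g2' : (fun j => (![![-1, -1], ![-1, 1], ![1, 1]] : Fin 3 → Fin 2 → ℝ)
      ((2 : Fin 3).succAbove j)) = ![![-1, -1], ![-1, 1]] := by
    funext j; fin_cases j <;> rfl
  rw [zeta2, map_sub, push_single, push_single, map_sub, bd_single, bd_single,
    Fin.sum_univ_three, Fin.sum_univ_three, hf, hf, hf, hf, hf, hf, g0, g1, g2, g0', g1', g2',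
    hr, hb, htp, hl, psx, ksx]
  have q0 : (1 : ℤ) * (-1) ^ ((0 : Fin 3) : ℕ) = 1 := by norm_num
  have q1 : (1 : ℤ) * (-1) ^ ((1 : Fin 3) : ℕ) = -1 := by norm_num
  have q2 : (1 : ℤ) * (-1) ^ ((2 : Fin 3) : ℕ) = 1 := by norm_num
  rw [q0, q1, q2]
  abel

theorem wval_eq {m : ℕ} (x : Fin m → G) (w : List (Fin m × Bool)) :
    wval x w = FreeGroup.lift x (FreeGroup.mk w) := by
  induction w with
  | nil => simp [wval]
  | cons l w ih =>
    obtain ⟨i, b⟩ := l
    have h : (FreeGroup.mk ((i, b) :: w) : FreeGroup (Fin m)) =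
        FreeGroup.mk [(i, b)] * FreeGroup.mk w := rfl
    rw [h, map_mul, ← ih, wval, lval]
    cases b
    · have h2 : FreeGroup.lift x (FreeGroup.mk [(i, false)]) = (x i)⁻¹ := by
        have : (FreeGroup.mk [(i, false)] : FreeGroup (Fin m)) = (FreeGroup.of i)⁻¹ := rfl
        rw [this, map_inv, FreeGroup.lift_apply_of]
      rw [h2]; rfl
    · have h2 : FreeGroup.lift x (FreeGroup.mk [(i, true)]) = x i := FreeGroup.lift_apply_of
      rw [h2]; rfl

theorem wval_rel (Pr : FinPresentation G) (j : Fin Pr.rels) :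
    wval Pr.x (Pr.r j).toWord = 1 := by
  rw [wval_eq, FreeGroup.mk_toWord]
  have h : Pr.r j ∈ (FreeGroup.lift Pr.x).ker := by
    rw [Pr.ker_eq]
    exact Subgroup.subset_normalClosure ⟨j, rfl⟩
  exact h

end Aff

/-! ### The cells of the presentation complex -/

section Cells

variable {Pr : FinPresentation G} (c : PresCx Pr p) (W : WordCor)

/-- The vertex. -/
noncomputable def z0 : SC G 0 E := SC.mk G (ksx 0 c.e)

/-- The edges. -/
noncomputable def z1 (i : Fin Pr.gens) : SC G 1 E := SC.mk G (psx (c.a i))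

/-- The faces. -/
noncomputable def z2 (j : Fin Pr.rels) : SC G 2 E := SC.mk G (c.zface W j)

/-- The models. -/
noncomputable def PP (i j : ℕ) : ∀ n, Submodule (ZG G) (SC G n E)
  | 0 => Submodule.span (ZG G) {z0 c}
  | 1 => Submodule.span (ZG G) (z1 c '' {k | (k : ℕ) < i})
  | 2 => Submodule.span (ZG G) (z2 c W '' {k | (k : ℕ) < j})
  | _ + 3 => ⊥

theorem image_lt_succ {m : ℕ} {M : Type} (f : Fin m → M) (i : Fin m) :
    f '' {k | (k : ℕ) < i + 1} = f '' {k | (k : ℕ) < i} ∪ {f i} := by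
  have : {k : Fin m | (k : ℕ) < i + 1} = {k : Fin m | (k : ℕ) < i} ∪ ({i} : Set (Fin m)) := by
    ext k
    rw [mem_union, mem_singleton_iff, Fin.ext_iff]
    change (k : ℕ) < i + 1 ↔ (k : ℕ) < i ∨ (k : ℕ) = i
    omega
  rw [this, image_union, image_singleton]

theorem image_lt_zero {m : ℕ} {M : Type} (f : Fin m → M) :
    f '' {k | (k : ℕ) < 0} = ∅ := by
  have : {k : Fin m | (k : ℕ) < 0} = ∅ := by
    ext k; simp
  rw [this, image_empty]

theorem image_lt_self {m : ℕ} {M : Type} (f : Fin m → M) :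
    f '' {k | (k : ℕ) < m} = range f := by
  have : {k : Fin m | (k : ℕ) < m} = univ := by
    ext k; simp
  rw [this, image_univ]

/-- The zero model. -/
noncomputable def P0 (G E : Type) [Group G] [TopologicalSpace E] [MulAction G E] [ContinuousConstSMul G E] :
    ∀ n, Submodule (ZG G) (SC G n E) := fun _ => ⊥

theorem PP_zero : Function.update (P0 G E) 0 (P0 G E 0 ⊔ Submodule.span (ZG G) {z0 c}) =
    PP c W 0 0 := by
  funext n
  match n with
  | 0 => rw [Function.update_self, P0, bot_sup_eq]; rfl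
  | 1 =>
    rw [Function.update_of_ne (by norm_num), PP, image_lt_zero, Submodule.span_empty]; rfl
  | 2 =>
    rw [Function.update_of_ne (by norm_num), PP, image_lt_zero, Submodule.span_empty]; rfl
  | n + 3 => rw [Function.update_of_ne (by omega)]; rfl

theorem PP_one (i : Fin Pr.gens) : Function.update (PP c W i 0) 1
    (PP c W i 0 1 ⊔ Submodule.span (ZG G) {z1 c i}) = PP c W (i + 1) 0 := by
  funext n
  match n with
  | 0 => rw [Function.update_of_ne (by norm_num)]; rfl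
  | 1 => rw [Function.update_self, PP, PP, image_lt_succ, Submodule.span_union]
  | 2 => rw [Function.update_of_ne (by norm_num)]; rfl
  | n + 3 => rw [Function.update_of_ne (by omega)]; rfl

theorem PP_two (m : ℕ) (j : Fin Pr.rels) : Function.update (PP c W m j) 2
    (PP c W m j 2 ⊔ Submodule.span (ZG G) {z2 c W j}) = PP c W m (j + 1) := by
  funext n
  match n with
  | 0 => rw [Function.update_of_ne (by norm_num)]; rfl
  | 1 => rw [Function.update_of_ne (by norm_num)]; rfl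
  | 2 => rw [Function.update_self, PP, PP, image_lt_succ, Submodule.span_union]
  | n + 3 => rw [Function.update_of_ne (by omega)]; rfl

theorem d_z1 (i : Fin Pr.gens) : SC.d G 0 E (z1 c i) = (elt (Pr.x i) - 1) • z0 c := by
  apply SC.un_inj
  rw [sub_smul, one_smul, SC.un_sub, SC.un_elt_smul, SC.un_d]
  change bd 0 (psx (c.a i)) = push (gm (Pr.x i)) 0 (ksx 0 c.e) - ksx 0 c.e
  rw [bd_psx, ksx, ksx, push_single]
  rfl

theorem d_z2 (j : Fin Pr.rels) : SC.d G 1 E (z2 c W j) =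
    phi1 Pr.x c.a (foxWord Pr.x (Pr.r j).toWord) := by
  apply SC.un_inj
  rw [SC.un_d]
  change bd 1 (push (c.b j) 2 zeta2 + ksx 2 c.e + W.cor G E Pr.gens Pr.x c.e c.a
    (Pr.r j).toWord) = _
  rw [map_add, map_add, bd_face Pr.x c.a _ (wval_rel Pr j) _ (c.bdry j), bd_ksx2, W.bd_cor]
  abel

theorem phi1_mem (v : Fin Pr.gens → ZG G) : phi1 Pr.x c.a v ∈ PP c W Pr.gens 0 1 := by
  rw [PP, image_lt_self, ← Fintype.range_linearCombination]
  exact ⟨v, rfl⟩

omit [T2Space X] in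
theorem e_mem (k : ℕ) : p c.e ∈ c.Y1 k := Or.inl rfl

theorem a_mem (i : Fin Pr.gens) (k : ℕ) (hk : (i : ℕ) < k) (t : I) : p (c.a i t) ∈ c.Y1 k := by
  refine Or.inr (mem_iUnion₂.2 ⟨i, hk, ?_⟩)
  have ht : |2 * (t : ℝ) - 1| ≤ 1 := abs_le.2 ⟨by linarith [t.2.1], by linarith [t.2.2]⟩
  refine ⟨⟨fun _ => 2 * (t : ℝ) - 1, ?_⟩, ?_⟩
  · rw [mem_closedBall_zero_iff, pi_norm_le_iff_of_nonneg zero_le_one]
    exact fun _ => ht
  · change p (c.a i (par (2 * (t : ℝ) - 1))) = p (c.a i t)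
    congr 2
    apply Subtype.ext
    rw [par]
    have : (2 * (t : ℝ) - 1 + 1) / 2 = t := by ring
    rw [this, Set.projIcc_of_mem zero_le_one t.2]

theorem isCompact_dk (n : ℕ) (f : C(Dk n, X)) : IsCompact (range f) := by
  have : CompactSpace (Dk n) := isCompact_iff_compactSpace.1 (isCompact_closedBall _ _)
  exact isCompact_range f.continuous

theorem isClosed_Y1 (k : ℕ) : IsClosed (c.Y1 k) := by
  refine isClosed_singleton.union (isClosed_iUnion_of_finite fun i =>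
    isClosed_iUnion_of_finite fun _ => (isCompact_dk 1 _).isClosed)

theorem isClosed_Y2 (k : ℕ) : IsClosed (c.Y2 k) := by
  refine (isClosed_Y1 c _).union (isClosed_iUnion_of_finite fun i =>
    isClosed_iUnion_of_finite fun _ => (isCompact_dk 2 _).isClosed)

theorem Y1_zero : c.Y1 0 = {p c.e} := by
  rw [PresCx.Y1]
  simp

theorem Y2_zero : c.Y2 0 = c.Y1 Pr.gens := by
  rw [PresCx.Y2]
  simp

/-- The empty model. -/
theorem mdl_empty (hp : IsQuotientCoveringMap p G) :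
    Mdl hp (∅ : Set X) (P0 G E) := by
  have h : ∀ n (x : SC G n E), x ∈ SA hp ∅ n → x = 0 := by
    intro n x hx
    apply SC.un_inj
    have h1 : x.un.support = ∅ := by
      rw [Finset.eq_empty_iff_forall_notMem]
      intro σ hσ
      exact (Finsupp.mem_supported ℤ x.un).1 hx hσ (stdSimplex.vertex 0)
    exact Finsupp.support_eq_empty.1 h1
  refine ⟨fun n => bot_le, fun n x hx => ?_, fun n x hx _ _ => ?_, fun n x hx _ => ?_⟩
  · rw [(Submodule.mem_bot _).1 hx, map_zero]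
    exact Submodule.zero_mem _
  · exact ⟨0, Submodule.zero_mem _, by rw [(Submodule.mem_bot _).1 hx, map_zero]⟩
  · refine ⟨0, Submodule.zero_mem _, ?_, 0, Submodule.zero_mem _, ?_⟩
    · cases n
      · trivial
      · exact map_zero _
    · rw [h n x hx, map_zero, add_zero]

theorem attach0 : Attach 0 (∅ : Set X) (c.Y1 0) (ContinuousMap.const (Dk 0) (p c.e)) where
  bdry x hx := by
    have h1 : (x : Fin 0 → ℝ) = 0 := Subsingleton.elim _ _
    rw [h1, norm_zero] at hx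
    exact absurd hx (by norm_num)
  int _ _ := fun h => h
  inj x y _ _ _ := Subtype.ext (Subsingleton.elim _ _)
  eq := by
    rw [Y1_zero, empty_union]
    have : Nonempty (Dk 0) := ⟨clp 0 0⟩
    ext y
    constructor
    · rintro rfl
      exact ⟨clp 0 0, rfl⟩
    · rintro ⟨x, rfl⟩
      rfl

theorem mdl0 (hms : SpecMS) (hcl : SpecCL) (hf : SpecFund) (hp : IsQuotientCoveringMap p G) :
    Mdl hp (c.Y1 0) (PP c W 0 0) ∧ ∀ r : ZG G, r • z0 c = 0 → r = 0 := by
  have hz : z0 c - SC.mk G (push (ContinuousMap.const (Dk 0) c.e) 0 (ksx 0 (clp 0 0))) ∈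
      SA hp ∅ 0 := by
    rw [ksx, push_single]
    have : z0 c - SC.mk G (Finsupp.single ((ContinuousMap.const (Dk 0) c.e).comp
        (ContinuousMap.const (Dl 1) (clp 0 0))) 1) = 0 := sub_self _
    rw [this]
    exact Submodule.zero_mem _
  obtain ⟨h1, h2⟩ := step hms hcl hp isClosed_empty (attach0 c) (fun _ => rfl) hf.2.1
    (mdl_empty hp) hz trivial
  refine ⟨?_, fun r hr => h2 r (by rw [hr]; exact Submodule.zero_mem _)⟩
  rw [← PP_zero]
  exact h1

theorem step1 (hms : SpecMS) (hcl : SpecCL) (hf : SpecFund) (hp : IsQuotientCoveringMap p G)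
    (hc : c.Good) (i : Fin Pr.gens) (h : Mdl hp (c.Y1 i) (PP c W i 0)) :
    Mdl hp (c.Y1 (i + 1)) (PP c W (i + 1) 0) ∧
      ∀ r : ZG G, r • z1 c i ∈ SA hp (c.Y1 i) 1 → r = 0 := by
  have hz : z1 c i - SC.mk G (push (c.edge i) 1 zeta1) ∈ SA hp (c.Y1 i) 1 := by
    have h1 : push (c.edge i) 1 zeta1 = psx (c.a i) := by
      rw [zeta1, push_single, psx]
      congr 1
      ext t
      change c.a i (par (((asx ![![-1], ![1]] t : Dk 1) : Fin 1 → ℝ) 0)) = c.a i (crd 1 t)
      have hsum : (∑ l, t l • (![![-1], ![1]] : Fin 2 → Fin 1 → ℝ) l) = fun _ => t 1 - t 0 := by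
        rw [Fin.sum_univ_two]
        ext j
        fin_cases j
        simp; ring
      have h0 := stdSimplex.zero_le t 0
      have h1 := stdSimplex.zero_le t 1
      have ht := sum_two t
      rw [asx_apply, hsum]
      · congr 1
        apply Subtype.ext
        rw [par]
        have : (t 1 - t 0 + 1) / 2 = t 1 := by linarith
        rw [this, Set.projIcc_of_mem zero_le_one ⟨h1, by linarith⟩]
        rfl
      · intro j
        rw [hsum, abs_le]
        constructor <;> linarith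
    rw [h1]
    have : z1 c i - SC.mk G (psx (c.a i)) = 0 := sub_self _
    rw [this]
    exact Submodule.zero_mem _
  have hd : DRel (fun n => SC G n E) (fun n => SC.d G n E) (PP c W i 0) 1 (z1 c i) := by
    change SC.d G 0 E (z1 c i) ∈ PP c W i 0 0
    rw [d_z1]
    exact Submodule.smul_mem _ _ (Submodule.mem_span_singleton_self _)
  obtain ⟨h1, h2⟩ := step hms hcl hp (isClosed_Y1 c i) (hc.att1 i) (fun _ => rfl) hf.2.2.1 h hz hd
  rw [PP_one] at h1
  exact ⟨h1, h2⟩

theorem mdl1 (hms : SpecMS) (hcl : SpecCL) (hf : SpecFund) (hp : IsQuotientCoveringMap p G)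
    (hc : c.Good) : ∀ i ≤ Pr.gens, Mdl hp (c.Y1 i) (PP c W i 0) := by
  intro i
  induction i with
  | zero => exact fun _ => (mdl0 c W hms hcl hf hp).1
  | succ i ih => exact fun hi => (step1 c W hms hcl hf hp hc ⟨i, hi⟩ (ih (Nat.le_of_succ_le hi))).1

theorem step2 (hms : SpecMS) (hcl : SpecCL) (hf : SpecFund) (hp : IsQuotientCoveringMap p G)
    (hc : c.Good) (j : Fin Pr.rels) (h : Mdl hp (c.Y2 j) (PP c W Pr.gens j)) :
    Mdl hp (c.Y2 (j + 1)) (PP c W Pr.gens (j + 1)) ∧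
      ∀ r : ZG G, r • z2 c W j ∈ SA hp (c.Y2 j) 2 → r = 0 := by
  have he : c.e ∈ p ⁻¹' c.Y2 j := Or.inl (e_mem c _)
  have hz : z2 c W j - SC.mk G (push (c.b j) 2 zeta2) ∈ SA hp (c.Y2 j) 2 := by
    have h1 : (z2 c W j - SC.mk G (push (c.b j) 2 zeta2)).un =
        ksx 2 c.e + W.cor G E Pr.gens Pr.x c.e c.a (Pr.r j).toWord := by
      change push (c.b j) 2 zeta2 + ksx 2 c.e + W.cor G E Pr.gens Pr.x c.e c.a (Pr.r j).toWord -
        push (c.b j) 2 zeta2 = _
      abel
    rw [mem_SA, h1]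
    refine Submodule.add_mem _ (Finsupp.single_mem_supported ℤ _ fun _ => he) ?_
    exact W.supp G E Pr.gens Pr.x c.e c.a _ he (inv hp _)
      (fun i t => Or.inl (a_mem c i _ i.2 t)) _
  have hd : DRel (fun n => SC G n E) (fun n => SC.d G n E) (PP c W Pr.gens j) 2 (z2 c W j) := by
    change SC.d G 1 E (z2 c W j) ∈ PP c W Pr.gens j 1
    rw [d_z2]
    exact phi1_mem c W _
  obtain ⟨h1, h2⟩ := step hms hcl hp (isClosed_Y2 c j) (hc.att2 j) (fun _ => rfl) hf.2.2.2 h hz hd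
  rw [PP_two] at h1
  exact ⟨h1, h2⟩

theorem mdl2 (hms : SpecMS) (hcl : SpecCL) (hf : SpecFund) (hp : IsQuotientCoveringMap p G)
    (hc : c.Good) : ∀ j ≤ Pr.rels, Mdl hp (c.Y2 j) (PP c W Pr.gens j) := by
  intro j
  induction j with
  | zero =>
    intro _
    rw [Y2_zero]
    exact mdl1 c W hms hcl hf hp hc _ le_rfl
  | succ j ih => exact fun hj => (step2 c W hms hcl hf hp hc ⟨j, hj⟩ (ih (Nat.le_of_succ_le hj))).1

theorem lmap_inj {R M : Type} [Ring R] [AddCommGroup M] [Module R M] {m : ℕ} (z : Fin m → M)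
    (A : ℕ → Submodule R M) (hz : ∀ (k : Fin m) (i : ℕ), (k : ℕ) < i → z k ∈ A i)
    (h : ∀ (k : Fin m) (r : R), r • z k ∈ A k → r = 0) {v : Fin m → R} (hv : lmap z v = 0) :
    v = 0 := by
  by_contra hne
  obtain ⟨i, hi⟩ : ∃ i, v i ≠ 0 := by
    by_contra hcon
    push Not at hcon
    exact hne (funext hcon)
  classical
  let s : Finset (Fin m) := Finset.univ.filter fun i => v i ≠ 0
  have hs : s.Nonempty := ⟨i, Finset.mem_filter.2 ⟨Finset.mem_univ _, hi⟩⟩
  let k := s.max' hs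
  have hk : v k ≠ 0 := (Finset.mem_filter.1 (s.max'_mem hs)).2
  have hmax : ∀ l, v l ≠ 0 → l ≤ k := fun l hl =>
    s.le_max' l (Finset.mem_filter.2 ⟨Finset.mem_univ _, hl⟩)
  refine hk (h k (v k) ?_)
  rw [lmap, Fintype.linearCombination_apply, ← Finset.add_sum_erase _ _ (Finset.mem_univ k)] at hv
  rw [eq_neg_of_add_eq_zero_left hv]
  refine Submodule.neg_mem _ (Submodule.sum_mem _ fun l hl => ?_)
  by_cases h0 : v l = 0
  · rw [h0, zero_smul]
    exact Submodule.zero_mem _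
  · refine Submodule.smul_mem _ _ (hz l k ?_)
    exact lt_of_le_of_ne (hmax l h0) fun he => (Finset.mem_erase.1 hl).1 (Fin.ext he)

end Cells

theorem main (hms : SpecMS) (hcl : SpecCL) (hf : SpecFund) : SpecYH := by
  intro W G X E _ _ _ _ _ _ p hp Pr c hc
  have hM : Mdl hp c.Y (PP c W Pr.gens Pr.rels) := mdl2 c W hms hcl hf hp hc _ le_rfl
  -- membership
  have r0 : ∀ x, x ∈ PP c W Pr.gens Pr.rels 0 ↔ ∃ v, phi0 G c.e v = x := fun x =>
    Submodule.mem_span_singleton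
  have r1 : ∀ x, x ∈ PP c W Pr.gens Pr.rels 1 ↔ ∃ v, phi1 Pr.x c.a v = x := fun x => by
    rw [PP, image_lt_self, ← Fintype.range_linearCombination]
    rfl
  have r2 : ∀ x, x ∈ PP c W Pr.gens Pr.rels 2 ↔ ∃ v, lmap (z2 c W) v = x := fun x => by
    rw [PP, image_lt_self, ← Fintype.range_linearCombination]
    rfl
  -- injectivity
  have j0 : ∀ v, phi0 G c.e v = 0 → v = 0 := fun v hv => (mdl0 c W hms hcl hf hp).2 v hv
  have j1 : ∀ v, phi1 Pr.x c.a v = 0 → v = 0 := fun v hv =>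
    lmap_inj (z1 c) (fun i => SA hp (c.Y1 i) 1) (fun k i hki => by
      rw [mem_SA]
      exact Finsupp.single_mem_supported ℤ _ fun t => a_mem c k i hki _)
      (fun k r hr => (step1 c W hms hcl hf hp hc k (mdl1 c W hms hcl hf hp hc _ k.2.le)).2 r hr) hv
  have j2 : ∀ v, lmap (z2 c W) v = 0 → v = 0 := fun v hv =>
    lmap_inj (z2 c W) (fun i => SA hp (c.Y2 i) 2) (fun k i hki => by
      have h1 := mdl2 c W hms hcl hf hp hc (k + 1) k.2
      have h2 : z2 c W k ∈ SA hp (c.Y2 (k + 1)) 2 := h1.le 2 (by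
        rw [PP]
        exact Submodule.subset_span ⟨k, Nat.lt_succ_self _, rfl⟩)
      refine con_mono (preimage_mono ?_) 2 h2
      rintro y (hy | hy)
      · exact Or.inl hy
      · obtain ⟨l, hl, hy⟩ := mem_iUnion₂.1 hy
        exact Or.inr (mem_iUnion₂.2 ⟨l, by omega, hy⟩))
      (fun k r hr => (step2 c W hms hcl hf hp hc k (mdl2 c W hms hcl hf hp hc _ k.2.le)).2 r hr) hv
  have j0' : ∀ v w, phi0 G c.e v = phi0 G c.e w → v = w := fun v w h =>
    sub_eq_zero.1 (j0 _ (by rw [map_sub, h, sub_self]))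
  have j1' : ∀ v w, phi1 Pr.x c.a v = phi1 Pr.x c.a w → v = w := fun v w h =>
    sub_eq_zero.1 (j1 _ (by rw [map_sub, h, sub_self]))
  -- the boundary maps
  have c1 : ∀ v, SC.d G 0 E (phi1 Pr.x c.a v) = phi0 G c.e (fox1 Pr v) := by
    intro v
    change SC.d G 0 E (lmap (z1 c) v) = (fox1 Pr v) • z0 c
    rw [lmap, Fintype.linearCombination_apply, map_sum, fox1, lmap,
      Fintype.linearCombination_apply, Finset.sum_smul]
    refine Finset.sum_congr rfl fun i _ => ?_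
    rw [map_smul, d_z1, smul_smul, smul_eq_mul]
  have c2 : ∀ v, SC.d G 1 E (lmap (z2 c W) v) = phi1 Pr.x c.a (fox2 Pr v) := by
    intro v
    rw [lmap, Fintype.linearCombination_apply, map_sum, fox2, lmap,
      Fintype.linearCombination_apply, map_sum]
    refine Finset.sum_congr rfl fun i _ => ?_
    rw [map_smul, d_z2, map_smul]
  refine ⟨c1, c2, fun v => hM.le 0 ((r0 _).2 ⟨v, rfl⟩), fun v => hM.le 1 ((r1 _).2 ⟨v, rfl⟩),
    fun v => hM.le 2 ((r2 _).2 ⟨v, rfl⟩), ?_, ?_, ?_, ?_, ?_, ?_, ?_⟩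
  · intro x hx
    obtain ⟨y, hy, -, z, hz, h⟩ := hM.surj 0 (SC.mk G x) hx trivial
    obtain ⟨v, rfl⟩ := (r0 y).1 hy
    exact ⟨v, z.un, hz, congrArg SC.un h⟩
  · rintro v ⟨y, hy, h⟩
    obtain ⟨z, hz, h1⟩ := hM.inj 0 (phi0 G c.e v) ((r0 _).2 ⟨v, rfl⟩) trivial
      ⟨SC.mk G y, hy, SC.un_inj h.symm⟩
    obtain ⟨u, rfl⟩ := (r1 z).1 hz
    refine ⟨u, j0' _ _ ?_⟩
    rw [← h1, c1]
  · intro x hx hd
    obtain ⟨y, hy, hyc, z, hz, h⟩ := hM.surj 1 (SC.mk G x) hx (SC.un_inj hd)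
    obtain ⟨v, rfl⟩ := (r1 y).1 hy
    refine ⟨v, j0 _ ?_, z.un, hz, congrArg SC.un h⟩
    rw [← c1]
    exact hyc
  · rintro v hv ⟨y, hy, h⟩
    obtain ⟨z, hz, h1⟩ := hM.inj 1 (phi1 Pr.x c.a v) ((r1 _).2 ⟨v, rfl⟩) (by
      change SC.d G 0 E (phi1 Pr.x c.a v) = 0
      rw [c1, hv, map_zero]) ⟨SC.mk G y, hy, SC.un_inj h.symm⟩
    obtain ⟨u, rfl⟩ := (r2 z).1 hz
    refine ⟨u, j1' _ _ ?_⟩
    rw [← h1, c2]
  · intro x hx hd
    obtain ⟨y, hy, hyc, z, hz, h⟩ := hM.surj 2 (SC.mk G x) hx (SC.un_inj hd)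
    obtain ⟨v, rfl⟩ := (r2 y).1 hy
    refine ⟨v, j1 _ ?_, z.un, hz, congrArg SC.un h⟩
    rw [← c2]
    exact hyc
  · rintro v hv ⟨y, hy, h⟩
    obtain ⟨z, hz, h1⟩ := hM.inj 2 (lmap (z2 c W) v) ((r2 _).2 ⟨v, rfl⟩) (by
      change SC.d G 1 E (lmap (z2 c W) v) = 0
      rw [c2, hv, map_zero]) ⟨SC.mk G y, hy, SC.un_inj h.symm⟩
    have hz0 : z = 0 := (Submodule.mem_bot _).1 hz
    refine j2 _ ?_
    rw [← h1, hz0, map_zero]
  · intro n x hx hd
    obtain ⟨y, hy, -, z, hz, h⟩ := hM.surj (n + 3) (SC.mk G x) hx (SC.un_inj hd)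
    have hy0 : y = 0 := (Submodule.mem_bot _).1 hy
    rw [hy0, zero_add] at h
    exact ⟨z.un, hz, congrArg SC.un h⟩

end Vale.Agent.P246.T.YH
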