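import Vale.Agent.P246.T.YPDefs
import Vale.Agent.P246.T.YC

/-! # P246, topological version, block YP, part c: from generators of the fundamental group to
simple connectivity of the covering -/

namespace Vale.Agent.P246.T.YP

open Topology Metric Set

theorem hom_of_eq {Z : Type} [TopologicalSpace Z] {a b a' b' : Z} {P Q : Path a b}
    {P' Q' : Path a' b'} (h : P.Homotopic Q) (hP : ∀ t, P' t = P t) (hQ : ∀ t, Q' t = Q t) :
    P'.Homotopic Q' := by
  have ha : a' = a := by rw [← P'.source, hP, P.source]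
  have hb : b' = b := by rw [← P'.target, hP, P.target]
  subst ha hb
  have h1 : P' = P := Path.ext (funext hP)
  have h2 : Q' = Q := Path.ext (funext hQ)
  rw [h1, h2]
  exact h

/-! ### two paths in the square -/

/-- the right side -/
noncomputable def sideR : Path (clp 2 ![1, -1]) (clp 2 ![1, 1]) where
  toFun t := clp 2 ![1, 2 * (t : ℝ) - 1]
  continuous_toFun := (continuous_clp 2).comp (by
    refine continuous_pi fun i => ?_
    fin_cases i
    · exact continuous_const
    · exact (continuous_const.mul continuous_subtype_val).sub continuous_const)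
  source' := by
    apply Subtype.ext; funext i
    fin_cases i <;> simp [clp]
  target' := by
    apply Subtype.ext; funext i
    fin_cases i
    · simp [clp]
    · simp [clp]; norm_num

/-- the other three sides -/
noncomputable def sideL : Path (clp 2 ![1, -1]) (clp 2 ![1, 1]) where
  toFun t := clp 2 ![|6 * (t : ℝ) - 3| - 2, 6 * (t : ℝ) - 3]
  continuous_toFun := (continuous_clp 2).comp (by
    refine continuous_pi fun i => ?_
    fin_cases i
    · exact (((continuous_const.mul continuous_subtype_val).sub continuous_const).abs).sub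
        continuous_const
    · exact (continuous_const.mul continuous_subtype_val).sub continuous_const)
  source' := by
    apply Subtype.ext; funext i
    fin_cases i
    · simp [clp]; norm_num
    · simp [clp]
  target' := by
    apply Subtype.ext; funext i
    fin_cases i
    · simp [clp]; norm_num
    · simp [clp]; norm_num

theorem side_homotopic : sideR.Homotopic sideL := by
  have : ContractibleSpace (Dk 2) :=
    (convex_closedBall (0 : Fin 2 → ℝ) 1).contractibleSpace ⟨0, by simp⟩
  exact SimplyConnectedSpace.paths_homotopic _ _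

theorem norm_two (z : Dk 2) : ‖(z : Fin 2 → ℝ)‖ = max |(z : Fin 2 → ℝ) 0| |(z : Fin 2 → ℝ) 1| := by
  apply le_antisymm
  · rw [pi_norm_le_iff_of_nonneg (le_max_of_le_left (abs_nonneg _))]
    intro i
    fin_cases i
    · exact le_max_left _ _
    · exact le_max_right _ _
  · exact max_le (norm_le_pi_norm (z : Fin 2 → ℝ) 0) (norm_le_pi_norm (z : Fin 2 → ℝ) 1)

theorem sideR_zero (t : I) : (sideR t : Fin 2 → ℝ) 0 = 1 := by
  change max (-1) (min 1 (1 : ℝ)) = 1
  norm_num

theorem sideR_one (t : I) : (sideR t : Fin 2 → ℝ) 1 = 2 * (t : ℝ) - 1 := by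
  change max (-1) (min 1 (2 * (t : ℝ) - 1)) = 2 * (t : ℝ) - 1
  have h0 := t.2.1
  have h1 := t.2.2
  rw [min_eq_right (by linarith), max_eq_right (by linarith)]

theorem norm_sideR (t : I) : ‖(sideR t : Fin 2 → ℝ)‖ = 1 := by
  have h0 := t.2.1
  have h1 := t.2.2
  rw [norm_two, sideR_zero, sideR_one, abs_one]
  apply max_eq_left
  rw [abs_le]
  constructor <;> linarith

theorem par_two (t : I) : par (2 * (t : ℝ) - 1) = t := by
  apply Subtype.ext
  have h0 := t.2.1
  have h1 := t.2.2
  rw [par, Set.coe_projIcc]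
  have : ((2 * (t : ℝ) - 1 + 1) / 2) = t := by ring
  rw [this, min_eq_right h1, max_eq_right h0]

theorem sideL_zero (t : I) : (sideL t : Fin 2 → ℝ) 0 = max (-1) (min 1 (|6 * (t : ℝ) - 3| - 2)) :=
  rfl

theorem sideL_one (t : I) : (sideL t : Fin 2 → ℝ) 1 = max (-1) (min 1 (6 * (t : ℝ) - 3)) := rfl

theorem norm_sideL (t : I) : ‖(sideL t : Fin 2 → ℝ)‖ = 1 := by
  rw [norm_two]
  have h0 : |(sideL t : Fin 2 → ℝ) 0| ≤ 1 := by
    rw [sideL_zero, abs_le]
    exact ⟨le_max_left _ _, max_le (by norm_num) (min_le_left _ _)⟩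
  have h1 : |(sideL t : Fin 2 → ℝ) 1| ≤ 1 := by
    rw [sideL_one, abs_le]
    exact ⟨le_max_left _ _, max_le (by norm_num) (min_le_left _ _)⟩
  apply le_antisymm (max_le h0 h1)
  rcases le_total |6 * (t : ℝ) - 3| 1 with h | h
  · apply le_max_of_le_left
    rw [sideL_zero, min_eq_right (by linarith), max_eq_left (by linarith)]
    norm_num
  · apply le_max_of_le_right
    rw [sideL_one]
    rcases le_abs.1 h with h' | h'
    · rw [min_eq_left h', max_eq_right (by norm_num)]; norm_num
    · rw [min_eq_right (by linarith), max_eq_left (by linarith)]; norm_num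

theorem sideL_corner (t : I) (h : (sideL t : Fin 2 → ℝ) 0 = 1) :
    par ((sideL t : Fin 2 → ℝ) 1) = 0 ∨ par ((sideL t : Fin 2 → ℝ) 1) = 1 := by
  rw [sideL_zero] at h
  have h3 : 1 ≤ |6 * (t : ℝ) - 3| - 2 := by
    by_contra hc
    push Not at hc
    have : max (-1) (min 1 (|6 * (t : ℝ) - 3| - 2)) < 1 :=
      max_lt (by norm_num) (lt_of_le_of_lt (min_le_right _ _) hc)
    linarith
  rw [sideL_one]
  rcases le_abs.1 (show (3 : ℝ) ≤ |6 * (t : ℝ) - 3| by linarith) with h' | h'
  · right
    rw [min_eq_left (by linarith), max_eq_right (by norm_num)]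
    apply Subtype.ext
    rw [par, Set.coe_projIcc]
    norm_num
  · left
    rw [min_eq_right (by linarith), max_eq_left (by linarith)]
    apply Subtype.ext
    rw [par, Set.coe_projIcc]
    norm_num

/-! ### loops of words -/

section

variable {G : Type} [Group G] {Pr : FinPresentation G} {X E : Type} [TopologicalSpace X]
    [TopologicalSpace E] [MulAction G E] [ContinuousConstSMul G E] {p : C(E, X)}
    (c : PresCx Pr p) (hp : IsQuotientCoveringMap p G)

include hp in
theorem mem_w (w : List (Fin Pr.gens × Bool)) (t : I) : p (wpath Pr.x c.a w t) ∈ c.Y :=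
  YC.wpath_mem (p ⁻¹' c.Y) (fun g y hy => by
    change p (g • y) ∈ c.Y
    rw [hp.map_smul]; exact hy) Pr.x c.a (mem_e c) (mem_a c) w t

include hp in
theorem mem_l (l : Fin Pr.gens × Bool) (t : I) : p (lpath Pr.x c.a l t) ∈ c.Y := by
  obtain ⟨i, b⟩ := l
  cases b
  · rw [YC.lpath_false, hp.map_smul]; exact mem_a c i _
  · rw [YC.lpath_true]; exact mem_a c i _

/-- the loop of a word -/
noncomputable def loopW (w : List (Fin Pr.gens × Bool)) : Path (b0 c) (b0 c) where
  toFun t := ⟨p (wpath Pr.x c.a w t), mem_w c hp w t⟩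
  continuous_toFun := (p.continuous.comp (wpath Pr.x c.a w).continuous).subtype_mk _
  source' := Subtype.ext (congrArg p (wpath Pr.x c.a w).source)
  target' := Subtype.ext ((congrArg p (wpath Pr.x c.a w).target).trans (hp.map_smul _))

/-- the loop of a letter -/
noncomputable def loopL (l : Fin Pr.gens × Bool) : Path (b0 c) (b0 c) where
  toFun t := ⟨p (lpath Pr.x c.a l t), mem_l c hp l t⟩
  continuous_toFun := (p.continuous.comp (lpath Pr.x c.a l).continuous).subtype_mk _
  source' := Subtype.ext (congrArg p (lpath Pr.x c.a l).source)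
  target' := Subtype.ext ((congrArg p (lpath Pr.x c.a l).target).trans (hp.map_smul _))

/-- the class of a loop -/
def pcl {Z : Type} [TopologicalSpace Z] {z : Z} (γ : Path z z) : FundamentalGroup Z z :=
  FundamentalGroup.fromPath (Path.Homotopic.Quotient.mk γ)

theorem pcl_trans {Z : Type} [TopologicalSpace Z] {z : Z} (γ δ : Path z z) :
    pcl (γ.trans δ) = pcl δ * pcl γ := rfl

theorem pcl_symm {Z : Type} [TopologicalSpace Z] {z : Z} (γ : Path z z) :
    pcl γ.symm = (pcl γ)⁻¹ := rfl

theorem pcl_refl {Z : Type} [TopologicalSpace Z] (z : Z) : pcl (Path.refl z) = 1 := rfl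

theorem pcl_eq {Z : Type} [TopologicalSpace Z] {z : Z} {γ δ : Path z z} :
    pcl γ = pcl δ ↔ γ.Homotopic δ := Path.Homotopic.Quotient.eq

theorem loopW_nil : loopW c hp [] = Path.refl (b0 c) := Path.ext (funext fun _ => rfl)

theorem loopW_cons (l : Fin Pr.gens × Bool) (w : List (Fin Pr.gens × Bool)) :
    loopW c hp (l :: w) = (loopL c hp l).trans (loopW c hp w) := by
  apply Path.ext
  funext t
  apply Subtype.ext
  change p (wpath Pr.x c.a (l :: w) t) = _
  rw [YC.wpath_cons, Path.trans_apply, Path.trans_apply]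
  split_ifs with h
  · rfl
  · rw [YC.gpath_apply, hp.map_smul]
    rfl

theorem loopL_true (i : Fin Pr.gens) : loopL c hp (i, true) = edgeLoop c hp i :=
  Path.ext (funext fun _ => rfl)

theorem loopL_false (i : Fin Pr.gens) : loopL c hp (i, false) = (edgeLoop c hp i).symm := by
  apply Path.ext
  funext t
  apply Subtype.ext
  change p (lpath Pr.x c.a (i, false) t) = p (c.a i (unitInterval.symm t))
  rw [YC.lpath_false, hp.map_smul]

/-- the homomorphism to the fundamental group (with the opposite multiplication) -/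
noncomputable def phi : FreeGroup (Fin Pr.gens) →* (FundamentalGroup c.Y (b0 c))ᵐᵒᵖ :=
  FreeGroup.lift fun i => MulOpposite.op (pcl (edgeLoop c hp i))

theorem phi_mk (w : List (Fin Pr.gens × Bool)) :
    phi c hp (FreeGroup.mk w) = MulOpposite.op (pcl (loopW c hp w)) := by
  induction w with
  | nil =>
    rw [loopW_nil, pcl_refl]
    exact map_one (phi c hp)
  | cons l w ih =>
    rw [loopW_cons, pcl_trans, MulOpposite.op_mul, ← ih]
    rw [phi, FreeGroup.lift_mk, FreeGroup.lift_mk, List.map_cons, List.prod_cons]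
    congr 1
    obtain ⟨i, b⟩ := l
    cases b
    · rw [loopL_false, pcl_symm, MulOpposite.op_inv]
      rfl
    · rw [loopL_true]
      rfl

/-- the relators bound discs -/
theorem loopW_rel (j : Fin Pr.rels) :
    (loopW c hp (Pr.r j).toWord).Homotopic (Path.refl (b0 c)) := by
  let β : C(Dk 2, c.Y) := ⟨fun z => ⟨p (c.b j z), mem_b c j z⟩,
    (p.continuous.comp (c.b j).continuous).subtype_mk _⟩
  refine hom_of_eq (side_homotopic.map β) (fun t => ?_) (fun t => ?_)
  · apply Subtype.ext
    change p (wpath Pr.x c.a (Pr.r j).toWord t) = p (c.b j (sideR t))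
    rw [(c.bdry j (sideR t) (norm_sideR t)).1 (sideR_zero t), sideR_one, par_two]
  · apply Subtype.ext
    change p c.e = p (c.b j (sideL t))
    by_cases h : (sideL t : Fin 2 → ℝ) 0 = 1
    · rw [(c.bdry j (sideL t) (norm_sideL t)).1 h]
      rcases sideL_corner t h with h' | h'
      · rw [h', (wpath Pr.x c.a (Pr.r j).toWord).source]
      · rw [h', (wpath Pr.x c.a (Pr.r j).toWord).target, hp.map_smul]
    · rw [(c.bdry j (sideL t) (norm_sideL t)).2 h]

theorem phi_ker {u : FreeGroup (Fin Pr.gens)} (hu : FreeGroup.lift Pr.x u = 1) :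
    phi c hp u = 1 := by
  have h1 : u ∈ (FreeGroup.lift Pr.x).ker := hu
  rw [Pr.ker_eq] at h1
  have h2 : Subgroup.normalClosure (Set.range Pr.r) ≤ (phi c hp).ker := by
    apply Subgroup.normalClosure_le_normal
    rintro _ ⟨j, rfl⟩
    change phi c hp (Pr.r j) = 1
    rw [← FreeGroup.mk_toWord (x := Pr.r j), phi_mk, pcl_eq.2 (loopW_rel c hp j), pcl_refl,
      MulOpposite.op_one]
  exact h2 h1

theorem wval_eq (x : Fin Pr.gens → G) (w : List (Fin Pr.gens × Bool)) :
    wval x w = FreeGroup.lift x (FreeGroup.mk w) := by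
  induction w with
  | nil => rw [wval]; exact (map_one (FreeGroup.lift x)).symm
  | cons l w ih =>
    rw [wval, ih, lval]
    simp only [FreeGroup.lift_mk, List.map_cons, List.prod_cons]
    cases l.2 <;> rfl

theorem exists_word (hgen : Subgroup.closure (Set.range fun i : Fin Pr.gens =>
      (FundamentalGroup.fromPath (Path.Homotopic.Quotient.mk (edgeLoop c hp i)) :
        FundamentalGroup c.Y (b0 c))) = ⊤) (γ : Path (b0 c) (b0 c)) :
    ∃ w, γ.Homotopic (loopW c hp w) := by
  have h : ∀ a : FundamentalGroup c.Y (b0 c), ∃ u, phi c hp u = MulOpposite.op a := by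
    intro a
    have ha : a ∈ Subgroup.closure (Set.range fun i : Fin Pr.gens =>
      (FundamentalGroup.fromPath (Path.Homotopic.Quotient.mk (edgeLoop c hp i)) :
        FundamentalGroup c.Y (b0 c))) := by rw [hgen]; trivial
    induction ha using Subgroup.closure_induction with
    | mem x hx =>
      obtain ⟨i, rfl⟩ := hx
      refine ⟨FreeGroup.of i, ?_⟩
      rw [phi, FreeGroup.lift_apply_of]
      rfl
    | one => exact ⟨1, map_one _⟩
    | mul x y _ _ hx hy =>
      obtain ⟨u, hu⟩ := hx
      obtain ⟨v, hv⟩ := hy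
      exact ⟨v * u, by rw [map_mul, hu, hv, ← MulOpposite.op_mul]⟩
    | inv x _ hx =>
      obtain ⟨u, hu⟩ := hx
      exact ⟨u⁻¹, by rw [map_inv, hu, ← MulOpposite.op_inv]⟩
  obtain ⟨u, hu⟩ := h (pcl γ)
  refine ⟨u.toWord, ?_⟩
  rw [← FreeGroup.mk_toWord (x := u), phi_mk] at hu
  exact pcl_eq.1 (MulOpposite.op_injective hu).symm

/-! ### the covering -/

/-- the base point upstairs, translated by `g` -/
def eg (g : G) : (p ⁻¹' c.Y : Set E) := ⟨g • c.e, by
  change p (g • c.e) ∈ c.Y
  rw [hp.map_smul]; exact mem_e c⟩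

/-- the path of a word upstairs -/
noncomputable def liftW (w : List (Fin Pr.gens × Bool)) :
    Path (eg c hp 1) (eg c hp (wval Pr.x w)) where
  toFun t := ⟨wpath Pr.x c.a w t, mem_w c hp w t⟩
  continuous_toFun := (wpath Pr.x c.a w).continuous.subtype_mk _
  source' := Subtype.ext ((wpath Pr.x c.a w).source.trans (one_smul G c.e).symm)
  target' := Subtype.ext (wpath Pr.x c.a w).target

/-- the covering of the presentation complex -/
def q : C((p ⁻¹' c.Y : Set E), c.Y) := ⟨c.Y.restrictPreimage p, p.continuous.restrictPreimage⟩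

include hp in
theorem q_cov : IsCoveringMap (q c) := by
  have h : IsCoveringMapOn p c.Y := (isCoveringMap_iff_isCoveringMapOn_univ.1
    hp.isCoveringMap).mono (subset_univ _)
  exact h.isCoveringMap_restrictPreimage

theorem q_eg (g : G) : q c (eg c hp g) = b0 c := Subtype.ext (hp.map_smul g)

/-- loops upstairs at the base point are trivial -/
theorem loop_trivial (hgen : Subgroup.closure (Set.range fun i : Fin Pr.gens =>
      (FundamentalGroup.fromPath (Path.Homotopic.Quotient.mk (edgeLoop c hp i)) :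
        FundamentalGroup c.Y (b0 c))) = ⊤) (γ : Path (eg c hp 1) (eg c hp 1)) :
    γ.Homotopic (Path.refl _) := by
  have hcov := q_cov c hp
  -- the projection of the loop
  let δ : Path (b0 c) (b0 c) := (γ.map (q c).continuous).cast (q_eg c hp 1).symm (q_eg c hp 1).symm
  obtain ⟨w, hw⟩ := exists_word c hp hgen δ
  have hδ : (δ : C(I, c.Y)).HomotopicRel (loopW c hp w) {0, 1} := hw
  have e0 : (δ : C(I, c.Y)) 0 = q c (eg c hp 1) := by
    change δ 0 = _
    rw [δ.source, q_eg]
  have e1 : (loopW c hp w : C(I, c.Y)) 0 = q c (eg c hp 1) := by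
    change loopW c hp w 0 = _
    rw [(loopW c hp w).source, q_eg]
  have h1 := hcov.liftPath_apply_one_eq_of_homotopicRel hδ (eg c hp 1) e0 e1
  have h2 : (γ : C(I, (p ⁻¹' c.Y : Set E))) = hcov.liftPath δ (eg c hp 1) e0 :=
    (hcov.eq_liftPath_iff' e0).2 ⟨rfl, γ.source⟩
  have h3 : (liftW c hp w : C(I, (p ⁻¹' c.Y : Set E))) =
      hcov.liftPath (loopW c hp w) (eg c hp 1) e1 :=
    (hcov.eq_liftPath_iff' e1).2 ⟨rfl, (liftW c hp w).source⟩
  rw [← h2, ← h3] at h1
  have h4 : eg c hp 1 = eg c hp (wval Pr.x w) := by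
    have a1 : (γ : C(I, (p ⁻¹' c.Y : Set E))) 1 = eg c hp 1 := γ.target
    have a2 : (liftW c hp w : C(I, (p ⁻¹' c.Y : Set E))) 1 = eg c hp (wval Pr.x w) :=
      (liftW c hp w).target
    rw [← a1, h1, a2]
  have h5 : wval Pr.x w = 1 := by
    have := hp.isCancelSMul
    have h6 : (1 : G) • c.e = wval Pr.x w • c.e := congrArg Subtype.val h4
    exact (IsCancelSMul.right_cancel _ _ _ h6).symm
  have h7 : (loopW c hp w).Homotopic (Path.refl _) := by
    have := phi_ker c hp (u := FreeGroup.mk w) (by rw [← wval_eq, h5])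
    rw [phi_mk] at this
    exact pcl_eq.1 (MulOpposite.op_injective this)
  have h8 : δ.Homotopic (Path.refl (b0 c)) := hw.trans h7
  have h9 : (Path.Homotopic.Quotient.mk γ).map (q c) =
      (Path.Homotopic.Quotient.mk (Path.refl (eg c hp 1))).map (q c) := by
    refine Path.Homotopic.Quotient.eq.2 ?_
    refine hom_of_eq h8 (fun t => ?_) (fun t => ?_)
    · rfl
    · exact q_eg c hp 1
  exact Path.Homotopic.Quotient.eq.1 (hcov.injective_path_homotopic_map _ _ h9)

theorem joined_eg (hpc : PathConnectedSpace c.Y) (y : (p ⁻¹' c.Y : Set E)) :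
    Joined (eg c hp 1) y := by
  have hcov := q_cov c hp
  obtain ⟨δ⟩ := PathConnectedSpace.joined (q c y) (b0 c)
  have e0 : (δ : C(I, c.Y)) 0 = q c y := δ.source
  let Γ := hcov.liftPath δ y e0
  have h1 : q c (Γ 1) = b0 c := by
    have := congrFun (hcov.liftPath_lifts δ y e0) 1
    exact this.trans δ.target
  have h2 : p (Γ 1 : E) = p c.e := congrArg Subtype.val h1
  obtain ⟨g, hg⟩ := hp.apply_eq_iff_mem_orbit.1 h2
  obtain ⟨u, hu⟩ := Pr.surj g
  have h3 : wval Pr.x u.toWord = g := by rw [wval_eq, FreeGroup.mk_toWord, hu]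
  have h4 : Joined (eg c hp 1) (Γ 1) := by
    have : Γ 1 = eg c hp (wval Pr.x u.toWord) := Subtype.ext (by
      rw [h3]; exact hg.symm)
    rw [this]
    exact ⟨liftW c hp u.toWord⟩
  have h5 : Joined y (Γ 1) := ⟨⟨Γ, hcov.liftPath_zero δ y e0, rfl⟩⟩
  exact h4.trans h5.symm

end

/-- BLOCK YP, part c -/
theorem ypc {G X E : Type} [Group G] [TopologicalSpace X]
    [TopologicalSpace E] [MulAction G E] [ContinuousConstSMul G E] (p : C(E, X))
    (hp : IsQuotientCoveringMap p G) (Pr : FinPresentation G) (c : PresCx Pr p)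
    (hpc : PathConnectedSpace c.Y) (hgen : Subgroup.closure (Set.range fun i : Fin Pr.gens =>
      (FundamentalGroup.fromPath (Path.Homotopic.Quotient.mk (edgeLoop c hp i)) :
        FundamentalGroup c.Y (b0 c))) = ⊤) : SimplyConnectedSpace (p ⁻¹' c.Y) := by
  have hPC : PathConnectedSpace (p ⁻¹' c.Y : Set E) :=
    ⟨⟨eg c hp 1⟩, fun y z => (joined_eg c hp hpc y).symm.trans (joined_eg c hp hpc z)⟩
  rw [simply_connected_iff_loops_nullhomotopic]
  refine ⟨hPC, fun y γ => ?_⟩
  obtain ⟨δ⟩ := joined_eg c hp hpc y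
  have h := loop_trivial c hp hgen ((δ.trans γ).trans δ.symm)
  have h0 : Path.Homotopic.Quotient.mk ((δ.trans γ).trans δ.symm) =
      Path.Homotopic.Quotient.mk (Path.refl _) := Path.Homotopic.Quotient.eq.2 h
  apply Path.Homotopic.Quotient.eq.1
  have h1 : Path.Homotopic.Quotient.mk γ = ((Path.Homotopic.Quotient.mk δ).symm.trans
      (((Path.Homotopic.Quotient.mk δ).trans (Path.Homotopic.Quotient.mk γ)).trans
        (Path.Homotopic.Quotient.mk δ).symm)).trans (Path.Homotopic.Quotient.mk δ) := by
    simp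
    rw [← Path.Homotopic.Quotient.trans_assoc]
    simp
  rw [h1]
  have h2 : ((Path.Homotopic.Quotient.mk δ).trans (Path.Homotopic.Quotient.mk γ)).trans
        (Path.Homotopic.Quotient.mk δ).symm = Path.Homotopic.Quotient.refl _ := h0
  rw [h2]
  simp

theorem ypc_main (h : SpecYPab) : SpecYP := fun G X E _ _ _ _ _ _ p hp Pr c hc =>
  ypc p hp Pr c (h G X E p hp Pr c hc).1 (h G X E p hp Pr c hc).2

end Vale.Agent.P246.T.YP
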