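import Vale.Agent.P246.T.YP.Gen
import Vale.Agent.P246.T.YPc

/-! # Block YP -/

namespace Vale.Agent.P246.T.YP

theorem ab : SpecYPab := by
  intro G X E _ _ _ _ _ _ p hp Pr c hc
  exact ⟨pc c, gen hp c hc⟩

theorem main : SpecYP := ypc_main ab

end Vale.Agent.P246.T.YP
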