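import Vale.Agent.P246.T.Asm
import Vale.Agent.P246.T.A1
import Vale.Agent.P246.T.A1f
import Vale.Agent.P246.T.A1h
import Vale.Agent.P246.T.A2
import Vale.Agent.P246.T.AC
import Vale.Agent.P246.T.BS
import Vale.Agent.P246.T.CC
import Vale.Agent.P246.T.CL
import Vale.Agent.P246.T.CV
import Vale.Agent.P246.T.CWB
import Vale.Agent.P246.T.CY
import Vale.Agent.P246.T.DN
import Vale.Agent.P246.T.EW
import Vale.Agent.P246.T.FM
import Vale.Agent.P246.T.HC
import Vale.Agent.P246.T.LL
import Vale.Agent.P246.T.MS
import Vale.Agent.P246.T.MX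
import Vale.Agent.P246.T.PR
import Vale.Agent.P246.T.PS
import Vale.Agent.P246.T.RH1
import Vale.Agent.P246.T.RH2
import Vale.Agent.P246.T.RH3
import Vale.Agent.P246.T.RHa
import Vale.Agent.P246.T.RV
import Vale.Agent.P246.T.SD
import Vale.Agent.P246.T.WC
import Vale.Agent.P246.T.WH
import Vale.Agent.P246.T.YC
import Vale.Agent.P246.T.YH
import Vale.Agent.P246.T.YP

/-! # P246, topological version: all blocks together -/

namespace Vale.Agent.P246.T

/-- the fundamental chains -/
theorem fund : SpecFund := FM.main PR.main CC.main1 CL.main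

/-- the relative Hurewicz theorem -/
theorem relHur : SpecRH :=
  RH.main_of (fun _ _ _ _ h => RH.lft0 h) (fun _ _ _ _ h => RH.lft1 h) RH.cyc_bound RH.hzero_pt
    RH.ext_of_lft PS.main (LL.main_of HC.main) BS.main

/-- everything, from the block YD -/
theorem top_of (hYD : SpecYD) : SpecTop :=
  asm CWB.main AC.main (MX.main MS.main CL.main fund) (A1x.main_of A1f.free A1h.aug_iff A1h.h_one)
    A2.main WC.main hYD YC.main CY.main YP.main (YH.main MS.main CL.main fund) EWb.main RV.main
    relHur DN.main CV.main WH.main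

end Vale.Agent.P246.T
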