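import Vale.Agent.P246.MathlibUsed
import Mathlib.AlgebraicTopology.FundamentalGroupoid.InducedMaps
import Mathlib.AlgebraicTopology.FundamentalGroupoid.SimplyConnected
import Mathlib.Analysis.Convex.Contractible
import Mathlib.Analysis.Convex.StdSimplex
import Mathlib.Topology.Algebra.Module.LocallyConvex
import Mathlib.Topology.CWComplex.Classical.Finite
import Mathlib.Topology.CWComplex.Classical.Subcomplex
import Mathlib.Topology.Connected.LocallyPathConnected
import Mathlib.Topology.Covering.Basic
import Mathlib.Topology.Covering.Quotient
import Mathlib.Topology.Homotopy.Contractible
import Mathlib.Topology.Homotopy.Equiv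
import Mathlib.Topology.Homotopy.Lifting
import Mathlib.Topology.Homotopy.Path
import Mathlib.Topology.MetricSpace.HausdorffDistance

/-! The part of Mathlib that the topological version uses. -/
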