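import Vale.Agent.P246.T.Step
import Vale.Agent.P246.T.CC
import Vale.Agent.P246.T.PR2

/-! # Block MX: finite models of the coverings of finite complexes -/

namespace Vale.Agent.P246.T.MX

open Topology Metric Set

/-- the radial homotopy from the constant map to the identity -/
def shr (n : ℕ) (q : I × Dk n) : Dk n := ⟨(q.1 : ℝ) • (q.2 : Fin n → ℝ), by
  have h1 := q.1.2.1
  have h2 := q.1.2.2
  have h3 := CC.norm_le n q.2
  rw [mem_closedBall_zero_iff, norm_smul, Real.norm_of_nonneg h1]
  exact mul_le_one₀ h2 (norm_nonneg _) h3⟩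

theorem continuous_shr (n : ℕ) : Continuous (shr n) := by
  refine Continuous.subtype_mk ?_ _
  have h1 : Continuous fun q : I × Dk n => (q.1 : ℝ) := by fun_prop
  have h2 : Continuous fun q : I × Dk n => (q.2 : Fin n → ℝ) := by fun_prop
  exact h1.smul h2

theorem shr_zero (n : ℕ) (x y : Dk n) : shr n (0, x) = shr n (0, y) := by
  apply Subtype.ext
  change ((0 : I) : ℝ) • (x : Fin n → ℝ) = ((0 : I) : ℝ) • (y : Fin n → ℝ)
  have h0 : ((0 : I) : ℝ) = 0 := rfl
  rw [h0, zero_smul, zero_smul]

theorem shr_one (n : ℕ) (x : Dk n) : shr n (1, x) = x := by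
  apply Subtype.ext
  change ((1 : I) : ℝ) • (x : Fin n → ℝ) = x
  have h0 : ((1 : I) : ℝ) = 1 := rfl
  rw [h0, one_smul]

section

variable {G X E : Type} [Group G] [TopologicalSpace X]
  [TopologicalSpace E] [MulAction G E] {p : C(E, X)}

/-- a map from the cube lifts -/
theorem exists_lift (hp : IsQuotientCoveringMap p G) {n : ℕ} (Φ : C(Dk n, X)) :
    ∃ Ψ : C(Dk n, E), ∀ x, p (Ψ x) = Φ x := by
  let x0 : Dk n := ⟨0, mem_closedBall_self zero_le_one⟩
  obtain ⟨e, he⟩ := hp.surjective (Φ (shr n (0, x0)))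
  let H : C(I × Dk n, X) := Φ.comp ⟨shr n, continuous_shr n⟩
  have hH : ∀ a, H (0, a) = p (ContinuousMap.const (Dk n) e a) := fun a => by
    change Φ (shr n (0, a)) = p e
    rw [he, shr_zero n a x0]
  let L := hp.isCoveringMap.liftHomotopy H (ContinuousMap.const (Dk n) e) hH
  refine ⟨L.comp ⟨fun x => (1, x), by fun_prop⟩, fun x => ?_⟩
  have h1 := congrFun (hp.isCoveringMap.liftHomotopy_lifts H (ContinuousMap.const (Dk n) e) hH)
    (1, x)
  change p (L (1, x)) = Φ x
  refine h1.trans ?_
  change Φ (shr n (1, x)) = Φ x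
  rw [shr_one]

end

section Alg

variable {R M : Type} [Ring R] [AddCommGroup M] [Module R M]

/-- one more generator -/
theorem free_sup {P A : Submodule R M} (hPA : P ≤ A) {z : M} (hz : ∀ r : R, r • z ∈ A → r = 0)
    (hfree : Module.Free R P) :
    Module.Free R (P ⊔ Submodule.span R {z} : Submodule R M) := by
  let f : (P × R) →ₗ[R] M := P.subtype.coprod (LinearMap.toSpanSingleton R M z)
  have hf : Function.Injective f := by
    rw [injective_iff_map_eq_zero]
    rintro ⟨x, r⟩ h
    have h1 : (x : M) + r • z = 0 := h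
    have hr : r = 0 := hz r (by
      rw [eq_neg_of_add_eq_zero_right h1]
      exact Submodule.neg_mem _ (hPA x.2))
    subst hr
    rw [zero_smul, add_zero] at h1
    exact Prod.ext (Subtype.ext h1) rfl
  have hrange : LinearMap.range f = P ⊔ Submodule.span R {z} := by
    rw [LinearMap.range_coprod, Submodule.range_subtype, LinearMap.range_toSpanSingleton]
  have e := (LinearEquiv.ofInjective f hf).trans (LinearEquiv.ofEq _ _ hrange)
  exact Module.Free.of_equiv e

theorem finite_sup {P : Submodule R M} (z : M) (h : Module.Finite R P) :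
    Module.Finite R (P ⊔ Submodule.span R {z} : Submodule R M) := by
  rw [Module.Finite.iff_fg] at h ⊢
  exact h.sup (Submodule.fg_span_singleton z)

end Alg

section

variable {G X E : Type} [Group G] [TopologicalSpace X] [T2Space X]
  [TopologicalSpace E] [MulAction G E] [ContinuousConstSMul G E] {p : C(E, X)}

theorem mem_empty (hp : IsQuotientCoveringMap p G) {n : ℕ} {x : SC G n E}
    (hx : x ∈ Step.SA hp ∅ n) : x = 0 := by
  rw [Step.mem_SA, preimage_empty] at hx
  exact SC.un_inj (PR.Con_empty hx)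

theorem base (hp : IsQuotientCoveringMap p G) : IsFinModel (fun n => SC G n E)
    (fun n => SC.d G n E) (Step.SA hp ∅) (fun _ => ⊥) where
  le _ := bot_le
  d_mem n x hx := by
    rw [Submodule.mem_bot] at hx ⊢
    rw [hx, map_zero]
  inj n x hx _ _ := ⟨0, Submodule.zero_mem _, by
    rw [Submodule.mem_bot] at hx
    rw [hx, map_zero]⟩
  surj n x hx hc := ⟨0, Submodule.zero_mem _, by
    rw [mem_empty hp hx] at hc
    exact hc, 0, Submodule.zero_mem _, by rw [mem_empty hp hx, map_zero, add_zero]⟩
  free _ := inferInstance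
  fin _ := inferInstance
  bdd := ⟨0, fun _ _ => rfl⟩

theorem cell (hms : SpecMS) (hcl : SpecCL) (hf : SpecFund) (hp : IsQuotientCoveringMap p G)
    {A B : Set X} {n : ℕ} {Φ : C(Dk n, X)} (hA : IsClosed A) (h : Attach n A B Φ)
    {P : ∀ k, Submodule (ZG G) (SC G k E)}
    (hP : IsFinModel (fun n => SC G n E) (fun n => SC.d G n E) (Step.SA hp A) P) :
    ∃ P' : ∀ k, Submodule (ZG G) (SC G k E),
      IsFinModel (fun n => SC G n E) (fun n => SC.d G n E) (Step.SA hp B) P' := by
  obtain ⟨Ψ, hΨ⟩ := exists_lift hp Φ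
  obtain ⟨ζ, hζ⟩ := hf.1 n
  -- the correction of the cell
  obtain ⟨z, hz, hz'⟩ : ∃ z : SC G n E, z.un - push Ψ n ζ ∈ Con (p ⁻¹' A) n ∧
      DRel (fun n => SC G n E) (fun n => SC.d G n E) P n z := by
    cases n with
    | zero =>
      refine ⟨SC.mk G (push Ψ 0 ζ), ?_, trivial⟩
      rw [SC.un_mk, sub_self]
      exact Submodule.zero_mem _
    | succ m =>
      have h1 : bd m (push Ψ (m + 1) ζ) ∈ Con (p ⁻¹' A) m := by
        rw [push_bd]
        refine push_mem (fun x hx => ?_) hζ.cyc
        change p (Ψ x) ∈ A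
        rw [hΨ]
        exact h.bdry x hx
      obtain ⟨y, hy, -, z', hz', he⟩ := hP.surj m (SC.mk G (bd m (push Ψ (m + 1) ζ))) h1 (by
        cases m with
        | zero => trivial
        | succ m => exact SC.un_inj (PR.bd_bd m _))
      refine ⟨SC.mk G (push Ψ (m + 1) ζ) - z', ?_, ?_⟩
      · rw [SC.un_sub, SC.un_mk, sub_sub_cancel_left]
        exact Submodule.neg_mem _ hz'
      · change SC.d G m E (SC.mk G (push Ψ (m + 1) ζ) - z') ∈ P m
        have e : SC.d G m E (SC.mk G (push Ψ (m + 1) ζ) - z') = y := by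
          rw [map_sub, sub_eq_iff_eq_add]
          exact he
        rw [e]
        exact hy
  obtain ⟨h1, h2⟩ := Step.step hms CC.main2 hcl hp Ψ hA h hΨ hζ hP.toIsModel z hz hz'
  refine ⟨_, { toIsModel := h1, free := fun k => ?_, fin := fun k => ?_, bdd := ?_ }⟩
  · by_cases hk : k = n
    · subst hk
      rw [Function.update_self]
      exact free_sup (hP.le k) h2 (hP.free k)
    · rw [Function.update_of_ne hk]
      exact hP.free k
  · by_cases hk : k = n
    · subst hk
      rw [Function.update_self]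
      exact finite_sup z (hP.fin k)
    · rw [Function.update_of_ne hk]
      exact hP.fin k
  · obtain ⟨N, hN⟩ := hP.bdd
    refine ⟨max N n, fun k hk => ?_⟩
    rw [Function.update_of_ne (by have := le_max_right N n; omega)]
    exact hN k (lt_of_le_of_lt (le_max_left N n) hk)

theorem built (hms : SpecMS) (hcl : SpecCL) (hf : SpecFund) (hp : IsQuotientCoveringMap p G)
    {B : Set X} (hB : Built ∅ B) : IsClosed B ∧ ∃ P : ∀ k, Submodule (ZG G) (SC G k E),
      IsFinModel (fun n => SC G n E) (fun n => SC.d G n E) (Step.SA hp B) P := by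
  induction hB with
  | base => exact ⟨isClosed_empty, _, base hp⟩
  | cell n Φ _ h ih =>
    obtain ⟨hA, P, hP⟩ := ih
    refine ⟨?_, cell hms hcl hf hp hA h hP⟩
    rw [h.eq]
    exact hA.union (isCompact_range Φ.continuous).isClosed

end

theorem main (hms : SpecMS) (hcl : SpecCL) (hf : SpecFund) : SpecMX := by
  intro G X E _ _ _ _ _ _ p hp hX
  obtain ⟨-, P, hP⟩ := built hms hcl hf hp hX
  refine ⟨P, ?_⟩
  have e : (Step.SA hp univ : ∀ n, Submodule (ZG G) (SC G n E)) = fun _ => ⊤ := by
    funext n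
    rw [eq_top_iff]
    intro x _
    rw [Step.mem_SA, preimage_univ]
    exact PR.Con_univ _
  rw [← e]
  exact hP

end Vale.Agent.P246.T.MX
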