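import Vale.Agent.P246.T.Spec

/-! # Block PS, parts 1, 2, 3: the path space -/

namespace Vale.Agent.P246.T.PS1

open Topology Metric Set

variable {B : Type} [TopologicalSpace B] {b : B}

/-- maps to the path space from maps of two variables -/
def mk {Z : Type} [TopologicalSpace Z] (F : C(Z × I, B)) (h : ∀ z, F (z, 0) = b) : C(Z, PP b) :=
  ⟨fun z => ⟨F.curry z, h z⟩, Continuous.subtype_mk F.curry.continuous _⟩

theorem mk_apply {Z : Type} [TopologicalSpace Z] (F : C(Z × I, B)) (h : ∀ z, F (z, 0) = b) (z : Z)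
    (t : I) : (mk F h z).1 t = F (z, t) := rfl

/-- evaluation of a map to the path space -/
def un {Z : Type} [TopologicalSpace Z] (f : C(Z, PP b)) : C(Z × I, B) :=
  ⟨fun q => (f q.1).1 q.2, by
    have h : Continuous fun q : Z × I => ((f q.1).1, q.2) :=
      (continuous_subtype_val.comp (f.continuous.comp continuous_fst)).prodMk continuous_snd
    exact ContinuousEval.continuous_eval.comp h⟩

theorem un_apply {Z : Type} [TopologicalSpace Z] (f : C(Z, PP b)) (q : Z × I) :
    un f q = (f q.1).1 q.2 := rfl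

theorem P1 (b : B) : ContractibleSpace (PP b) := by
  refine (contractible_iff_id_nullhomotopic (PP b)).2 ⟨⟨ContinuousMap.const I b, rfl⟩, ?_⟩
  let F : C((I × PP b) × I, B) := ⟨fun q => q.1.2.1 (unitInterval.symm q.1.1 * q.2), by
    have h : Continuous fun q : (I × PP b) × I => (q.1.2.1, unitInterval.symm q.1.1 * q.2) := by
      fun_prop
    exact ContinuousEval.continuous_eval.comp h⟩
  have hF : ∀ z, F (z, 0) = b := fun z => by
    show z.2.1 (unitInterval.symm z.1 * 0) = b
    rw [mul_zero]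
    exact z.2.2
  refine ⟨⟨⟨mk F hF, (mk F hF).continuous⟩, fun x => ?_, fun x => ?_⟩⟩
  · refine Subtype.ext (ContinuousMap.ext fun t => ?_)
    show x.1 (unitInterval.symm 0 * t) = x.1 t
    rw [unitInterval.symm_zero, one_mul]
  · refine Subtype.ext (ContinuousMap.ext fun t => ?_)
    show x.1 (unitInterval.symm 1 * t) = b
    rw [unitInterval.symm_one, zero_mul]
    exact x.2

/-- `2 t` for `t ≤ 1/2` -/
noncomputable def dbl (t : I) : I := Set.projIcc 0 1 zero_le_one (2 * (t : ℝ))

/-- `2 t - 1` for `t ≥ 1/2` -/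
noncomputable def dbr (t : I) : I := Set.projIcc 0 1 zero_le_one (2 * (t : ℝ) - 1)

theorem continuous_dbl : Continuous dbl := by unfold dbl; fun_prop
theorem continuous_dbr : Continuous dbr := by unfold dbr; fun_prop

theorem dbl_zero : dbl 0 = 0 := by
  rw [dbl]; simp
theorem dbl_half (t : I) (h : (t : ℝ) = 1 / 2) : dbl t = 1 := by
  rw [dbl, h]; norm_num
theorem dbr_half (t : I) (h : (t : ℝ) = 1 / 2) : dbr t = 0 := by
  rw [dbr, h]; norm_num
theorem dbr_one : dbr 1 = 1 := by
  rw [dbr]; norm_num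

/-- concatenation of families of paths -/
noncomputable def cat {Z : Type} [TopologicalSpace Z] (F G : C(Z × I, B))
    (h : ∀ z, F (z, 1) = G (z, 0)) : C(Z × I, B) :=
  ⟨fun q => if (q.2 : ℝ) ≤ 1 / 2 then F (q.1, dbl q.2) else G (q.1, dbr q.2), by
    refine Continuous.if_le ?_ ?_ ?_ continuous_const fun q hq => ?_
    · exact F.continuous.comp (continuous_fst.prodMk (continuous_dbl.comp continuous_snd))
    · exact G.continuous.comp (continuous_fst.prodMk (continuous_dbr.comp continuous_snd))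
    · exact continuous_subtype_val.comp continuous_snd
    · rw [dbl_half _ hq, dbr_half _ hq, h]⟩

theorem cat_zero {Z : Type} [TopologicalSpace Z] (F G : C(Z × I, B))
    (h : ∀ z, F (z, 1) = G (z, 0)) (z : Z) : cat F G h (z, 0) = F (z, 0) := by
  show (if ((0 : I) : ℝ) ≤ 1 / 2 then F (z, dbl 0) else G (z, dbr 0)) = _
  rw [if_pos (by norm_num), dbl_zero]

theorem cat_one {Z : Type} [TopologicalSpace Z] (F G : C(Z × I, B))
    (h : ∀ z, F (z, 1) = G (z, 0)) (z : Z) : cat F G h (z, 1) = G (z, 1) := by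
  show (if ((1 : I) : ℝ) ≤ 1 / 2 then F (z, dbl 1) else G (z, dbr 1)) = _
  rw [if_neg (by norm_num), dbr_one]

/-- the straight line between two points of the simplex -/
def seg {k : ℕ} (x y : Dl k) (t : I) : Dl k :=
  ⟨fun i => (1 - (t : ℝ)) * x i + t * y i, fun i => by
    have h1 : (0 : ℝ) ≤ x i := x.2.1 i
    have h2 : (0 : ℝ) ≤ y i := y.2.1 i
    have h3 := t.2.1
    have h4 := t.2.2
    show 0 ≤ (1 - (t : ℝ)) * x i + t * y i
    have : 0 ≤ 1 - (t : ℝ) := by linarith
    positivity, by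
    have h1 : ∑ i, x i = 1 := x.2.2
    have h2 : ∑ i, y i = 1 := y.2.2
    rw [Finset.sum_add_distrib, ← Finset.mul_sum, ← Finset.mul_sum, h1, h2]
    ring⟩

theorem seg_zero {k : ℕ} (x y : Dl k) : seg x y 0 = x := by
  refine Subtype.ext (funext fun i => ?_)
  show (1 - ((0 : I) : ℝ)) * x i + ((0 : I) : ℝ) * y i = x i
  simp

theorem seg_one {k : ℕ} (x y : Dl k) : seg x y 1 = y := by
  refine Subtype.ext (funext fun i => ?_)
  show (1 - ((1 : I) : ℝ)) * x i + ((1 : I) : ℝ) * y i = y i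
  simp

theorem seg_self {k : ℕ} (x : Dl k) (t : I) : seg x x t = x := by
  refine Subtype.ext (funext fun i => ?_)
  show (1 - (t : ℝ)) * x i + (t : ℝ) * x i = x i
  ring

theorem continuous_seg {k : ℕ} : Continuous fun q : Dl k × Dl k × I => seg q.1 q.2.1 q.2.2 := by
  refine Continuous.subtype_mk (continuous_pi fun i => ?_) _
  have h1 : Continuous fun q : Dl k × Dl k × I => q.1 i :=
    (continuous_apply i).comp (continuous_subtype_val.comp continuous_fst)
  have h2 : Continuous fun q : Dl k × Dl k × I => q.2.1 i :=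
    (continuous_apply i).comp (continuous_subtype_val.comp (continuous_fst.comp continuous_snd))
  have h3 : Continuous fun q : Dl k × Dl k × I => ((q.2.2 : I) : ℝ) :=
    continuous_subtype_val.comp (continuous_snd.comp continuous_snd)
  exact ((continuous_const.sub h3).mul h1).add (h3.mul h2)

theorem continuous_seg' {Z : Type} [TopologicalSpace Z] {k : ℕ} {f g : Z → Dl k} {t : Z → I}
    (hf : Continuous f) (hg : Continuous g) (ht : Continuous t) :
    Continuous fun z => seg (f z) (g z) (t z) :=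
  continuous_seg.comp (hf.prodMk (hg.prodMk ht))

/-- the first vertex -/
noncomputable def v0 (k : ℕ) : Dl (k + 1) := stdSimplex.vertex 0

/-- a path followed by the image of the straight line -/
noncomputable def ray (k : ℕ) (σ : C(Dl (k + 1), B)) (ω : Path b (σ (v0 k))) :
    C(Dl (k + 1), PP b) :=
  mk (cat (Z := Dl (k + 1)) ⟨fun q => ω q.2, by fun_prop⟩ ⟨fun q => σ (seg (v0 k) q.1 q.2),
    σ.continuous.comp (continuous_seg' continuous_const continuous_fst continuous_snd)⟩
    (fun z => by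
      show ω 1 = σ (seg (v0 k) z 0)
      rw [seg_zero, ω.target])) (fun z => by
      rw [cat_zero]
      exact ω.source)

theorem ev_ray (k : ℕ) (σ : C(Dl (k + 1), B)) (ω : Path b (σ (v0 k))) (x : Dl (k + 1)) :
    ev b (ray k σ ω x) = σ x := by
  show (if ((1 : I) : ℝ) ≤ 1 / 2 then ω (dbl 1) else σ (seg (v0 k) x (dbr 1))) = σ x
  rw [if_neg (by norm_num), dbr_one, seg_one]

theorem P2 (hB : PathConnectedSpace B) (b : B) (k : ℕ) (σ : C(Dl (k + 1), B)) :
    ∃ τ : C(Dl (k + 1), PP b), (ev b).comp τ = σ := by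
  let ω : Path b (σ (v0 k)) := PathConnectedSpace.somePath _ _
  exact ⟨ray k σ ω, ContinuousMap.ext fun x => ev_ray k σ ω x⟩

/-- homotopic through lifts of `σ` -/
def LH {k : ℕ} (σ : C(Dl (k + 1), B)) (τ τ' : C(Dl (k + 1), PP b)) : Prop :=
  Nonempty (ContinuousMap.HomotopyWith τ τ' fun f => ∀ x, ev b (f x) = σ x)

theorem LH.of {k : ℕ} {σ : C(Dl (k + 1), B)} {τ τ' : C(Dl (k + 1), PP b)}
    (F : C((I × Dl (k + 1)) × I, B)) (hF : ∀ z, F (z, 0) = b) (h1 : ∀ z, F (z, 1) = σ z.2)
    (e0 : ∀ x t, F ((0, x), t) = (τ x).1 t) (e1 : ∀ x t, F ((1, x), t) = (τ' x).1 t) :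
    LH σ τ τ' :=
  ⟨{ toFun := mk F hF
     continuous_toFun := (mk F hF).continuous
     map_zero_left := fun x => Subtype.ext (ContinuousMap.ext fun t => e0 x t)
     map_one_left := fun x => Subtype.ext (ContinuousMap.ext fun t => e1 x t)
     prop' := fun t x => h1 (t, x) }⟩

/-- the path of the lift over the first vertex -/
noncomputable def om {k : ℕ} {σ : C(Dl (k + 1), B)} (τ : C(Dl (k + 1), PP b))
    (h : ∀ x, ev b (τ x) = σ x) : Path b (σ (v0 k)) where
  toFun := (τ (v0 k)).1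
  continuous_toFun := (τ (v0 k)).1.continuous
  source' := (τ (v0 k)).2
  target' := h (v0 k)

/-- every lift is homotopic to the ray of its value at the first vertex -/
theorem LH.ray {k : ℕ} {σ : C(Dl (k + 1), B)} (τ : C(Dl (k + 1), PP b))
    (h : ∀ x, ev b (τ x) = σ x) : LH σ (ray k σ (om τ h)) τ := by
  -- the intermediate lift
  let G1 : C((I × Dl (k + 1)) × I, B) :=
    ⟨fun q => (τ (seg (v0 k) q.1.2 q.1.1)).1 q.2, by
      have hc : Continuous fun q : (I × Dl (k + 1)) × I =>
          ((τ (seg (v0 k) q.1.2 q.1.1)).1, q.2) := by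
        refine Continuous.prodMk ?_ continuous_snd
        refine continuous_subtype_val.comp (τ.continuous.comp ?_)
        exact continuous_seg' continuous_const (continuous_snd.comp continuous_fst)
          (continuous_fst.comp continuous_fst)
      exact ContinuousEval.continuous_eval.comp hc⟩
  let G2 : C((I × Dl (k + 1)) × I, B) :=
    ⟨fun q => σ (seg (seg (v0 k) q.1.2 q.1.1) q.1.2 q.2), by
      refine σ.continuous.comp (continuous_seg' ?_ (continuous_snd.comp continuous_fst)
        continuous_snd)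
      exact continuous_seg' continuous_const (continuous_snd.comp continuous_fst)
          (continuous_fst.comp continuous_fst)⟩
  have hG : ∀ z, G1 (z, 1) = G2 (z, 0) := fun z => by
    show (τ (seg (v0 k) z.2 z.1)).1 1 = σ (seg (seg (v0 k) z.2 z.1) z.2 0)
    rw [seg_zero]
    exact h _
  let C1 : C((I × Dl (k + 1)) × I, B) :=
    ⟨fun q => (τ q.1.2).1 (Set.projIcc 0 1 zero_le_one ((2 - (q.1.1 : ℝ)) * q.2)), by
      have hc : Continuous fun q : (I × Dl (k + 1)) × I =>
          ((τ q.1.2).1, (Set.projIcc 0 1 zero_le_one ((2 - (q.1.1 : ℝ)) * q.2) : I)) := by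
        refine Continuous.prodMk ?_ (continuous_projIcc.comp (by fun_prop))
        exact continuous_subtype_val.comp (τ.continuous.comp (continuous_snd.comp continuous_fst))
      exact ContinuousEval.continuous_eval.comp hc⟩
  have hm0 : ∀ z, C1 (z, 0) = b := fun z => by
    show (τ z.2).1 (Set.projIcc 0 1 zero_le_one ((2 - (z.1 : ℝ)) * ((0 : I) : ℝ))) = b
    have : (Set.projIcc 0 1 zero_le_one ((2 - (z.1 : ℝ)) * ((0 : I) : ℝ)) : I) = 0 := by simp
    rw [this]
    exact (τ z.2).2
  have hm1 : ∀ z, C1 (z, 1) = σ z.2 := fun z => by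
    show (τ z.2).1 (Set.projIcc 0 1 zero_le_one ((2 - (z.1 : ℝ)) * ((1 : I) : ℝ))) = σ z.2
    have h1 : (1 : ℝ) ≤ (2 - (z.1 : ℝ)) * ((1 : I) : ℝ) := by
      have := z.1.2.2
      simp only [Set.Icc.coe_one, mul_one]
      linarith
    rw [Set.projIcc_of_right_le _ h1]
    exact h z.2
  let τm : C(Dl (k + 1), PP b) :=
    mk (cat G1 G2 hG) (fun z => by rw [cat_zero]; exact (τ _).2) |>.comp
      (⟨fun x => (1, x), by fun_prop⟩ : C(Dl (k + 1), I × Dl (k + 1)))
  have hτm : ∀ x t, (τm x).1 t = C1 ((0, x), t) := fun x t => by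
    show (if (t : ℝ) ≤ 1 / 2 then G1 ((1, x), dbl t) else G2 ((1, x), dbr t)) =
      (τ x).1 (Set.projIcc 0 1 zero_le_one ((2 - ((0 : I) : ℝ)) * t))
    have e : ((2 - ((0 : I) : ℝ)) * (t : ℝ)) = 2 * (t : ℝ) := by simp
    rw [e]
    split_ifs with ht
    · show (τ (seg (v0 k) x 1)).1 (dbl t) = _
      rw [seg_one]; rfl
    · show σ (seg (seg (v0 k) x 1) x (dbr t)) = _
      rw [seg_one, seg_self, Set.projIcc_of_right_le _ (by push Not at ht; linarith)]
      exact (h x).symm
  have s1 : LH σ (PS1.ray k σ (om τ h)) τm := by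
    refine LH.of (cat G1 G2 hG) (fun z => by rw [cat_zero]; exact (τ _).2) (fun z => ?_)
      (fun x t => ?_) (fun x t => rfl)
    · rw [cat_one]
      show σ (seg (seg (v0 k) z.2 z.1) z.2 1) = σ z.2
      rw [seg_one]
    · show (if (t : ℝ) ≤ 1 / 2 then G1 ((0, x), dbl t) else G2 ((0, x), dbr t)) =
        (if (t : ℝ) ≤ 1 / 2 then (τ (v0 k)).1 (dbl t) else σ (seg (v0 k) x (dbr t)))
      split_ifs with ht
      · show (τ (seg (v0 k) x 0)).1 (dbl t) = _
        rw [seg_zero]
      · show σ (seg (seg (v0 k) x 0) x (dbr t)) = _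
        rw [seg_zero]
  have s2 : LH σ τm τ := by
    refine LH.of C1 hm0 hm1 (fun x t => (hτm x t).symm) (fun x t => ?_)
    show (τ x).1 (Set.projIcc 0 1 zero_le_one ((2 - ((1 : I) : ℝ)) * t)) = (τ x).1 t
    congr 1
    have e : ((2 - ((1 : I) : ℝ)) * (t : ℝ)) = (t : ℝ) := by
      simp only [Set.Icc.coe_one]; ring
    rw [e, Set.projIcc_of_mem _ t.2]
  obtain ⟨H1⟩ := s1
  obtain ⟨H2⟩ := s2
  exact ⟨H1.trans H2⟩

theorem P3 (hB : SimplyConnectedSpace B) (b : B) (k : ℕ) (τ τ' : C(Dl (k + 1), PP b))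
    (h : (ev b).comp τ = (ev b).comp τ') : ∃ K : Hm (k + 1) (PP b), K.at 0 = τ ∧ K.at 1 = τ' ∧
      ∀ t x, ev b (K (t, x)) = ev b (τ x) := by
  let σ : C(Dl (k + 1), B) := (ev b).comp τ
  have h1 : ∀ x, ev b (τ x) = σ x := fun x => rfl
  have h2 : ∀ x, ev b (τ' x) = σ x := fun x => (DFunLike.congr_fun h x).symm
  obtain ⟨A1⟩ := LH.ray τ h1
  obtain ⟨A2⟩ := LH.ray τ' h2
  obtain ⟨η⟩ := SimplyConnectedSpace.paths_homotopic (om τ h1) (om τ' h2)
  have hm : LH σ (ray k σ (om τ h1)) (ray k σ (om τ' h2)) := by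
    let G1 : C((I × Dl (k + 1)) × I, B) :=
      ⟨fun q => η (q.1.1, q.2), by fun_prop⟩
    let G2 : C((I × Dl (k + 1)) × I, B) :=
      ⟨fun q => σ (seg (v0 k) q.1.2 q.2), σ.continuous.comp (continuous_seg' continuous_const
        (continuous_snd.comp continuous_fst) continuous_snd)⟩
    have hG : ∀ z, G1 (z, 1) = G2 (z, 0) := fun z => by
      show η (z.1, 1) = σ (seg (v0 k) z.2 0)
      rw [seg_zero]
      exact η.target z.1
    refine LH.of (cat G1 G2 hG) (fun z => ?_) (fun z => ?_) (fun x t => ?_) (fun x t => ?_)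
    · rw [cat_zero]
      exact η.source z.1
    · rw [cat_one]
      show σ (seg (v0 k) z.2 1) = σ z.2
      rw [seg_one]
    · show (if (t : ℝ) ≤ 1 / 2 then η (0, dbl t) else σ (seg (v0 k) x (dbr t))) =
        (if (t : ℝ) ≤ 1 / 2 then om τ h1 (dbl t) else σ (seg (v0 k) x (dbr t)))
      split_ifs with ht
      · exact η.apply_zero (dbl t)
      · rfl
    · show (if (t : ℝ) ≤ 1 / 2 then η (1, dbl t) else σ (seg (v0 k) x (dbr t))) =
        (if (t : ℝ) ≤ 1 / 2 then om τ' h2 (dbl t) else σ (seg (v0 k) x (dbr t)))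
      split_ifs with ht
      · exact η.apply_one (dbl t)
      · rfl
  obtain ⟨A3⟩ := hm
  let H := (A1.symm.trans A3).trans A2
  refine ⟨⟨fun q => H q, H.continuous⟩, ?_, ?_, fun t x => ?_⟩
  · exact ContinuousMap.ext fun x => H.apply_zero x
  · exact ContinuousMap.ext fun x => H.apply_one x
  · exact H.prop t x

end Vale.Agent.P246.T.PS1
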