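import Vale.Agent.P246.T.Spec
import Mathlib.Data.Fin.Parity

/-! # Block SD, part 1: affine chains and their subdivision -/

set_option linter.all false

namespace Vale.Agent.P246.T.SD

open Topology Set

theorem alt_alt {A : Type*} [AddCommGroup A] (n : ℕ) (a : Fin (n + 2) → Fin (n + 1) → A)
    (h : ∀ i j, a (i.succAbove j) (j.predAbove i) = a i j) :
    ∑ i : Fin (n + 2), (-1 : ℤ) ^ (i : ℕ) • ∑ j : Fin (n + 1), (-1 : ℤ) ^ (j : ℕ) • a i j = 0 := by
  have h1 : ∑ i : Fin (n + 2), (-1 : ℤ) ^ (i : ℕ) • ∑ j : Fin (n + 1),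
      (-1 : ℤ) ^ (j : ℕ) • a i j =
      ∑ p : Fin (n + 2) × Fin (n + 1), (-1 : ℤ) ^ ((p.1 : ℕ) + p.2) • a p.1 p.2 := by
    rw [Fintype.sum_prod_type]
    refine Finset.sum_congr rfl fun i _ => ?_
    rw [Finset.smul_sum]
    refine Finset.sum_congr rfl fun j _ => ?_
    rw [pow_add, mul_smul]
  rw [h1]
  refine Finset.sum_involution (fun p _ => (p.1.succAbove p.2, p.2.predAbove p.1)) ?_ ?_ ?_ ?_
  · rintro ⟨i, j⟩ _
    change (-1 : ℤ) ^ ((i : ℕ) + j) • a i j +
      (-1 : ℤ) ^ ((i.succAbove j : ℕ) + (j.predAbove i : ℕ)) • a (i.succAbove j) (j.predAbove i) = 0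
    rw [Fin.neg_one_pow_succAbove_add_predAbove, h, neg_smul, add_neg_cancel]
  · rintro ⟨i, j⟩ _ _ he
    exact Fin.succAbove_ne i j (congrArg Prod.fst he)
  · intro p _; exact Finset.mem_univ _
  · rintro ⟨i, j⟩ _
    exact Prod.ext (Fin.succAbove_succAbove_predAbove i j) (Fin.predAbove_predAbove_succAbove i j)

/-! ## Affine combinations -/

variable {N N' : ℕ}

/-- the affine combination of the points `v i` -/
noncomputable def comb {k : ℕ} (v : Fin k → Dl N) (x : Dl k) : Dl N :=
  ⟨∑ i, x i • (v i).1, (convex_stdSimplex ℝ (Fin N)).sum_mem (fun i _ => x.2.1 i) x.2.2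
    fun i _ => (v i).2⟩

theorem comb_val {k : ℕ} (v : Fin k → Dl N) (x : Dl k) :
    (comb v x).1 = ∑ i, x i • (v i).1 := rfl

/-- the affine simplex -/
noncomputable def aff {k : ℕ} (v : Fin k → Dl N) : C(Dl k, Dl N) :=
  ⟨comb v, by
    refine Continuous.subtype_mk ?_ _
    refine continuous_finsetSum _ fun i _ => ?_
    exact ((continuous_apply i).comp continuous_subtype_val).smul continuous_const⟩

/-- the vertices -/
noncomputable def vx (k : ℕ) (i : Fin k) : Dl k :=
  ⟨Pi.single i 1, by
    classical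
    exact single_mem_stdSimplex ℝ i⟩

theorem comb_vx {k : ℕ} (x : Dl k) : comb (vx k) x = x := by
  apply Subtype.ext
  rw [comb_val]
  funext j
  rw [Finset.sum_apply, Finset.sum_eq_single j]
  · change x j • (Pi.single j (1 : ℝ) : Fin k → ℝ) j = x j
    rw [Pi.single_eq_same, smul_eq_mul, mul_one]
  · intro i _ hij
    change x i • (Pi.single i (1 : ℝ) : Fin k → ℝ) j = 0
    rw [Pi.single_eq_of_ne (Ne.symm hij), smul_zero]
  · intro h; exact absurd (Finset.mem_univ _) h

theorem aff_vx (k : ℕ) : aff (vx k) = ContinuousMap.id (Dl k) :=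
  ContinuousMap.ext fun x => comb_vx x

theorem aff_apply {k : ℕ} (v : Fin k → Dl N) (x : Dl k) : aff v x = comb v x := rfl

theorem comb_apply_vx {k : ℕ} (v : Fin k → Dl N) (i : Fin k) : comb v (vx k i) = v i := by
  apply Subtype.ext
  rw [comb_val, Finset.sum_eq_single i]
  · change (Pi.single i (1 : ℝ) : Fin k → ℝ) i • _ = _
    rw [Pi.single_eq_same, one_smul]
  · intro j _ hij
    change (Pi.single i (1 : ℝ) : Fin k → ℝ) j • _ = _
    rw [Pi.single_eq_of_ne hij, zero_smul]
  · intro h; exact absurd (Finset.mem_univ _) h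

theorem comb_comb {k l : ℕ} (v : Fin k → Dl N) (w : Fin l → Dl k) (x : Dl l) :
    comb v (comb w x) = comb (fun i => comb v (w i)) x := by
  apply Subtype.ext
  rw [comb_val, comb_val]
  simp only [comb_val]
  have h : ∀ i, (comb w x) i = ∑ j, x j * (w j) i := by
    intro i
    change (comb w x).1 i = _
    rw [comb_val, Finset.sum_apply]
    rfl
  simp only [h, Finset.sum_smul, Finset.smul_sum, smul_smul]
  rw [Finset.sum_comm]

theorem aff_comp {k l : ℕ} (v : Fin k → Dl N) (w : Fin l → Dl k) :
    (aff v).comp (aff w) = aff fun i => comb v (w i) :=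
  ContinuousMap.ext fun x => comb_comb v w x

theorem face_succAbove (n : ℕ) (i : Fin (n + 1)) (x : Dl n) (j : Fin n) :
    face n i x (i.succAbove j) = x j := by
  change stdSimplex.map (S := ℝ) i.succAbove x (i.succAbove j) = x j
  rw [stdSimplex.map_coe, FunOnFinite.linearMap_apply_apply]
  rw [Finset.sum_eq_single j]
  · intro b hb hbj
    exact absurd (Fin.succAbove_right_injective (Finset.mem_filter.1 hb).2) hbj
  · intro h
    exact absurd (by simp) h

theorem face_self (n : ℕ) (i : Fin (n + 1)) (x : Dl n) : face n i x i = 0 := by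
  change stdSimplex.map (S := ℝ) i.succAbove x i = 0
  rw [stdSimplex.map_coe, FunOnFinite.linearMap_apply_apply]
  apply Finset.sum_eq_zero
  intro y hy
  exact absurd (Finset.mem_filter.1 hy).2 (Fin.succAbove_ne i y)

theorem comb_face {k : ℕ} (v : Fin (k + 1) → Dl N) (i : Fin (k + 1)) (x : Dl k) :
    comb v (face k i x) = comb (fun j => v (i.succAbove j)) x := by
  apply Subtype.ext
  rw [comb_val, comb_val, Fin.sum_univ_succAbove _ i, face_self, zero_smul, zero_add]
  refine Finset.sum_congr rfl fun j _ => ?_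
  rw [face_succAbove]

theorem aff_face {k : ℕ} (v : Fin (k + 1) → Dl N) (i : Fin (k + 1)) :
    (aff v).comp (face k i) = aff fun j => v (i.succAbove j) :=
  ContinuousMap.ext fun x => comb_face v i x

theorem face_eq (k : ℕ) (i : Fin (k + 1)) :
    face k i = aff fun j => vx (k + 1) (i.succAbove j) := by
  rw [← aff_face, aff_vx, ContinuousMap.id_comp]

/-! ## Affine chains -/

/-- affine chains, `k` vertices -/
abbrev AC (N k : ℕ) : Type := (Fin k → Dl N) →₀ ℤ

/-- the boundary -/
noncomputable def dl (N k : ℕ) : AC N (k + 1) →ₗ[ℤ] AC N k :=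
  Finsupp.linearCombination ℤ fun v : Fin (k + 1) → Dl N =>
    ∑ i : Fin (k + 1), (-1 : ℤ) ^ (i : ℕ) • Finsupp.single (fun j => v (i.succAbove j)) (1 : ℤ)

theorem dl_single {k : ℕ} (v : Fin (k + 1) → Dl N) : dl N k (Finsupp.single v 1) =
    ∑ i : Fin (k + 1), (-1 : ℤ) ^ (i : ℕ) • Finsupp.single (fun j => v (i.succAbove j)) (1 : ℤ) := by
  rw [dl, Finsupp.linearCombination_single, one_smul]

/-- linear maps which agree on the generators are equal -/
theorem hom_eq {α : Type*} {A : Type*} [AddCommGroup A] {f g : (α →₀ ℤ) →ₗ[ℤ] A}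
    (h : ∀ a, f (Finsupp.single a 1) = g (Finsupp.single a 1)) : f = g := by
  apply Finsupp.lhom_ext'
  intro a
  apply LinearMap.ext_ring
  exact h a

/-- the cone -/
noncomputable def cone {k : ℕ} (b : Dl N) : AC N k →ₗ[ℤ] AC N (k + 1) :=
  Finsupp.lmapDomain ℤ ℤ fun v : Fin k → Dl N => (Fin.cons b v : Fin (k + 1) → Dl N)

theorem cone_single {k : ℕ} (b : Dl N) (v : Fin k → Dl N) (m : ℤ) :
    cone b (Finsupp.single v m) = Finsupp.single (Fin.cons b v : Fin (k + 1) → Dl N) m := by
  rw [cone, Finsupp.lmapDomain_apply, Finsupp.mapDomain_single]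

theorem dl_cone_zero (b : Dl N) (c : AC N 0) : dl N 0 (cone b c) = c := by
  have h : (dl N 0).comp (cone b) = LinearMap.id := by
    apply hom_eq
    intro v
    rw [LinearMap.comp_apply, cone_single, dl_single, LinearMap.id_apply, Fin.sum_univ_one]
    simp only [Fin.val_zero, pow_zero, one_smul]
    congr 1
  exact LinearMap.congr_fun h c

theorem dl_cone {k : ℕ} (b : Dl N) (c : AC N (k + 1)) :
    dl N (k + 1) (cone b c) = c - cone b (dl N k c) := by
  have h : (dl N (k + 1)).comp (cone b) = LinearMap.id - (cone b).comp (dl N k) := by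
    apply hom_eq
    intro v
    rw [LinearMap.comp_apply, cone_single, dl_single, LinearMap.sub_apply, LinearMap.id_apply,
      LinearMap.comp_apply, dl_single, map_sum, Fin.sum_univ_succ, sub_eq_add_neg,
      ← Finset.sum_neg_distrib]
    simp only [Fin.val_zero, pow_zero, one_smul, map_smul, cone_single, Fin.val_succ, pow_succ,
      mul_neg, mul_one, neg_smul]
    congr 1
    · refine Finset.sum_congr rfl fun i _ => ?_
      congr 3
      funext j
      refine Fin.cases ?_ (fun j => ?_) j
      · rfl
      · simp only [Fin.succ_succAbove_succ, Fin.cons_succ]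
  exact LinearMap.congr_fun h c

theorem dl_dl (k : ℕ) (c : AC N (k + 2)) : dl N k (dl N (k + 1) c) = 0 := by
  have h : (dl N k).comp (dl N (k + 1)) = 0 := by
    apply hom_eq
    intro v
    rw [LinearMap.comp_apply, dl_single, map_sum]
    simp only [map_smul, dl_single, LinearMap.zero_apply]
    apply alt_alt k fun i j => Finsupp.single (fun l => v (i.succAbove (j.succAbove l))) (1 : ℤ)
    intro i j
    congr 1
    funext l
    rw [Fin.succAbove_succAbove_succAbove_predAbove]
  exact LinearMap.congr_fun h c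

/-- the barycenter of the standard simplex -/
noncomputable def ctr (k : ℕ) : Dl (k + 1) :=
  ⟨fun _ => ((k : ℝ) + 1)⁻¹, fun _ => by positivity, by
    rw [Finset.sum_const, Finset.card_univ, Fintype.card_fin, nsmul_eq_mul]
    push_cast
    exact mul_inv_cancel₀ (by positivity)⟩

/-- the barycenter -/
noncomputable def bary {k : ℕ} (v : Fin (k + 1) → Dl N) : Dl N := comb v (ctr k)

/-- subdivision -/
noncomputable def Sd (N : ℕ) : ∀ k : ℕ, AC N k →ₗ[ℤ] AC N k
  | 0 => LinearMap.id
  | k + 1 => Finsupp.linearCombination ℤ fun v : Fin (k + 1) → Dl N =>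
      cone (bary v) (Sd N k (dl N k (Finsupp.single v 1)))

/-- the homotopy -/
noncomputable def Th (N : ℕ) : ∀ k : ℕ, AC N k →ₗ[ℤ] AC N (k + 1)
  | 0 => 0
  | k + 1 => Finsupp.linearCombination ℤ fun v : Fin (k + 1) → Dl N =>
      cone (bary v) (Finsupp.single v 1 - Th N k (dl N k (Finsupp.single v 1)))

theorem Sd_single {k : ℕ} (v : Fin (k + 1) → Dl N) : Sd N (k + 1) (Finsupp.single v 1) =
    cone (bary v) (Sd N k (dl N k (Finsupp.single v 1))) := by
  rw [Sd, Finsupp.linearCombination_single, one_smul]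

theorem Th_single {k : ℕ} (v : Fin (k + 1) → Dl N) : Th N (k + 1) (Finsupp.single v 1) =
    cone (bary v) (Finsupp.single v 1 - Th N k (dl N k (Finsupp.single v 1))) := by
  rw [Th, Finsupp.linearCombination_single, one_smul]

theorem dl_Sd : ∀ (k : ℕ) (c : AC N (k + 1)), dl N k (Sd N (k + 1) c) = Sd N k (dl N k c) := by
  intro k
  induction k with
  | zero =>
    intro c
    have h : (dl N 0).comp (Sd N 1) = (Sd N 0).comp (dl N 0) := by
      apply hom_eq
      intro v
      rw [LinearMap.comp_apply, Sd_single, dl_cone_zero, LinearMap.comp_apply]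
    exact LinearMap.congr_fun h c
  | succ k ih =>
    intro c
    have h : (dl N (k + 1)).comp (Sd N (k + 2)) = (Sd N (k + 1)).comp (dl N (k + 1)) := by
      apply hom_eq
      intro v
      rw [LinearMap.comp_apply, Sd_single, dl_cone, ih, dl_dl, map_zero, map_zero, sub_zero,
        LinearMap.comp_apply]
    exact LinearMap.congr_fun h c

theorem dl_Th_zero (c : AC N 1) : dl N 1 (Th N 1 c) = c - Sd N 1 c := by
  have h : (dl N 1).comp (Th N 1) = LinearMap.id - Sd N 1 := by
    apply hom_eq
    intro v
    rw [LinearMap.comp_apply, Th_single, Th, LinearMap.zero_apply, sub_zero, dl_cone,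
      LinearMap.sub_apply, Sd_single, LinearMap.id_apply, Sd, LinearMap.id_apply]
  exact LinearMap.congr_fun h c

theorem dl_Th : ∀ (k : ℕ) (c : AC N (k + 2)),
    dl N (k + 2) (Th N (k + 2) c) = c - Sd N (k + 2) c - Th N (k + 1) (dl N (k + 1) c) := by
  intro k
  induction k with
  | zero =>
    intro c
    have h : (dl N 2).comp (Th N 2) = LinearMap.id - Sd N 2 - (Th N 1).comp (dl N 1) := by
      apply hom_eq
      intro v
      rw [LinearMap.comp_apply, Th_single, dl_cone, map_sub, dl_Th_zero, sub_sub_cancel,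
        LinearMap.sub_apply, LinearMap.sub_apply, LinearMap.id_apply, Sd_single,
        LinearMap.comp_apply, sub_right_comm]
    exact LinearMap.congr_fun h c
  | succ k ih =>
    intro c
    have h : (dl N (k + 3)).comp (Th N (k + 3)) =
        LinearMap.id - Sd N (k + 3) - (Th N (k + 2)).comp (dl N (k + 2)) := by
      apply hom_eq
      intro v
      rw [LinearMap.comp_apply, Th_single, dl_cone, map_sub, ih, dl_dl, map_zero, sub_zero,
        sub_sub_cancel,
        LinearMap.sub_apply, LinearMap.sub_apply, LinearMap.id_apply, Sd_single,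
        LinearMap.comp_apply, sub_right_comm]
    exact LinearMap.congr_fun h c

/-! ## Naturality -/

/-- push forward of affine chains -/
noncomputable def mp {k l : ℕ} (g : Fin l → Dl N) : AC l k →ₗ[ℤ] AC N k :=
  Finsupp.lmapDomain ℤ ℤ fun v : Fin k → Dl l => fun i => comb g (v i)

theorem mp_single {k l : ℕ} (g : Fin l → Dl N) (v : Fin k → Dl l) (m : ℤ) :
    mp g (Finsupp.single v m) = Finsupp.single (fun i => comb g (v i)) m := by
  rw [mp, Finsupp.lmapDomain_apply, Finsupp.mapDomain_single]

theorem mp_dl {k l : ℕ} (g : Fin l → Dl N) (c : AC l (k + 1)) :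
    mp g (dl l k c) = dl N k (mp g c) := by
  have h : (mp g).comp (dl l k) = (dl N k).comp (mp g) := by
    apply hom_eq
    intro v
    rw [LinearMap.comp_apply, LinearMap.comp_apply, mp_single, dl_single, dl_single, map_sum]
    simp only [map_smul, mp_single]
  exact LinearMap.congr_fun h c

theorem mp_cone {k l : ℕ} (g : Fin l → Dl N) (b : Dl l) (c : AC l k) :
    mp g (cone b c) = cone (comb g b) (mp g c) := by
  have h : (mp g).comp (cone b) = (cone (comb g b)).comp (mp g (k := k)) := by
    apply hom_eq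
    intro v
    rw [LinearMap.comp_apply, LinearMap.comp_apply, mp_single, cone_single, cone_single,
      mp_single]
    congr 1
    funext i
    refine Fin.cases ?_ (fun i => ?_) i
    · rfl
    · rfl
  exact LinearMap.congr_fun h c

theorem comb_bary {k l : ℕ} (g : Fin l → Dl N) (v : Fin (k + 1) → Dl l) :
    comb g (bary v) = bary fun i => comb g (v i) := comb_comb _ _ _

theorem mp_Sd {l : ℕ} (g : Fin l → Dl N) :
    ∀ (k : ℕ) (c : AC l k), mp g (Sd l k c) = Sd N k (mp g c) := by
  intro k
  induction k with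
  | zero => intro c; rfl
  | succ k ih =>
    intro c
    have h : (mp g).comp (Sd l (k + 1)) = (Sd N (k + 1)).comp (mp g) := by
      apply hom_eq
      intro v
      rw [LinearMap.comp_apply, LinearMap.comp_apply, mp_single, Sd_single, Sd_single, mp_cone,
        ih, mp_dl, mp_single, comb_bary]
    exact LinearMap.congr_fun h c

theorem mp_Th {l : ℕ} (g : Fin l → Dl N) :
    ∀ (k : ℕ) (c : AC l k), mp g (Th l k c) = Th N k (mp g c) := by
  intro k
  induction k with
  | zero => intro c; rw [Th, Th, LinearMap.zero_apply, LinearMap.zero_apply, map_zero]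
  | succ k ih =>
    intro c
    have h : (mp g).comp (Th l (k + 1)) = (Th N (k + 1)).comp (mp g) := by
      apply hom_eq
      intro v
      rw [LinearMap.comp_apply, LinearMap.comp_apply, mp_single, Th_single, Th_single, mp_cone,
        map_sub, ih, mp_dl, mp_single, comb_bary]
    exact LinearMap.congr_fun h c

/-! ## Realization -/

/-- the singular chain of an affine chain -/
noncomputable def rl (N n : ℕ) : AC N (n + 1) →ₗ[ℤ] Ch n (Dl N) :=
  Finsupp.lmapDomain ℤ ℤ fun v : Fin (n + 1) → Dl N => aff v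

theorem rl_single {n : ℕ} (v : Fin (n + 1) → Dl N) (m : ℤ) :
    rl N n (Finsupp.single v m) = Finsupp.single (aff v) m := by
  rw [rl, Finsupp.lmapDomain_apply, Finsupp.mapDomain_single]

theorem bd_rl {n : ℕ} (c : AC N (n + 2)) : bd n (rl N (n + 1) c) = rl N n (dl N (n + 1) c) := by
  have h : (bd n).comp (rl N (n + 1)) = (rl N n).comp (dl N (n + 1)) := by
    apply hom_eq
    intro v
    rw [LinearMap.comp_apply, LinearMap.comp_apply, rl_single, dl_single, bd_single, map_sum]
    refine Finset.sum_congr rfl fun i _ => ?_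
    rw [map_smul, rl_single, aff_face, one_mul, Finsupp.smul_single, smul_eq_mul, mul_one]
  exact LinearMap.congr_fun h c

theorem push_rl {n l : ℕ} (g : Fin l → Dl N) (c : AC l (n + 1)) :
    push (aff g) n (rl l n c) = rl N n (mp g c) := by
  have h : (push (aff g) n).comp (rl l n) = (rl N n).comp (mp g) := by
    apply hom_eq
    intro v
    rw [LinearMap.comp_apply, LinearMap.comp_apply, rl_single, mp_single, rl_single, push_single,
      aff_comp]
  exact LinearMap.congr_fun h c

end Vale.Agent.P246.T.SD
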