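import Vale.Agent.P246.T.Stmt

/-! # P246, topological version: common definitions and the blocks -/

namespace Vale.Agent.P246.T

open Topology Metric Set

/-- the unit interval -/
abbrev I : Type := unitInterval

/-! ## Chains -/

section Chains

variable {M N : Type} [TopologicalSpace M] [TopologicalSpace N]

/-- push forward of chains -/
noncomputable def push (f : C(M, N)) (n : ℕ) : Ch n M →ₗ[ℤ] Ch n N :=
  Finsupp.lmapDomain ℤ ℤ fun σ : C(Dl (n + 1), M) => f.comp σ

/-- the chains in the set `A` -/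
def Con (A : Set M) (n : ℕ) : Submodule ℤ (Ch n M) :=
  Finsupp.supported ℤ ℤ {σ : C(Dl (n + 1), M) | ∀ x, σ x ∈ A}

/-- the boundary of `c` lies in `A` -/
def RCyc (A : Set M) : (n : ℕ) → Ch n M → Prop
  | 0, _ => True
  | n + 1, c => bd n c ∈ Con A n

/-- `c` represents zero in `H_n(B, A)` -/
def Null (B A : Set M) (n : ℕ) (c : Ch n M) : Prop :=
  ∃ b ∈ Con B (n + 1), c - bd n b ∈ Con A n

/-- `H_n(B, A) = 0` -/
def HZero (B A : Set M) (n : ℕ) : Prop := ∀ c ∈ Con B n, RCyc A n c → Null B A n c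

/-- `c` is a cycle -/
def Cyc : (n : ℕ) → Ch n M → Prop
  | 0, _ => True
  | n + 1, c => bd n c = 0

/-- homotopies of simplices with `k` vertices -/
abbrev Hm (k : ℕ) (M : Type) [TopologicalSpace M] : Type := C(I × Dl k, M)

/-- the simplex at time `t` -/
def Hm.at {k : ℕ} (K : Hm k M) (t : I) : C(Dl k, M) := ⟨fun x => K (t, x), by fun_prop⟩

/-- restriction of a homotopy to the face `i` -/
noncomputable def Hm.fc {k : ℕ} (K : Hm (k + 1) M) (i : Fin (k + 1)) : Hm k M :=
  ⟨fun q => K (q.1, face k i q.2), by fun_prop⟩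

/-- the constant simplex -/
noncomputable def ksx (n : ℕ) (x : M) : Ch n M := Finsupp.single (ContinuousMap.const (Dl (n + 1)) x) 1

end Chains

/-- natural prism operators -/
structure PrismOp where
  D : ∀ (M : Type) [TopologicalSpace M] (n : ℕ), Hm (n + 1) M → Ch (n + 1) M
  nat : ∀ (M N : Type) [TopologicalSpace M] [TopologicalSpace N] (f : C(M, N)) (n : ℕ)
    (K : Hm (n + 1) M), push f (n + 1) (D M n K) = D N n (f.comp K)
  bd_zero : ∀ (M : Type) [TopologicalSpace M] (K : Hm 1 M),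
    bd 0 (D M 0 K) = Finsupp.single (K.at 1) 1 - Finsupp.single (K.at 0) 1
  bd_succ : ∀ (M : Type) [TopologicalSpace M] (n : ℕ) (K : Hm (n + 2) M),
    bd (n + 1) (D M (n + 1) K) = Finsupp.single (K.at 1) 1 - Finsupp.single (K.at 0) 1 -
      ∑ i : Fin (n + 2), ((-1 : ℤ) ^ (i : ℕ)) • D M n (K.fc i)

/-- BLOCK PR (adapt `P223/MT/Prism.lean`). -/
def SpecPrism : Prop := Nonempty PrismOp

/-- natural (iterated) subdivision operators -/
structure SdOp where
  s : ∀ (M : Type) [TopologicalSpace M] (n : ℕ), Ch n M →ₗ[ℤ] Ch n M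
  t : ∀ (M : Type) [TopologicalSpace M] (n : ℕ), Ch n M →ₗ[ℤ] Ch (n + 1) M
  s_nat : ∀ (M N : Type) [TopologicalSpace M] [TopologicalSpace N] (f : C(M, N)) (n : ℕ)
    (c : Ch n M), push f n (s M n c) = s N n (push f n c)
  t_nat : ∀ (M N : Type) [TopologicalSpace M] [TopologicalSpace N] (f : C(M, N)) (n : ℕ)
    (c : Ch n M), push f (n + 1) (t M n c) = t N n (push f n c)
  s_bd : ∀ (M : Type) [TopologicalSpace M] (n : ℕ) (c : Ch (n + 1) M),
    bd n (s M (n + 1) c) = s M n (bd n c)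
  t_zero : ∀ (M : Type) [TopologicalSpace M] (c : Ch 0 M), bd 0 (t M 0 c) = c - s M 0 c
  t_succ : ∀ (M : Type) [TopologicalSpace M] (n : ℕ) (c : Ch (n + 1) M),
    bd (n + 1) (t M (n + 1) c) = c - s M (n + 1) c - t M n (bd n c)

/-- BLOCK SD (barycentric subdivision, Lebesgue numbers). `V` and `W` are relatively open in `B`
and cover `B`. -/
def SpecSd : Prop := ∀ (M : Type) [TopologicalSpace M] (B V W : Set M),
  (∃ O, IsOpen O ∧ O ∩ B = V) → (∃ O, IsOpen O ∧ O ∩ B = W) → B ⊆ V ∪ W →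
  ∀ (k : ℕ) (c : Ch k M), c ∈ Con B k → ∃ S : SdOp, S.s M k c ∈ Con V k ⊔ Con W k

/-! ## Cells -/

/-- the cube `[-1, 1]^n` -/
abbrev Dk (n : ℕ) : Type := closedBall (0 : Fin n → ℝ) 1

/-- its boundary -/
def bdk (n : ℕ) : Set (Dk n) := {x | ‖(x : Fin n → ℝ)‖ = 1}

/-- `e_t(x) = (1 + t) x / max (1, (1 + t) |x|)` -/
noncomputable def expd (n : ℕ) (t : I) (x : Dk n) : Dk n :=
  ⟨((1 + (t : ℝ)) / max 1 ((1 + (t : ℝ)) * ‖(x : Fin n → ℝ)‖)) • (x : Fin n → ℝ), by
    have ht := t.2.1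
    have hm : 0 < max 1 ((1 + (t : ℝ)) * ‖(x : Fin n → ℝ)‖) := lt_max_of_lt_left one_pos
    rw [mem_closedBall_zero_iff, norm_smul, Real.norm_of_nonneg (by positivity), div_mul_eq_mul_div,
      div_le_one hm]
    exact le_max_right _ _⟩

/-- `B` is obtained from `A` by attaching an `n`-cell with characteristic map `Φ` -/
structure Attach {X : Type} [TopologicalSpace X] (n : ℕ) (A B : Set X) (Φ : C(Dk n, X)) :
    Prop where
  bdry : ∀ x : Dk n, ‖(x : Fin n → ℝ)‖ = 1 → Φ x ∈ A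
  int : ∀ x : Dk n, ‖(x : Fin n → ℝ)‖ < 1 → Φ x ∉ A
  inj : ∀ x y : Dk n, ‖(x : Fin n → ℝ)‖ < 1 → ‖(y : Fin n → ℝ)‖ < 1 → Φ x = Φ y → x = y
  eq : B = A ∪ range Φ

/-- sets which are built from `C` by attaching finitely many cells -/
inductive Built {X : Type} [TopologicalSpace X] (C : Set X) : Set X → Prop
  | base : Built C C
  | cell {A B : Set X} (n : ℕ) (Φ : C(Dk n, X)) : Built C A → Attach n A B Φ → Built C B

/-- BLOCK CWB (from Mathlib's CW complexes). -/
def SpecCWB : Prop := ∀ (X : Type) [TopologicalSpace X] [T2Space X]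
  [CWComplex (univ : Set X)] [CWComplex.Finite (univ : Set X)],
  Built ∅ (univ : Set X) ∧ CompactSpace X ∧ LocallyPathConnectedSpace X

/-- a family of `n`-cells attached to `A` -/
structure CellData {E : Type} [TopologicalSpace E] (n : ℕ) (Γ : Type) (B A : Set E)
    (Φ : Γ → C(Dk n, E)) : Prop where
  sub : A ⊆ B
  mem : ∀ g x, Φ g x ∈ B
  bdry : ∀ g (x : Dk n), ‖(x : Fin n → ℝ)‖ = 1 → Φ g x ∈ A
  int : ∀ g (x : Dk n), ‖(x : Fin n → ℝ)‖ < 1 → Φ g x ∉ A
  cover : ∀ y ∈ B, y ∈ A ∨ ∃ g x, Φ g x = y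
  inj : ∀ g g' (x x' : Dk n), ‖(x : Fin n → ℝ)‖ < 1 → ‖(x' : Fin n → ℝ)‖ < 1 →
    Φ g x = Φ g' x' → g = g' ∧ x = x'
  openV : ∀ g (U : Set (Dk n)), IsOpen U → (∀ x ∈ U, ‖(x : Fin n → ℝ)‖ < 1) →
    ∃ O : Set E, IsOpen O ∧ O ∩ B = Φ g '' U
  openW : ∃ O : Set E, IsOpen O ∧
    O ∩ B = {y | y ∈ B ∧ ∀ g x, Φ g x = y → 1 / 2 < ‖(x : Fin n → ℝ)‖}
  htpy : ∃ ρ : C(I × B, B), (∀ y, ρ (0, y) = y) ∧ (∀ t (y : B), (y : E) ∈ A → ρ (t, y) = y) ∧
    ∀ t g x, (ρ (t, ⟨Φ g x, mem g x⟩) : E) = Φ g (expd n t x)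

/-- translation by `g` -/
def gm {G E : Type} [Group G] [TopologicalSpace E] [MulAction G E] [ContinuousConstSMul G E]
    (g : G) : C(E, E) := ⟨fun x => g • x, continuous_const_smul g⟩

/-- BLOCK CC, part 1 (one cell). -/
def SpecCC1 : Prop := ∀ (X : Type) [TopologicalSpace X] [T2Space X] (n : ℕ) (A B : Set X)
  (Φ : C(Dk n, X)), IsClosed A → Attach n A B Φ → CellData n Unit B A (fun _ => Φ)

/-- BLOCK CC, part 2 (the cells over a cell, in a covering). -/
def SpecCC2 : Prop := ∀ (G X E : Type) [Group G] [TopologicalSpace X] [T2Space X]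
  [TopologicalSpace E] [MulAction G E] [ContinuousConstSMul G E] (p : C(E, X)),
  IsQuotientCoveringMap p G → ∀ (n : ℕ) (A B : Set X) (Φ : C(Dk n, X)) (Ψ : C(Dk n, E)),
  IsClosed A → Attach n A B Φ → (∀ x, p (Ψ x) = Φ x) →
  CellData n G (p ⁻¹' B) (p ⁻¹' A) (fun g => (gm g).comp Ψ)

/-- `ζ` generates `H_n(D^n, S^{n-1})`, and the other groups vanish -/
structure IsFund (n : ℕ) (ζ : Ch n (Dk n)) : Prop where
  cyc : RCyc (bdk n) n ζ
  zero : ∀ k, k ≠ n → HZero univ (bdk n) k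
  gen : ∀ c, RCyc (bdk n) n c → ∃ m : ℤ, Null univ (bdk n) n (c - m • ζ)
  tf : ∀ m : ℤ, Null univ (bdk n) n (m • ζ) → m = 0

/-- BLOCK CL (homology of a family of cells). -/
def SpecCL : Prop := ∀ (E : Type) [TopologicalSpace E] (n : ℕ) (Γ : Type) (B A : Set E)
  (Φ : Γ → C(Dk n, E)) (ζ : Ch n (Dk n)), IsFund n ζ → CellData n Γ B A Φ →
  (∀ k, k ≠ n → HZero B A k) ∧
  (∀ c ∈ Con B n, RCyc A n c →
    ∃ m : Γ →₀ ℤ, Null B A n (c - m.sum fun g a => a • push (Φ g) n ζ)) ∧
  ∀ m : Γ →₀ ℤ, Null B A n (m.sum fun g a => a • push (Φ g) n ζ) → m = 0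

/-- the retraction of `ℝ^n` to the cube -/
noncomputable def clp (n : ℕ) (x : Fin n → ℝ) : Dk n := ⟨fun i => max (-1) (min 1 (x i)), by
  rw [mem_closedBall_zero_iff, pi_norm_le_iff_of_nonneg zero_le_one]
  intro i
  rw [Real.norm_eq_abs, abs_le]
  exact ⟨le_max_left _ _, max_le (by norm_num) (min_le_left _ _)⟩⟩

theorem continuous_clp (n : ℕ) : Continuous (clp n) := by
  unfold clp; fun_prop

/-- the affine simplex in the cube with the vertices `v i` -/
noncomputable def asx {n k : ℕ} (v : Fin k → Fin n → ℝ) : C(Dl k, Dk n) :=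
  ⟨fun t => clp n (∑ i, t i • v i), (continuous_clp n).comp (by
    refine continuous_finsetSum _ fun i _ => ?_
    exact ((continuous_apply i).comp continuous_subtype_val).smul continuous_const)⟩

/-- the fundamental chain of `[-1, 1]` -/
noncomputable def zeta1 : Ch 1 (Dk 1) := Finsupp.single (asx ![![-1], ![1]]) 1

/-- the fundamental chain of `[-1, 1]^2` -/
noncomputable def zeta2 : Ch 2 (Dk 2) :=
  Finsupp.single (asx ![![-1, -1], ![1, -1], ![1, 1]]) 1 -
    Finsupp.single (asx ![![-1, -1], ![-1, 1], ![1, 1]]) 1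

/-- BLOCK FM. -/
def SpecFund : Prop := (∀ n, ∃ ζ, IsFund n ζ) ∧ IsFund 0 (ksx 0 (clp 0 0)) ∧ IsFund 1 zeta1 ∧
  IsFund 2 zeta2

/-! ## Lifting of homotopies to the subspace (relative homotopy groups) -/

section Lft

variable {B : Type} [TopologicalSpace B]

/-- Every homotopy on the boundary of a simplex which ends in `A` extends to a homotopy of the
simplex which ends in `A`. -/
def LftS (A : Set B) (n : ℕ) : Prop :=
  ∀ (s : C(Dl (n + 1), B)) (G : Fin (n + 1) → Hm n B),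
    (∀ i x, G i (0, x) = s (face n i x)) →
    (∀ i j x y, face n i x = face n j y → ∀ t, G i (t, x) = G j (t, y)) →
    (∀ i x, G i (1, x) ∈ A) →
    ∃ K : Hm (n + 1) B, (∀ x, K (0, x) = s x) ∧
      (∀ i t x, K (t, face n i x) = G i (t, x)) ∧ ∀ x, K (1, x) ∈ A

/-- The same for cubes. -/
def Lft (A : Set B) (n : ℕ) : Prop :=
  ∀ (s : C(Dk n, B)) (G : C(I × bdk n, B)), (∀ x, G (0, x) = s x) → (∀ x, G (1, x) ∈ A) →
    ∃ K : C(I × Dk n, B), (∀ x, K (0, x) = s x) ∧ (∀ t (x : bdk n), K (t, x) = G (t, x)) ∧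
      ∀ x, K (1, x) ∈ A

/-- the chains of simplices whose faces with at most `n` vertices lie in `A` -/
def Sk (A : Set B) (n k : ℕ) : Submodule ℤ (Ch k B) :=
  Finsupp.supported ℤ ℤ {σ : C(Dl (k + 1), B) |
    ∀ x : Dl (k + 1), (Finset.univ.filter fun i => x i ≠ 0).card ≤ n → σ x ∈ A}

end Lft

/-- BLOCK CV. -/
def SpecConv : Prop := ∀ (B : Type) [TopologicalSpace B] (A : Set B) (n : ℕ), LftS A n → Lft A n

/-- BLOCK HC (the Eilenberg subcomplex). -/
def SpecEil : Prop := ∀ (B : Type) [TopologicalSpace B] (A : Set B) (n : ℕ),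
  (∀ k < n, LftS A k) → ∃ (ρ : ∀ k, Ch k B →ₗ[ℤ] Ch k B) (D : ∀ k, Ch k B →ₗ[ℤ] Ch (k + 1) B),
    (∀ k c, bd k (ρ (k + 1) c) = ρ k (bd k c)) ∧
    (∀ c, bd 0 (D 0 c) = ρ 0 c - c) ∧
    (∀ k c, bd (k + 1) (D (k + 1) c) = ρ (k + 1) c - c - D k (bd k c)) ∧
    (∀ k, ∀ c ∈ Con A k, ρ k c ∈ Con A k) ∧ (∀ k, ∀ c ∈ Con A k, D k c ∈ Con A (k + 1)) ∧
    (∀ k c, ρ k c ∈ Sk A n k) ∧ ∀ k, ∀ c ∈ Sk A n k, ρ k c = c

/-- the space of paths which start at `b` -/
abbrev PP {B : Type} [TopologicalSpace B] (b : B) : Type := {γ : C(I, B) // γ 0 = b}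

/-- the end point -/
def ev {B : Type} [TopologicalSpace B] (b : B) : C(PP b, B) := ⟨fun γ => γ.1 1, by fun_prop⟩

/-- BLOCK PS (the path space). -/
def SpecPath : Prop := ∀ (B : Type) [TopologicalSpace B] (b : B),
  ContractibleSpace (PP b) ∧
  (PathConnectedSpace B → ∀ (k : ℕ) (σ : C(Dl (k + 1), B)), ∃ τ : C(Dl (k + 1), PP b),
    (ev b).comp τ = σ) ∧
  (SimplyConnectedSpace B → ∀ (k : ℕ) (τ τ' : C(Dl (k + 1), PP b)),
    (ev b).comp τ = (ev b).comp τ' → ∃ K : Hm (k + 1) (PP b), K.at 0 = τ ∧ K.at 1 = τ' ∧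
      ∀ t x, ev b (K (t, x)) = ev b (τ x)) ∧
  (∀ (A : Set B) (k : ℕ), LftS A k → LftS (ev b ⁻¹' A) k) ∧
  ∀ (A : Set B) (k : ℕ), PathConnectedSpace B →
    (∀ f : Fin (k + 1) → C(Dl k, PP b), (∀ i x, ev b (f i x) ∈ A) →
      (∀ i j x y, face k i x = face k j y → f i x = f j y) →
      ∃ h : C(Dl (k + 1), PP b), (∀ i x, h (face k i x) = f i x) ∧ ∀ x, ev b (h x) ∈ A) →
    LftS A k

/-- BLOCK LL (the homology of the path fibration in low degrees). -/
def SpecLoop : Prop := ∀ (B : Type) [TopologicalSpace B] [SimplyConnectedSpace B] (b : B)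
  (A : Set B) (n : ℕ), (∀ k < n, LftS A k) → HZero univ A n → HZero univ (ev b ⁻¹' A) n

/-- BLOCK BS (the base of the induction). -/
def SpecBase : Prop := ∀ (B : Type) [TopologicalSpace B] [SimplyConnectedSpace B] (A : Set B)
  [SimplyConnectedSpace A] (a : B), a ∈ A →
  (∀ c : Ch 1 (PP a), c ∈ Con (ev a ⁻¹' A) 1 → bd 0 c = 0 →
    ∃ b ∈ Con (ev a ⁻¹' A) 2, bd 1 b = c) →
  SimplyConnectedSpace (ev a ⁻¹' A)

/-- BLOCK RH (relative Hurewicz theorem), from HC, PS, LL, BS, PR. -/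
def SpecRH : Prop := ∀ (B : Type) [TopologicalSpace B] [SimplyConnectedSpace B] (A : Set B)
  [SimplyConnectedSpace A], (∀ k, HZero univ A k) → ∀ n, LftS A n

/-- BLOCK WH (Whitehead's theorem). -/
def SpecWh : Prop := ∀ (X B : Type) [TopologicalSpace X] [T2Space X] [TopologicalSpace B]
  [T2Space B] (A : Set B), Built ∅ (univ : Set X) → Built ∅ A → (∀ n, Lft A n) →
  Nonempty (ContinuousMap.HomotopyEquiv X B) → Nonempty (ContinuousMap.HomotopyEquiv X A)

/-! ## Chains as modules over the group ring -/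

section Push

variable {M N L : Type} [TopologicalSpace M] [TopologicalSpace N] [TopologicalSpace L]

theorem push_single (f : C(M, N)) (n : ℕ) (σ : C(Dl (n + 1), M)) (a : ℤ) :
    push f n (Finsupp.single σ a) = Finsupp.single (f.comp σ) a := by
  simp [push]

theorem push_id (n : ℕ) (c : Ch n M) : push (ContinuousMap.id M) n c = c := by
  induction c using Finsupp.induction_linear with
  | zero => exact map_zero _
  | add a b ha hb => rw [map_add, ha, hb]
  | single σ a => rw [push_single, ContinuousMap.id_comp]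

theorem push_comp (g : C(N, L)) (f : C(M, N)) (n : ℕ) (c : Ch n M) :
    push (g.comp f) n c = push g n (push f n c) := by
  induction c using Finsupp.induction_linear with
  | zero => simp only [map_zero]
  | add a b ha hb => simp only [map_add, ha, hb]
  | single σ a => simp only [push_single, ContinuousMap.comp_assoc]

theorem bd_single (n : ℕ) (σ : C(Dl (n + 2), M)) (a : ℤ) :
    bd n (Finsupp.single σ a) =
      ∑ i : Fin (n + 2), Finsupp.single (σ.comp (face (n + 1) i)) (a * (-1 : ℤ) ^ (i : ℕ)) := by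
  rw [bd, Finsupp.linearCombination_single, Finset.smul_sum]
  simp only [Finsupp.smul_single, smul_eq_mul]

theorem push_bd (f : C(M, N)) (n : ℕ) (c : Ch (n + 1) M) :
    bd n (push f (n + 1) c) = push f n (bd n c) := by
  induction c using Finsupp.induction_linear with
  | zero => simp only [map_zero]
  | add a b ha hb => simp only [map_add, ha, hb]
  | single σ a => simp only [push_single, bd_single, map_sum, ContinuousMap.comp_assoc]

theorem push_mem {f : C(M, N)} {n : ℕ} {A : Set M} {A' : Set N} (h : ∀ x ∈ A, f x ∈ A')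
    {c : Ch n M} (hc : c ∈ Con A n) : push f n c ∈ Con A' n := by
  classical
  rw [Con, Finsupp.mem_supported] at hc ⊢
  intro τ hτ
  obtain ⟨σ, hσ, rfl⟩ := Finset.mem_image.1 (Finsupp.mapDomain_support hτ)
  exact fun x => h _ (hc hσ x)

end Push

section Mod

/-- the singular chains, as a module over `ℤ[G]` -/
def SC (_ : Type) (n : ℕ) (E : Type) [TopologicalSpace E] : Type := Ch n E

noncomputable instance (G : Type) (n : ℕ) (E : Type) [TopologicalSpace E] :
    AddCommGroup (SC G n E) := inferInstanceAs (AddCommGroup (Ch n E))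

section

variable {G E : Type} [TopologicalSpace E] [Group G] [MulAction G E] [ContinuousConstSMul G E]

theorem gm_one : gm (1 : G) = ContinuousMap.id E := ContinuousMap.ext fun x => one_smul G x

theorem gm_mul (g h : G) : gm (g * h) = (gm g : C(E, E)).comp (gm h) :=
  ContinuousMap.ext fun x => mul_smul g h x

end

variable (G : Type) [Group G] (n : ℕ) (E : Type) [TopologicalSpace E] [MulAction G E]
  [ContinuousConstSMul G E]

/-- the action of `G` on the chains -/
noncomputable def SC.mon : G →* Module.End ℤ (Ch n E) where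
  toFun := fun g => push (gm g) n
  map_one' := by
    refine LinearMap.ext fun c => ?_
    rw [gm_one, push_id]; rfl
  map_mul' := fun g h => by
    refine LinearMap.ext fun c => ?_
    rw [gm_mul, push_comp]; rfl

/-- the ring homomorphism which gives the module structure -/
noncomputable def SC.act : ZG G →+* Module.End ℤ (Ch n E) :=
  (MonoidAlgebra.lift ℤ (Module.End ℤ (Ch n E)) G (SC.mon G n E)).toRingHom

noncomputable instance : Module (ZG G) (SC G n E) := Module.compHom (Ch n E) (SC.act G n E)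

variable {G n E}

theorem SC.smul_def (r : ZG G) (c : SC G n E) : r • c = SC.act G n E r c := rfl

theorem SC.smul_eq (r : ZG G) (c : SC G n E) :
    r • c = (r.coeff.sum fun g a => a • push (gm g) n (c : Ch n E) : Ch n E) := by
  have h : ∀ c : Ch n E, (MonoidAlgebra.lift ℤ (Module.End ℤ (Ch n E)) G
      (SC.mon G n E) r : Module.End ℤ (Ch n E)) c =
      r.coeff.sum fun g a => a • push (gm g) n c := by
    intro c
    rw [MonoidAlgebra.lift_apply, Finsupp.sum, LinearMap.sum_apply]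
    rfl
  exact h c

theorem SC.elt_smul (g : G) (c : SC G n E) :
    elt g • c = (push (gm g) n (c : Ch n E) : Ch n E) := by
  rw [SC.smul_def, SC.act, elt]
  simp [MonoidAlgebra.lift_single]
  rfl

end Mod

end Vale.Agent.P246.T
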