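import Vale.Agent.P246.T.Spec
import Vale.Agent.P246.Bdl.K_Bdl_K_Defs

/-! # P246, topological version: algebra, presentation complexes, assembly -/

namespace Vale.Agent.P246.T

open Topology Metric Set

/-! ## The chain complex over the group ring -/

section Mod

variable (G : Type) [Group G] (n : ℕ) (E : Type) [TopologicalSpace E] [MulAction G E]
  [ContinuousConstSMul G E]

variable {G n E}

omit [Group G] [MulAction G E] [ContinuousConstSMul G E] in
/-- the underlying chain -/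
def SC.un (c : SC G n E) : Ch n E := c

variable (G) in
omit [Group G] [MulAction G E] [ContinuousConstSMul G E] in
/-- a chain as an element of the module -/
def SC.mk (c : Ch n E) : SC G n E := c

omit [Group G] [MulAction G E] [ContinuousConstSMul G E] in
theorem SC.un_mk (c : Ch n E) : (SC.mk G c).un = c := rfl

omit [Group G] [MulAction G E] [ContinuousConstSMul G E] in
theorem SC.un_add (a b : SC G n E) : (a + b).un = a.un + b.un := rfl

omit [Group G] [MulAction G E] [ContinuousConstSMul G E] in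
theorem SC.un_sub (a b : SC G n E) : (a - b).un = a.un - b.un := rfl

omit [Group G] [MulAction G E] [ContinuousConstSMul G E] in
theorem SC.un_neg (a : SC G n E) : (-a).un = -a.un := rfl

omit [Group G] [MulAction G E] [ContinuousConstSMul G E] in
theorem SC.un_zero : (0 : SC G n E).un = 0 := rfl

omit [Group G] [MulAction G E] [ContinuousConstSMul G E] in
theorem SC.un_inj {a b : SC G n E} (h : a.un = b.un) : a = b := h

theorem SC.un_smul (r : ZG G) (c : SC G n E) :
    (r • c).un = r.coeff.sum fun g a => a • push (gm g) n c.un := SC.smul_eq r c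

theorem SC.un_elt_smul (g : G) (c : SC G n E) : (elt g • c).un = push (gm g) n c.un :=
  SC.elt_smul g c

variable (G n E)

/-- the singular boundary map over `ℤ[G]` -/
noncomputable def SC.d : SC G (n + 1) E →ₗ[ZG G] SC G n E where
  toFun c := SC.mk G (bd n c.un)
  map_add' a b := map_add (bd n) a.un b.un
  map_smul' r c := by
    apply SC.un_inj
    rw [RingHom.id_apply, SC.un_smul, SC.un_mk, SC.un_smul, SC.un_mk, Finsupp.sum, Finsupp.sum,
      map_sum]
    exact Finset.sum_congr rfl fun g _ => by rw [map_smul, push_bd]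

theorem SC.un_d (c : SC G (n + 1) E) : (SC.d G n E c).un = bd n c.un := rfl

variable {G E}

/-- the chains in an invariant set, as a submodule -/
def SCon (A : Set E) (hA : ∀ (g : G), ∀ x ∈ A, g • x ∈ A) : Submodule (ZG G) (SC G n E) where
  carrier := {c | c.un ∈ Con A n}
  add_mem' := fun {a b} ha hb => (Con A n).add_mem ha hb
  zero_mem' := (Con A n).zero_mem
  smul_mem' r c hc := by
    rw [Set.mem_setOf_eq, SC.un_smul]
    exact Submodule.sum_mem _ fun g _ => Submodule.smul_mem _ _ (push_mem (hA g) hc)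

end Mod

/-! ## Finite free models -/

section Model

variable {R : Type} [Ring R] (S : ℕ → Type) [∀ n, AddCommGroup (S n)] [∀ n, Module R (S n)]
  (d : ∀ n, S (n + 1) →ₗ[R] S n)

/-- the boundary of `x` lies in `A` -/
def DRel (A : ∀ n, Submodule R (S n)) : (n : ℕ) → S n → Prop
  | 0, _ => True
  | n + 1, x => d n x ∈ A n

/-- `x` is a cycle -/
def DCyc : (n : ℕ) → S n → Prop
  | 0, _ => True
  | n + 1, x => d n x = 0

/-- `P` is a subcomplex of `A` such that the inclusion `P → A` is a quasi-isomorphism -/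
structure IsModel (A P : ∀ n, Submodule R (S n)) : Prop where
  le : ∀ n, P n ≤ A n
  d_mem : ∀ n, ∀ x ∈ P (n + 1), d n x ∈ P n
  inj : ∀ n, ∀ x ∈ P n, DCyc S d n x → (∃ y ∈ A (n + 1), d n y = x) → ∃ y ∈ P (n + 1), d n y = x
  surj : ∀ n, ∀ x ∈ A n, DCyc S d n x →
    ∃ y ∈ P n, DCyc S d n y ∧ ∃ z ∈ A (n + 1), x = y + d n z

/-- a bounded model by finitely generated free modules -/
structure IsFinModel (A P : ∀ n, Submodule R (S n)) : Prop extends IsModel S d A P where
  free : ∀ n, Module.Free R (P n)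
  fin : ∀ n, Module.Finite R (P n)
  bdd : ∃ N, ∀ n > N, P n = ⊥

end Model

/-- BLOCK MS (one more cell; pure algebra). Also prove: `P n ⊓ span {z} = ⊥` and
`r • z = 0 → r = 0`, so that free and finitely generated are preserved, and: a relative cycle `z`
of `(B, A)` can be changed by an element of `A n` such that `DRel S d P n z`. -/
def SpecMS : Prop := ∀ (R : Type) [Ring R] (S : ℕ → Type) [∀ n, AddCommGroup (S n)]
  [∀ n, Module R (S n)] (d : ∀ n, S (n + 1) →ₗ[R] S n), (∀ n x, d n (d (n + 1) x) = 0) →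
  ∀ (A B P : ∀ n, Submodule R (S n)), (∀ n, ∀ x ∈ A (n + 1), d n x ∈ A n) →
  (∀ n, ∀ x ∈ B (n + 1), d n x ∈ B n) → (∀ n, A n ≤ B n) → IsModel S d A P →
  ∀ (n : ℕ) (z : S n), z ∈ B n → DRel S d P n z →
  (∀ k, k ≠ n → ∀ x ∈ B k, DRel S d A k x → ∃ y ∈ B (k + 1), x - d k y ∈ A k) →
  (∀ x ∈ B n, DRel S d A n x → ∃ r : R, ∃ y ∈ B (n + 1), x - r • z - d n y ∈ A n) →
  (∀ r : R, (∃ y ∈ B (n + 1), r • z - d n y ∈ A n) → r = 0) →
  IsModel S d B (Function.update P n (P n ⊔ Submodule.span R {z}))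

/-- BLOCK MX (finite models of coverings of finite complexes; from MS, CC2, CL, FM). -/
def SpecMX : Prop := ∀ (G X E : Type) [Group G] [TopologicalSpace X] [T2Space X]
  [TopologicalSpace E] [MulAction G E] [ContinuousConstSMul G E] (p : C(E, X)),
  IsQuotientCoveringMap p G → Built ∅ (univ : Set X) →
  ∃ P : ∀ n, Submodule (ZG G) (SC G n E),
    IsFinModel (fun n => SC G n E) (fun n => SC.d G n E) (fun _ => ⊤) P

/-! ## The Fox complex -/

section Fox

variable {G : Type} [Group G] (Pr : FinPresentation G)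

/-- the first boundary map of the Fox complex -/
noncomputable def fox1 : (Fin Pr.gens → ZG G) →ₗ[ZG G] ZG G := lmap fun i => elt (Pr.x i) - 1

/-- the second boundary map of the Fox complex -/
noncomputable def fox2 : (Fin Pr.rels → ZG G) →ₗ[ZG G] (Fin Pr.gens → ZG G) :=
  lmap fun j => foxWord Pr.x (Pr.r j).toWord

variable {E : Type} [TopologicalSpace E] [MulAction G E] [ContinuousConstSMul G E]

/-- `ψ` is a quasi-isomorphism from the Fox complex to the chains of the set `A` -/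
structure FoxQI (A : Set E) (ψ0 : ZG G →ₗ[ZG G] SC G 0 E)
    (ψ1 : (Fin Pr.gens → ZG G) →ₗ[ZG G] SC G 1 E)
    (ψ2 : (Fin Pr.rels → ZG G) →ₗ[ZG G] SC G 2 E) : Prop where
  c1 : ∀ v, SC.d G 0 E (ψ1 v) = ψ0 (fox1 Pr v)
  c2 : ∀ v, SC.d G 1 E (ψ2 v) = ψ1 (fox2 Pr v)
  m0 : ∀ v, (ψ0 v).un ∈ Con A 0
  m1 : ∀ v, (ψ1 v).un ∈ Con A 1
  m2 : ∀ v, (ψ2 v).un ∈ Con A 2
  s0 : ∀ x : Ch 0 E, x ∈ Con A 0 → ∃ v, ∃ y : Ch 1 E, y ∈ Con A 1 ∧ x = (ψ0 v).un + bd 0 y
  i0 : ∀ v, (∃ y : Ch 1 E, y ∈ Con A 1 ∧ (ψ0 v).un = bd 0 y) → ∃ u, v = fox1 Pr u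
  s1 : ∀ x : Ch 1 E, x ∈ Con A 1 → bd 0 x = 0 →
    ∃ v, fox1 Pr v = 0 ∧ ∃ y : Ch 2 E, y ∈ Con A 2 ∧ x = (ψ1 v).un + bd 1 y
  i1 : ∀ v, fox1 Pr v = 0 → (∃ y : Ch 2 E, y ∈ Con A 2 ∧ (ψ1 v).un = bd 1 y) → ∃ u, v = fox2 Pr u
  s2 : ∀ x : Ch 2 E, x ∈ Con A 2 → bd 1 x = 0 →
    ∃ v, fox2 Pr v = 0 ∧ ∃ y : Ch 3 E, y ∈ Con A 3 ∧ x = (ψ2 v).un + bd 2 y
  i2 : ∀ v, fox2 Pr v = 0 → (∃ y : Ch 3 E, y ∈ Con A 3 ∧ (ψ2 v).un = bd 2 y) → v = 0
  s3 : ∀ n, ∀ x : Ch (n + 3) E, x ∈ Con A (n + 3) → bd (n + 2) x = 0 →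
    ∃ y : Ch (n + 4) E, y ∈ Con A (n + 4) ∧ x = bd (n + 3) y

end Fox

/-- the third cohomology with coefficients in `M` vanishes, for all finitely generated `M` -/
def H3G (G E : Type) [Group G] [TopologicalSpace E] [MulAction G E] [ContinuousConstSMul G E] :
    Prop :=
  ∀ (M : Type) [AddCommGroup M] [Module (ZG G) M] [Module.Finite (ZG G) M]
    (f : C(Dl 4, E) → M), (∀ (g : G) σ, f ((gm g).comp σ) = elt g • f σ) →
    (∀ τ, cobd f τ = 0) → ∃ h : C(Dl 3, E) → M,
      (∀ (g : G) σ, h ((gm g).comp σ) = elt g • h σ) ∧ ∀ σ, f σ = cobd h σ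

/-- BLOCK AC (the action of the fundamental group on the universal cover; P173/Bdl/B1 section M3,
`Mathlib.Topology.Homotopy.Lifting`). -/
def SpecAct : Prop := ∀ (G X : Type) [Group G] [TopologicalSpace X] [T2Space X]
  [PathConnectedSpace X] [LocallyPathConnectedSpace X] (x : X),
  Nonempty (FundamentalGroup X x ≃* G) → D2Condition X →
  ∃ (E : Type) (_ : TopologicalSpace E) (_ : MulAction G E) (_ : ContinuousConstSMul G E)
    (p : C(E, X)), SimplyConnectedSpace E ∧ IsQuotientCoveringMap p G ∧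
      (∀ i, 2 ≤ i → ∀ c : Ch (i + 1) E, bd i c = 0 → ∃ b : Ch (i + 2) E, bd (i + 1) b = c) ∧
      H3G G E

/-- BLOCK A1 (from a finite model and the D(2) condition to the Fox complex). Uses: the chains are
free `ℤ[G]`-modules; `H_0(E) = ℤ`, `H_1(E) = 0` (SpecEil for a point); quasi-isomorphisms of
bounded below complexes of free modules are homotopy equivalences. -/
def SpecA1 : Prop := ∀ (G X E : Type) [Group G] [TopologicalSpace X] [TopologicalSpace E]
  [SimplyConnectedSpace E] [MulAction G E] [ContinuousConstSMul G E] (p : C(E, X)),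
  IsQuotientCoveringMap p G →
  (∀ i, 2 ≤ i → ∀ c : Ch (i + 1) E, bd i c = 0 → ∃ b : Ch (i + 2) E, bd (i + 1) b = c) →
  H3G G E → (∃ P : ∀ n, Submodule (ZG G) (SC G n E),
    IsFinModel (fun n => SC G n E) (fun n => SC.d G n E) (fun _ => ⊤) P) →
  AlgebraicD2Property G → ∃ (Pr : FinPresentation G) (ψ0 : ZG G →ₗ[ZG G] SC G 0 E)
    (ψ1 : (Fin Pr.gens → ZG G) →ₗ[ZG G] SC G 1 E) (ψ2 : (Fin Pr.rels → ZG G) →ₗ[ZG G] SC G 2 E),
    FoxQI Pr univ ψ0 ψ1 ψ2

/-! ## Paths of words -/

section Word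

/-- the coordinate `i` -/
def crd {k : ℕ} (i : Fin k) : C(Dl k, I) :=
  ⟨fun t => ⟨t i, t.2.1 i, stdSimplex.le_one t i⟩,
    ((continuous_apply i).comp continuous_subtype_val).subtype_mk _⟩

/-- the singular 1-simplex of a path -/
noncomputable def psx {E : Type} [TopologicalSpace E] {a b : E} (γ : Path a b) : Ch 1 E :=
  Finsupp.single (γ.toContinuousMap.comp (crd 1)) 1

variable {G : Type} [Group G] {m : ℕ}

/-- the value of a letter -/
def lval (x : Fin m → G) (l : Fin m × Bool) : G := if l.2 then x l.1 else (x l.1)⁻¹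

/-- the value of a word -/
def wval (x : Fin m → G) : List (Fin m × Bool) → G
  | [] => 1
  | l :: w => lval x l * wval x w

variable {E : Type} [TopologicalSpace E] [MulAction G E] [ContinuousConstSMul G E]

/-- the translate of a path -/
def gpath (g : G) {a b : E} (γ : Path a b) : Path (g • a) (g • b) :=
  γ.map (continuous_const_smul g)

/-- the path of a letter -/
def lpath (x : Fin m → G) {e : E} (α : ∀ i, Path e (x i • e)) :
    ∀ l : Fin m × Bool, Path e (lval x l • e)
  | (i, true) => (α i).cast rfl (by simp [lval])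
  | (i, false) => (gpath (x i)⁻¹ (α i).symm).cast (by simp) (by simp [lval])

/-- the path of a word -/
noncomputable def wpath (x : Fin m → G) {e : E} (α : ∀ i, Path e (x i • e)) :
    ∀ w : List (Fin m × Bool), Path e (wval x w • e)
  | [] => (Path.refl e).cast rfl (by simp [wval])
  | l :: w => ((lpath x α l).trans (gpath (lval x l) (wpath x α w))).cast rfl
      (by rw [wval, mul_smul])

/-- the map `[-1, 1] → [0, 1]` -/
noncomputable def par (s : ℝ) : I := Set.projIcc 0 1 zero_le_one ((s + 1) / 2)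

theorem continuous_par : Continuous par := by unfold par; fun_prop

/-- the boundary of the disc `δ` is the path of the word `w` on the side `z 0 = 1`, and constant
on the other sides -/
def BdryWord (x : Fin m → G) {e : E} (α : ∀ i, Path e (x i • e)) (w : List (Fin m × Bool))
    (δ : C(Dk 2, E)) : Prop :=
  ∀ z : Dk 2, ‖(z : Fin 2 → ℝ)‖ = 1 →
    ((z : Fin 2 → ℝ) 0 = 1 → δ z = wpath x α w (par ((z : Fin 2 → ℝ) 1))) ∧
      ((z : Fin 2 → ℝ) 0 ≠ 1 → δ z = e)

/-- `r ↦ r • [e]` -/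
noncomputable def phi0 (G : Type) [Group G] {E : Type} [TopologicalSpace E] [MulAction G E]
    [ContinuousConstSMul G E] (e : E) : ZG G →ₗ[ZG G] SC G 0 E :=
  LinearMap.toSpanSingleton (ZG G) (SC G 0 E) (SC.mk G (ksx 0 e))

/-- `e_i ↦ [α i]` -/
noncomputable def phi1 (x : Fin m → G) {e : E} (α : ∀ i, Path e (x i • e)) :
    (Fin m → ZG G) →ₗ[ZG G] SC G 1 E :=
  lmap fun i => SC.mk G (psx (α i))

end Word

/-- natural 2-chains which compare the path of a word with its Fox derivative -/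
structure WordCor where
  cor : ∀ (G E : Type) [Group G] [TopologicalSpace E] [MulAction G E] [ContinuousConstSMul G E]
    (m : ℕ) (x : Fin m → G) (e : E) (_ : ∀ i, Path e (x i • e)) (_ : List (Fin m × Bool)), Ch 2 E
  bd_cor : ∀ (G E : Type) [Group G] [TopologicalSpace E] [MulAction G E]
    [ContinuousConstSMul G E] (m : ℕ) (x : Fin m → G) (e : E) (α : ∀ i, Path e (x i • e))
    (w : List (Fin m × Bool)),
    bd 1 (cor G E m x e α w) = (phi1 x α (foxWord x w)).un - psx (wpath x α w)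
  nat : ∀ (G E F : Type) [Group G] [TopologicalSpace E] [MulAction G E]
    [ContinuousConstSMul G E] [TopologicalSpace F] [MulAction G F] [ContinuousConstSMul G F]
    (f : C(E, F)), (∀ (g : G) y, f (g • y) = g • f y) →
    ∀ (m : ℕ) (x : Fin m → G) (e : E) (α : ∀ i, Path e (x i • e)) (e' : F)
      (α' : ∀ i, Path e' (x i • e')), e' = f e → (∀ i t, α' i t = f (α i t)) →
      ∀ w, push f 2 (cor G E m x e α w) = cor G F m x e' α' w
  supp : ∀ (G E : Type) [Group G] [TopologicalSpace E] [MulAction G E]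
    [ContinuousConstSMul G E] (m : ℕ) (x : Fin m → G) (e : E) (α : ∀ i, Path e (x i • e))
    (A : Set E), e ∈ A → (∀ (g : G), ∀ y ∈ A, g • y ∈ A) → (∀ i t, α i t ∈ A) →
    ∀ w, cor G E m x e α w ∈ Con A 2

/-- BLOCK WC. -/
def SpecWC : Prop := Nonempty WordCor

/-- BLOCK A2 (normalisation of the quasi-isomorphism in degrees 0 and 1). -/
def SpecA2 : Prop := ∀ (G E : Type) [Group G] [TopologicalSpace E] [SimplyConnectedSpace E]
  [MulAction G E] [ContinuousConstSMul G E] (Pr : FinPresentation G)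
  (ψ0 : ZG G →ₗ[ZG G] SC G 0 E) (ψ1 : (Fin Pr.gens → ZG G) →ₗ[ZG G] SC G 1 E)
  (ψ2 : (Fin Pr.rels → ZG G) →ₗ[ZG G] SC G 2 E), FoxQI Pr univ ψ0 ψ1 ψ2 →
  ∀ (e : E) (α : ∀ i, Path e (Pr.x i • e)), ∃ c : Fin Pr.rels → Ch 2 E,
    ∀ c' : Fin Pr.rels → Ch 2 E, (∀ j, ∃ t : Ch 3 E, c' j = c j + bd 2 t) →
      (∀ j, bd 1 (c' j) = (phi1 Pr.x α (foxWord Pr.x (Pr.r j).toWord)).un) ∧
      FoxQI Pr univ (phi0 G e) (phi1 Pr.x α) (lmap fun j => SC.mk G (c' j))

/-- BLOCK YD (a disc with given boundary word and given 2-chain; Hurewicz in degree 2 from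
SpecEil). -/
def SpecYD : Prop := ∀ (W : WordCor) (G E : Type) [Group G] [TopologicalSpace E]
  [SimplyConnectedSpace E] [MulAction G E] [ContinuousConstSMul G E] (m : ℕ) (x : Fin m → G)
  (e : E) (α : ∀ i, Path e (x i • e)) (w : List (Fin m × Bool)), wval x w = 1 →
  ∀ c : Ch 2 E, bd 1 c = (phi1 x α (foxWord x w)).un →
  ∃ δ : C(Dk 2, E), BdryWord x α w δ ∧ ∃ t : Ch 3 E,
    push δ 2 zeta2 + ksx 2 e + W.cor G E m x e α w = c + bd 2 t

/-! ## The presentation complex -/

/-- the cells of a presentation complex in `X`, given by cells of the covering `p : E → X` -/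
structure PresCx {G : Type} [Group G] (Pr : FinPresentation G) {X E : Type} [TopologicalSpace X]
    [TopologicalSpace E] [MulAction G E] [ContinuousConstSMul G E] (p : C(E, X)) where
  e : E
  a : ∀ i, Path e (Pr.x i • e)
  b : Fin Pr.rels → C(Dk 2, E)
  bdry : ∀ j, BdryWord Pr.x a (Pr.r j).toWord (b j)

namespace PresCx

variable {G : Type} [Group G] {Pr : FinPresentation G} {X E : Type} [TopologicalSpace X]
    [TopologicalSpace E] [MulAction G E] [ContinuousConstSMul G E] {p : C(E, X)}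

/-- the edges, in the covering -/
noncomputable def edge (c : PresCx Pr p) (i : Fin Pr.gens) : C(Dk 1, E) :=
  ⟨fun z => c.a i (par ((z : Fin 1 → ℝ) 0)), (c.a i).continuous.comp (continuous_par.comp
    ((continuous_apply 0).comp continuous_subtype_val))⟩

/-- the first `k` edges -/
def Y1 (c : PresCx Pr p) (k : ℕ) : Set X :=
  {p c.e} ∪ ⋃ (i : Fin Pr.gens) (_ : (i : ℕ) < k), range (p.comp (c.edge i))

/-- the first `k` faces -/
def Y2 (c : PresCx Pr p) (k : ℕ) : Set X :=
  c.Y1 Pr.gens ∪ ⋃ (j : Fin Pr.rels) (_ : (j : ℕ) < k), range (p.comp (c.b j))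

/-- the presentation complex -/
def Y (c : PresCx Pr p) : Set X := c.Y2 Pr.rels

/-- the cells are attached in the right way -/
structure Good (c : PresCx Pr p) : Prop where
  att1 : ∀ i : Fin Pr.gens, Attach 1 (c.Y1 i) (c.Y1 (i + 1)) (p.comp (c.edge i))
  att2 : ∀ j : Fin Pr.rels, Attach 2 (c.Y2 j) (c.Y2 (j + 1)) (p.comp (c.b j))

/-- the 2-chain of a face, corrected such that its boundary is the Fox derivative -/
noncomputable def zface (c : PresCx Pr p) (W : WordCor) (j : Fin Pr.rels) : Ch 2 E :=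
  push (c.b j) 2 zeta2 + ksx 2 c.e + W.cor G E Pr.gens Pr.x c.e c.a (Pr.r j).toWord

end PresCx

/-- the additional coordinates -/
abbrev WW (m l : ℕ) : Type := (Fin m → Fin 2 → ℝ) × (Fin l → Fin 3 → ℝ)

/-- `E × WW` with the action on the first factor -/
def EW (_ : Type) (E : Type) (m l : ℕ) : Type := E × WW m l

section EW

variable (G E : Type) (m l : ℕ)

instance [TopologicalSpace E] : TopologicalSpace (EW G E m l) :=
  inferInstanceAs (TopologicalSpace (E × WW m l))

instance [Group G] [MulAction G E] : MulAction G (EW G E m l) where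
  smul g z := (g • z.1, z.2)
  one_smul z := Prod.ext (one_smul G z.1) rfl
  mul_smul g h z := Prod.ext (mul_smul g h z.1) rfl

instance [Group G] [TopologicalSpace E] [MulAction G E] [ContinuousConstSMul G E] :
    ContinuousConstSMul G (EW G E m l) where
  continuous_const_smul g := by
    change Continuous fun z : E × WW m l => (g • z.1, z.2)
    fun_prop

variable {E}

/-- the covering `E × WW → X × WW` -/
def pW {X : Type} [TopologicalSpace X] [TopologicalSpace E] (p : C(E, X)) :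
    C(EW G E m l, X × WW m l) :=
  ⟨fun z : E × WW m l => (p z.1, z.2), by fun_prop⟩

end EW

/-- BLOCK YC (the presentation complex as a subset of `X × WW`). -/
def SpecYC : Prop := ∀ (G X E : Type) [Group G] [TopologicalSpace X] [T2Space X]
  [TopologicalSpace E] [MulAction G E] [ContinuousConstSMul G E] (p : C(E, X)),
  IsQuotientCoveringMap p G → ∀ (Pr : FinPresentation G) (e : E)
  (α : ∀ i, Path e (Pr.x i • e)) (δ : Fin Pr.rels → C(Dk 2, E)),
  (∀ j, BdryWord Pr.x α (Pr.r j).toWord (δ j)) →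
  ∃ c : PresCx Pr (pW G Pr.gens Pr.rels p), c.Good ∧ c.e.1 = e ∧
    (∀ i t, (c.a i t).1 = α i t) ∧ ∀ j z, (c.b j z).1 = δ j z

/-- BLOCK CY (the CW structure of the presentation complex). -/
def SpecCY : Prop := ∀ (G X E : Type) [Group G] [TopologicalSpace X] [T2Space X]
  [TopologicalSpace E] [MulAction G E] [ContinuousConstSMul G E] (p : C(E, X))
  (Pr : FinPresentation G) (c : PresCx Pr p), c.Good →
  Built ∅ c.Y ∧ ∃ _ : CWComplex (univ : Set c.Y), CWComplex.Finite (univ : Set c.Y) ∧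
    ∀ m > 2, IsEmpty (RelCWComplex.cell (univ : Set c.Y) m)

/-- BLOCK YP (the covering of the presentation complex is simply connected). -/
def SpecYP : Prop := ∀ (G X E : Type) [Group G] [TopologicalSpace X] [T2Space X]
  [TopologicalSpace E] [MulAction G E] [ContinuousConstSMul G E] (p : C(E, X)),
  IsQuotientCoveringMap p G → ∀ (Pr : FinPresentation G) (c : PresCx Pr p), c.Good →
  SimplyConnectedSpace (p ⁻¹' c.Y)

/-- BLOCK YH (the chains of the covering of the presentation complex; from MS, CC2, CL, FM). -/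
def SpecYH : Prop := ∀ (W : WordCor) (G X E : Type) [Group G] [TopologicalSpace X] [T2Space X]
  [TopologicalSpace E] [MulAction G E] [ContinuousConstSMul G E] (p : C(E, X)),
  IsQuotientCoveringMap p G → ∀ (Pr : FinPresentation G) (c : PresCx Pr p), c.Good →
  FoxQI Pr (p ⁻¹' c.Y) (phi0 G c.e) (phi1 Pr.x c.a) (lmap fun j => SC.mk G (c.zface W j))

/-- BLOCK RV (two quasi-isomorphisms from the same complex). -/
def SpecRV : Prop := ∀ (G E F : Type) [Group G] [TopologicalSpace E] [MulAction G E]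
  [ContinuousConstSMul G E] [TopologicalSpace F] [MulAction G F] [ContinuousConstSMul G F]
  (f : C(F, E)), (∀ (g : G) y, f (g • y) = g • f y) →
  (∃ h : C(E, F), (f.comp h).Homotopic (ContinuousMap.id E) ∧
    (h.comp f).Homotopic (ContinuousMap.id F)) →
  ∀ (Pr : FinPresentation G) (A : Set F) (ψ0 : ZG G →ₗ[ZG G] SC G 0 F)
  (ψ1 : (Fin Pr.gens → ZG G) →ₗ[ZG G] SC G 1 F) (ψ2 : (Fin Pr.rels → ZG G) →ₗ[ZG G] SC G 2 F)
  (ψ0' : ZG G →ₗ[ZG G] SC G 0 E)
  (ψ1' : (Fin Pr.gens → ZG G) →ₗ[ZG G] SC G 1 E) (ψ2' : (Fin Pr.rels → ZG G) →ₗ[ZG G] SC G 2 E),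
  FoxQI Pr A ψ0 ψ1 ψ2 → FoxQI Pr univ ψ0' ψ1' ψ2' →
  (∀ v, (ψ0' v).un = push f 0 (ψ0 v).un) →
  (∀ v, (ψ1' v).un = push f 1 (ψ1 v).un) →
  (∀ v, (ψ2' v).un = push f 2 (ψ2 v).un) → ∀ k, HZero univ A k

/-- BLOCK EW. -/
def SpecEW : Prop := ∀ (G X E : Type) [Group G] [TopologicalSpace X] [TopologicalSpace E]
  [MulAction G E] [ContinuousConstSMul G E] (p : C(E, X)), IsQuotientCoveringMap p G →
  ∀ m l : ℕ, IsQuotientCoveringMap (pW G m l p) G ∧
    (SimplyConnectedSpace E → SimplyConnectedSpace (EW G E m l)) ∧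
    Nonempty (ContinuousMap.HomotopyEquiv X (X × WW m l)) ∧
    ∃ f : C(EW G E m l, E), (∀ z : EW G E m l, f z = z.1) ∧
      (∀ (g : G) y, f (g • y) = g • f y) ∧
      ∃ h : C(E, EW G E m l), (f.comp h).Homotopic (ContinuousMap.id E) ∧
        (h.comp f).Homotopic (ContinuousMap.id (EW G E m l))

/-- BLOCK DN (from the covering to the base). -/
def SpecDown : Prop := ∀ (G X E : Type) [Group G] [TopologicalSpace X] [TopologicalSpace E]
  [MulAction G E] [ContinuousConstSMul G E] (p : C(E, X)), IsQuotientCoveringMap p G →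
  ∀ (Y : Set X) (n : ℕ), LftS (p ⁻¹' Y) n → LftS Y n

/-- FINAL ASSEMBLY. -/
def SpecTop : Prop := ∀ (G : Type) [Group G], AlgebraicD2Property G → D2Property G

end Vale.Agent.P246.T
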