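import Vale.Agent.P246.T.Spec2
import Vale.Agent.P246.T.SD

/-! # P246, topological version: one more family of cells (used by MX and YH) -/

set_option linter.all false

namespace Vale.Agent.P246.T.Step

open Topology Metric Set

variable {G X E : Type} [Group G] [TopologicalSpace X] [T2Space X]
  [TopologicalSpace E] [MulAction G E] [ContinuousConstSMul G E] {p : C(E, X)}

theorem inv (hp : IsQuotientCoveringMap p G) (A : Set X) :
    ∀ (g : G), ∀ x ∈ p ⁻¹' A, g • x ∈ p ⁻¹' A := by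
  intro g x hx
  change p (g • x) ∈ A
  rw [hp.map_smul g]
  exact hx

/-- the chains over `A`, as a submodule -/
abbrev SA (hp : IsQuotientCoveringMap p G) (A : Set X) (n : ℕ) : Submodule (ZG G) (SC G n E) :=
  SCon n (p ⁻¹' A) (inv hp A)

theorem mem_SA (hp : IsQuotientCoveringMap p G) (A : Set X) (n : ℕ) (x : SC G n E) :
    x ∈ SA hp A n ↔ x.un ∈ Con (p ⁻¹' A) n := Iff.rfl

theorem bd_mem {A : Set E} {n : ℕ} {c : Ch (n + 1) E} (hc : c ∈ Con A (n + 1)) :
    bd n c ∈ Con A n := by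
  refine SD.supp_map (S := {σ : C(Dl (n + 2), E) | ∀ x, σ x ∈ A}) (T := Con A n) (bd n)
    (fun σ hσ => ?_) hc
  rw [bd_single]
  refine Submodule.sum_mem _ fun i _ => ?_
  exact Finsupp.single_mem_supported ℤ _ fun y => hσ _

theorem d_mem (hp : IsQuotientCoveringMap p G) (A : Set X) (n : ℕ) (x : SC G (n + 1) E)
    (hx : x ∈ SA hp A (n + 1)) : SC.d G n E x ∈ SA hp A n := bd_mem hx

theorem con_mono {A B : Set E} (h : A ⊆ B) (n : ℕ) : Con A n ≤ Con B n :=
  Finsupp.supported_mono fun (_ : C(Dl (n + 1), E)) hσ y => h (hσ y)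

theorem mono (hp : IsQuotientCoveringMap p G) {A B : Set X} (h : A ⊆ B) (n : ℕ) :
    SA hp A n ≤ SA hp B n :=
  fun _ hx => con_mono (preimage_mono h) n hx

theorem drel_iff (hp : IsQuotientCoveringMap p G) (A : Set X) (n : ℕ) (x : SC G n E) :
    DRel (fun n => SC G n E) (fun n => SC.d G n E) (SA hp A) n x ↔ RCyc (p ⁻¹' A) n x.un := by
  cases n with
  | zero => exact Iff.rfl
  | succ n => exact Iff.rfl

theorem un_smul_push (n : ℕ) (Ψ : C(Dk n, E)) (ζ : Ch n (Dk n)) (r : ZG G) :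
    (r • SC.mk G (push Ψ n ζ)).un = r.coeff.sum fun g a => a • push ((gm g).comp Ψ) n ζ := by
  rw [SC.un_smul, SC.un_mk, Finsupp.sum, Finsupp.sum]
  refine Finset.sum_congr rfl fun g _ => ?_
  rw [push_comp]

/-- one more cell -/
theorem step (hMS : SpecMS) (hCC2 : SpecCC2) (hCL : SpecCL) (hp : IsQuotientCoveringMap p G)
    {A B : Set X} {n : ℕ} {Φ : C(Dk n, X)} (Ψ : C(Dk n, E)) (hA : IsClosed A)
    (h : Attach n A B Φ) (hΨ : ∀ x, p (Ψ x) = Φ x) {ζ : Ch n (Dk n)} (hζ : IsFund n ζ)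
    {P : ∀ k, Submodule (ZG G) (SC G k E)}
    (hP : IsModel (fun n => SC G n E) (fun n => SC.d G n E) (SA hp A) P)
    (z : SC G n E) (hz : z.un - push Ψ n ζ ∈ Con (p ⁻¹' A) n)
    (hz' : DRel (fun n => SC G n E) (fun n => SC.d G n E) P n z) :
    IsModel (fun n => SC G n E) (fun n => SC.d G n E) (SA hp B)
      (Function.update P n (P n ⊔ Submodule.span (ZG G) {z})) ∧
    ∀ r : ZG G, r • z ∈ SA hp A n → r = 0 := by
  have hAB : A ⊆ B := by rw [h.eq]; exact subset_union_left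
  obtain ⟨h1, h2, h3⟩ := hCL E n G (p ⁻¹' B) (p ⁻¹' A) (fun g => (gm g).comp Ψ) ζ hζ
    (hCC2 G X E p hp n A B Φ Ψ hA h hΨ)
  have hw : z - SC.mk G (push Ψ n ζ) ∈ SA hp A n := hz
  have hzB : z ∈ SA hp B n := by
    have e : z = (z - SC.mk G (push Ψ n ζ)) + SC.mk G (push Ψ n ζ) := by abel
    rw [e]
    refine Submodule.add_mem _ (mono hp hAB n hw) ?_
    rw [mem_SA, SC.un_mk]
    refine push_mem (A := univ) (fun x _ => ?_) ?_
    · change p (Ψ x) ∈ B
      rw [hΨ, h.eq]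
      exact Or.inr ⟨x, rfl⟩
    · rw [Con, Finsupp.mem_supported]
      exact fun σ _ x => mem_univ _
  have hfree : ∀ r : ZG G, (∃ y ∈ SA hp B (n + 1), r • z - SC.d G n E y ∈ SA hp A n) → r = 0 := by
    rintro r ⟨y, hy, hr⟩
    have h4 : r.coeff = 0 := by
      apply h3
      refine ⟨y.un, hy, ?_⟩
      rw [← un_smul_push]
      have e : r • SC.mk G (push Ψ n ζ) - SC.d G n E y =
          (r • z - SC.d G n E y) - r • (z - SC.mk G (push Ψ n ζ)) := by
        rw [smul_sub]; abel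
      have h5 : r • SC.mk G (push Ψ n ζ) - SC.d G n E y ∈ SA hp A n := by
        rw [e]
        exact Submodule.sub_mem _ hr (Submodule.smul_mem _ _ hw)
      exact h5
    exact MonoidAlgebra.ext h4
  refine ⟨hMS (ZG G) (fun n => SC G n E) (fun n => SC.d G n E) ?_ (SA hp A) (SA hp B) P
    (d_mem hp A) (d_mem hp B) (mono hp hAB) hP n z hzB hz' ?_ ?_ hfree, ?_⟩
  · intro n x
    exact SD.bd_bd n x.un
  · intro k hk x hx hxd
    obtain ⟨b, hb, hb'⟩ := h1 k hk x.un hx ((drel_iff hp A k x).1 hxd)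
    exact ⟨SC.mk G b, hb, hb'⟩
  · intro x hx hxd
    obtain ⟨m, b, hb, hb'⟩ := h2 x.un hx ((drel_iff hp A n x).1 hxd)
    refine ⟨MonoidAlgebra.ofCoeff m, SC.mk G b, hb, ?_⟩
    have e : x - (MonoidAlgebra.ofCoeff m : ZG G) • z - SC.d G n E (SC.mk G b) =
        (x - (MonoidAlgebra.ofCoeff m : ZG G) • SC.mk G (push Ψ n ζ) - SC.d G n E (SC.mk G b)) -
          (MonoidAlgebra.ofCoeff m : ZG G) • (z - SC.mk G (push Ψ n ζ)) := by
      rw [smul_sub]; abel
    change x - (MonoidAlgebra.ofCoeff m : ZG G) • z - SC.d G n E (SC.mk G b) ∈ SA hp A n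
    rw [e]
    refine Submodule.sub_mem _ ?_ (Submodule.smul_mem _ _ hw)
    rw [mem_SA, SC.un_sub, SC.un_sub, un_smul_push]
    exact hb'
  · intro r hr
    exact hfree r ⟨0, Submodule.zero_mem _, by rw [map_zero, sub_zero]; exact hr⟩

end Vale.Agent.P246.T.Step
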