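import Vale.Agent.P246.T.Imp
import Vale.Agent.P246.Defs0

/-! # P246, topological version: the definitions of the statement -/

namespace Vale.Agent.P246.T

open Topology

/-- The standard simplex with `k` vertices. -/
abbrev Dl (k : ℕ) : Type := stdSimplex ℝ (Fin k)

/-- The inclusion of the `i`-th face. -/
noncomputable def face (k : ℕ) (i : Fin (k + 1)) : C(Dl k, Dl (k + 1)) :=
  ⟨stdSimplex.map i.succAbove, stdSimplex.continuous_map _⟩

/-- Integral singular `n`-chains of the space `M`. -/
abbrev Ch (n : ℕ) (M : Type) [TopologicalSpace M] : Type := C(Dl (n + 1), M) →₀ ℤ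

/-- The singular boundary map. -/
noncomputable def bd {M : Type} [TopologicalSpace M] (n : ℕ) : Ch (n + 1) M →ₗ[ℤ] Ch n M :=
  Finsupp.linearCombination ℤ fun σ : C(Dl (n + 2), M) =>
    ∑ i : Fin (n + 2), Finsupp.single (σ.comp (face (n + 1) i)) ((-1 : ℤ) ^ (i : ℕ))

section Deck

variable {E X : Type} [TopologicalSpace E]

/-- The group of deck transformations of `p : E → X`. -/
def Deck (p : E → X) : Subgroup (E ≃ₜ E) where
  carrier := {h | ∀ x, p (h x) = p x}
  one_mem' := fun _ => rfl
  mul_mem' := by
    intro a b ha hb x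
    change p (a (b x)) = p x
    rw [ha, hb]
  inv_mem' := by
    intro a ha x
    change p (a.symm x) = p x
    rw [← ha (a.symm x), Homeomorph.apply_symm_apply]

/-- The singular simplex `g ∘ σ`, for a deck transformation `g`. -/
def deckMap {p : E → X} (g : Deck p) {n : ℕ} (σ : C(Dl n, E)) : C(Dl n, E) :=
  ⟨fun x => g.1 (σ x), g.1.continuous.comp σ.continuous⟩

/-- `f` is an equivariant `n`-cochain of `E` with values in the `ℤ[Deck p]`-module `M`, that is a
`ℤ[Deck p]`-linear map from the singular `n`-chains of `E` to `M`. -/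
def EquivCochain (p : E → X) (M : Type) [AddCommGroup M] [Module (ZG (Deck p)) M] (n : ℕ)
    (f : C(Dl (n + 1), E) → M) : Prop :=
  ∀ (g : Deck p) (σ : C(Dl (n + 1), E)), f (deckMap g σ) = elt g • f σ

/-- The coboundary of the cochain `f`. -/
noncomputable def cobd {M : Type} [AddCommGroup M] {n : ℕ} (f : C(Dl (n + 1), E) → M)
    (τ : C(Dl (n + 2), E)) : M :=
  ∑ i : Fin (n + 2), (-1 : ℤ) ^ (i : ℕ) • f (τ.comp (face (n + 1) i))

end Deck

/-- The `D(2)` condition: `X` has a simply connected covering space `E` (its universal cover) with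
`H_i(E; ℤ) = 0` for all `i > 2`, and `H^3(X; M) = 0` for every finitely generated module `M` over
the group ring of the deck group of `E → X` (i.e. of the fundamental group of `X`). -/
def D2Condition (X : Type) [TopologicalSpace X] : Prop :=
  ∃ (E : Type) (_ : TopologicalSpace E) (p : E → X), IsCoveringMap p ∧ SimplyConnectedSpace E ∧
    (∀ i, 2 ≤ i → ∀ c : Ch (i + 1) E, bd i c = 0 → ∃ b : Ch (i + 2) E, bd (i + 1) b = c) ∧
    ∀ (M : Type) [AddCommGroup M] [Module (ZG (Deck p)) M] [Module.Finite (ZG (Deck p)) M]
      (f : C(Dl 4, E) → M), EquivCochain p M 3 f → (∀ τ, cobd f τ = 0) →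
        ∃ h : C(Dl 3, E) → M, EquivCochain p M 2 h ∧ ∀ σ, f σ = cobd h σ

/-- `X` is homotopy equivalent to a finite CW complex of dimension at most two. -/
def HasFiniteTwoModel (X : Type) [TopologicalSpace X] : Prop :=
  ∃ (Y : Type) (_ : TopologicalSpace Y) (_ : T2Space Y) (_ : CWComplex (Set.univ : Set Y)),
    CWComplex.Finite (Set.univ : Set Y) ∧
      (∀ m > 2, IsEmpty (RelCWComplex.cell (Set.univ : Set Y) m)) ∧
      Nonempty (ContinuousMap.HomotopyEquiv X Y)

/-- The `D(2)` property of the group `G`: every finite connected CW complex with fundamental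
group `G` which satisfies the `D(2)` condition is homotopy equivalent to a finite CW complex of
dimension at most two. -/
def D2Property (G : Type) [Group G] : Prop :=
  ∀ (X : Type) [TopologicalSpace X] [T2Space X] [CWComplex (Set.univ : Set X)]
    [CWComplex.Finite (Set.univ : Set X)] [ConnectedSpace X] (x : X),
    Nonempty (FundamentalGroup X x ≃* G) → D2Condition X → HasFiniteTwoModel X

end Vale.Agent.P246.T
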