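import Vale.Agent.P246.T.CV
import Vale.Agent.P246.T.PR2

/-! # Block YD, part (b): a 2-cycle is homologous to a combination of square spheres -/

namespace Vale.Agent.P246.T.YD

open Topology Metric Set

section Rep

variable {M E : Type} [TopologicalSpace M] [TopologicalSpace E]

/-- a map which is constant on `A` makes the chains of `A` multiples of the constant simplex -/
theorem push_wt {A : Set M} {f : C(M, E)} {e : E} (h : ∀ x ∈ A, f x = e) {n : ℕ} {c : Ch n M}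
    (hc : c ∈ Con A n) : push f n c = PR.wt n c • ksx n e := by
  have h1 : push f n c - PR.wt n c • ksx n e ∈ (⊥ : Submodule ℤ (Ch n E)) := by
    have h2 := SD.supp_map (push f n - (PR.wt n).smulRight (ksx n e : Ch n E))
      (T := (⊥ : Submodule ℤ (Ch n E))) ?_ hc
    · exact h2
    intro σ hσ
    rw [LinearMap.sub_apply, push_single, LinearMap.smulRight_apply, PR.wt_single, one_smul, ksx,
      Submodule.mem_bot, sub_eq_zero]
    congr 1
    exact ContinuousMap.ext fun x => h _ (hσ x)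
  exact sub_eq_zero.1 ((Submodule.mem_bot ℤ).1 h1)

theorem ksx_ne (n : ℕ) (e : E) : (ksx n e : Ch n E) ≠ 0 := by
  rw [ksx, Ne, Finsupp.single_eq_zero]
  exact one_ne_zero

end Rep

variable {E : Type} [TopologicalSpace E]

/-- the fundamental chain of the simplex in terms of the square -/
theorem exists_square (hF : SpecFund) : ∃ (h : Dl 3 ≃ₜ Dk 2) (m : ℤ) (b : Ch 3 (Dk 2)),
    (∀ x : Dl 3, (∃ i, x i = 0) ↔ h x ∈ bdk 2) ∧
    (Finsupp.single (⟨h, h.continuous⟩ : C(Dl 3, Dk 2)) 1 - m • zeta2 - bd 2 b : Ch 2 (Dk 2)) ∈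
      Con (bdk 2) 2 := by
  obtain ⟨h, hh⟩ := CV.simplexBall 2
  have hr : RCyc (bdk 2) 2 (Finsupp.single (⟨h, h.continuous⟩ : C(Dl 3, Dk 2)) 1 : Ch 2 (Dk 2)) := by
    show bd 1 _ ∈ Con (bdk 2) 1
    rw [bd_single]
    refine Submodule.sum_mem _ fun i _ => PR.single_mem (fun y => ?_) _
    exact (hh _).1 ⟨i, CV.face_self 2 i y⟩
  obtain ⟨m, b, -, hb⟩ := hF.2.2.2.gen _ hr
  exact ⟨h, m, b, hh, hb⟩

theorem hur (hE : SpecEil) (hF : SpecFund) {E : Type} [TopologicalSpace E] (e : E)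
    (h0 : LftS ({e} : Set E) 0) (h1 : LftS ({e} : Set E) 1) (z : Ch 2 E) (hz : bd 1 z = 0) :
    ∃ (L : List (C(Dk 2, E) × ℤ)), (∀ q ∈ L, ∀ y : Dk 2, ‖(y : Fin 2 → ℝ)‖ = 1 → q.1 y = e) ∧
      ∃ t : Ch 3 E, z = (L.map fun q => q.2 • push q.1 2 zeta2).sum + bd 2 t := by
  classical
  obtain ⟨ρ, D, hρ, -, hD, -, -, hS, -⟩ := hE E {e} 2 (fun k hk => by
    interval_cases k
    · exact h0
    · exact h1)
  have e1 : z = ρ 2 z - bd 2 (D 2 z) := by
    rw [hD 1 z, hz, map_zero]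
    abel
  have e2 : bd 1 (ρ 2 z) = 0 := by
    have h2 := hρ 1 z
    rw [hz, map_zero] at h2
    exact h2
  obtain ⟨h, m, b, hh, hr⟩ := exists_square hF
  set w : Ch 2 E := ρ 2 z with hw
  have hwS : w ∈ Sk ({e} : Set E) 2 2 := hS 2 z
  set κ : Ch 2 (Dk 2) := Finsupp.single (⟨h, h.continuous⟩ : C(Dl 3, Dk 2)) 1 with hκ
  set r : Ch 2 (Dk 2) := κ - m • zeta2 - bd 2 b with hrd
  -- the square of a simplex
  let τ : C(Dl 3, E) → C(Dk 2, E) := fun σ => σ.comp ⟨h.symm, h.symm.continuous⟩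
  have hτ : ∀ σ ∈ w.support, ∀ y ∈ bdk 2, τ σ y = e := by
    intro σ hσ y hy
    have hs : ∀ x : Dl 3, (Finset.univ.filter fun i => x i ≠ 0).card ≤ 2 → σ x ∈ ({e} : Set E) :=
      (Finsupp.mem_supported ℤ w).1 hwS hσ
    obtain ⟨i, hi⟩ := (hh (h.symm y)).2 (by rw [h.apply_symm_apply]; exact hy)
    refine hs _ ?_
    have h3 : (Finset.univ.filter fun i => (h.symm y) i ≠ 0) ⊆ Finset.univ.erase i := by
      intro j hj
      rw [Finset.mem_filter] at hj
      rw [Finset.mem_erase]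
      exact ⟨fun hji => hj.2 (by rw [hji]; exact hi), Finset.mem_univ _⟩
    refine (Finset.card_le_card h3).trans ?_
    rw [Finset.card_erase_of_mem (Finset.mem_univ _), Finset.card_univ, Fintype.card_fin]
  have hpk : ∀ σ : C(Dl 3, E), push (τ σ) 2 κ = Finsupp.single σ 1 := by
    intro σ
    rw [hκ, push_single]
    congr 1
    refine ContinuousMap.ext fun x => ?_
    show σ (h.symm (h x)) = σ x
    rw [h.symm_apply_apply]
  have hone : ∀ σ ∈ w.support, (Finsupp.single σ (1 : ℤ) : Ch 2 E) =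
      m • push (τ σ) 2 zeta2 + bd 2 (push (τ σ) 3 b) + PR.wt 2 r • ksx 2 e := by
    intro σ hσ
    have h4 : push (τ σ) 2 r = PR.wt 2 r • ksx 2 e := push_wt (hτ σ hσ) hr
    rw [← h4, push_bd, ← hpk σ, hrd, map_sub, map_sub, map_smul]
    abel
  have hwsum : w = ∑ σ ∈ w.support, w σ • (Finsupp.single σ (1 : ℤ) : Ch 2 E) := by
    conv_lhs => rw [← Finsupp.sum_single w]
    rw [Finsupp.sum]
    exact Finset.sum_congr rfl fun σ _ => by rw [Finsupp.smul_single, smul_eq_mul, mul_one]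
  have hw2 : w = ∑ σ ∈ w.support, (w σ * m) • push (τ σ) 2 zeta2 +
      bd 2 (∑ σ ∈ w.support, w σ • push (τ σ) 3 b) +
      (∑ σ ∈ w.support, w σ * PR.wt 2 r) • ksx 2 e := by
    conv_lhs => rw [hwsum]
    rw [map_sum, Finset.sum_smul, ← Finset.sum_add_distrib, ← Finset.sum_add_distrib]
    refine Finset.sum_congr rfl fun σ hσ => ?_
    rw [hone σ hσ, smul_add, smul_add, map_smul, mul_smul, mul_smul]
  -- the boundary of the square spheres
  have hb2 : ∀ σ ∈ w.support, bd 1 (push (τ σ) 2 zeta2) = 0 := by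
    intro σ hσ
    have h5 : bd 1 zeta2 ∈ Con (bdk 2) 1 := hF.2.2.2.cyc
    rw [push_bd, push_wt (hτ σ hσ) h5, PR.wt_bd]
    have h6 : PR.wt 2 zeta2 = 0 := by
      rw [zeta2, map_sub, PR.wt_single, PR.wt_single, sub_self]
    rw [h6, mul_zero, zero_smul]
  have hN : (∑ σ ∈ w.support, w σ * PR.wt 2 r) = 0 := by
    have h7 : bd 1 w = (∑ σ ∈ w.support, w σ * PR.wt 2 r) • ksx 1 e := by
      conv_lhs => rw [hw2]
      rw [map_add, map_add, PR.bd_bd, map_smul, PR.bd_ksx, map_sum, Finset.sum_eq_zero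
        (fun σ hσ => by rw [map_smul, hb2 σ hσ, smul_zero])]
      simp
    rw [e2] at h7
    rcases smul_eq_zero.1 h7.symm with h8 | h8
    · exact h8
    · exact absurd h8 (ksx_ne 1 e)
  rw [hN, zero_smul, add_zero] at hw2
  refine ⟨w.support.toList.map fun σ => (τ σ, w σ * m), ?_,
    (∑ σ ∈ w.support, w σ • push (τ σ) 3 b) - D 2 z, ?_⟩
  · intro q hq y hy
    obtain ⟨σ, hσ, rfl⟩ := List.mem_map.1 hq
    exact hτ σ (Finset.mem_toList.1 hσ) y hy
  · rw [List.map_map, map_sub]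
    have h9 : (w.support.toList.map ((fun q : C(Dk 2, E) × ℤ => q.2 • push q.1 2 zeta2) ∘
        fun σ => (τ σ, w σ * m))).sum = ∑ σ ∈ w.support, (w σ * m) • push (τ σ) 2 zeta2 :=
      Finset.sum_map_toList _ _
    rw [h9]
    conv_lhs => rw [e1, hw2]
    abel

end Vale.Agent.P246.T.YD
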