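import Vale.Agent.P246.T.YH
import Vale.Agent.P246.T.PR2

/-! # P246-T, block YD, part c: adding a sphere to a disc -/

open Topology Metric Set

namespace Vale.Agent.P246.T.YDc

theorem asx_co {n k : ℕ} (v : Fin k → Fin n → ℝ) (hv : ∀ i j, |v i j| ≤ 1) (t : Dl k)
    (j : Fin n) : ((asx v t : Dk n) : Fin n → ℝ) j = ∑ i, t i * v i j := by
  have hsum : ∀ j, (∑ i, t i • v i) j = ∑ i, t i * v i j := fun j => by
    rw [Finset.sum_apply]; rfl
  rw [YH.asx_apply, hsum]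
  intro j
  rw [hsum]
  calc |∑ i, t i * v i j| ≤ ∑ i, |t i * v i j| := Finset.abs_sum_le_sum_abs _ _
    _ ≤ ∑ i, t i := by
        refine Finset.sum_le_sum fun i _ => ?_
        rw [abs_mul, abs_of_nonneg (stdSimplex.zero_le t i)]
        exact mul_le_of_le_one_right (stdSimplex.zero_le t i) (hv i j)
    _ = 1 := stdSimplex.sum_eq_one t

/-- an affine map of the square -/
noncomputable def aff (a b c d p q : ℝ) : C(Dk 2, Dk 2) :=
  ⟨fun z => clp 2 ![a * (z : Fin 2 → ℝ) 0 + b * (z : Fin 2 → ℝ) 1 + p,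
    c * (z : Fin 2 → ℝ) 0 + d * (z : Fin 2 → ℝ) 1 + q], (continuous_clp 2).comp (by
      have h0 : Continuous fun z : Dk 2 => (z : Fin 2 → ℝ) 0 :=
        (continuous_apply 0).comp continuous_subtype_val
      have h1 : Continuous fun z : Dk 2 => (z : Fin 2 → ℝ) 1 :=
        (continuous_apply 1).comp continuous_subtype_val
      refine continuous_pi fun i => ?_
      fin_cases i
      · exact ((continuous_const.mul h0).add (continuous_const.mul h1)).add continuous_const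
      · exact ((continuous_const.mul h0).add (continuous_const.mul h1)).add continuous_const)⟩

theorem aff_apply (a b c d p q : ℝ) (z : Dk 2)
    (h0 : |a * (z : Fin 2 → ℝ) 0 + b * (z : Fin 2 → ℝ) 1 + p| ≤ 1)
    (h1 : |c * (z : Fin 2 → ℝ) 0 + d * (z : Fin 2 → ℝ) 1 + q| ≤ 1) :
    (aff a b c d p q z : Fin 2 → ℝ) = ![a * (z : Fin 2 → ℝ) 0 + b * (z : Fin 2 → ℝ) 1 + p,
      c * (z : Fin 2 → ℝ) 0 + d * (z : Fin 2 → ℝ) 1 + q] := by
  funext i
  refine YH.clp_of_mem (n := 2) ?_ i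
  intro i
  fin_cases i
  · exact h0
  · exact h1

theorem aff_asx {k : ℕ} (a b c d p q : ℝ) (v : Fin k → Fin 2 → ℝ) (hv : ∀ i j, |v i j| ≤ 1)
    (v' : Fin k → Fin 2 → ℝ) (hv' : ∀ i j, |v' i j| ≤ 1)
    (h0 : ∀ i, v' i 0 = a * v i 0 + b * v i 1 + p)
    (h1 : ∀ i, v' i 1 = c * v i 0 + d * v i 1 + q) :
    (aff a b c d p q).comp (asx v) = asx v' := by
  ext t : 1
  apply Subtype.ext
  have e0 : ∑ i, t i * v' i 0 = a * (∑ i, t i * v i 0) + b * (∑ i, t i * v i 1) + p := by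
    have hp : p = ∑ i, t i * p := by rw [← Finset.sum_mul, stdSimplex.sum_eq_one, one_mul]
    conv_rhs => rw [hp]
    rw [Finset.mul_sum, Finset.mul_sum, ← Finset.sum_add_distrib, ← Finset.sum_add_distrib]
    exact Finset.sum_congr rfl fun i _ => by rw [h0]; ring
  have e1 : ∑ i, t i * v' i 1 = c * (∑ i, t i * v i 0) + d * (∑ i, t i * v i 1) + q := by
    have hp : q = ∑ i, t i * q := by rw [← Finset.sum_mul, stdSimplex.sum_eq_one, one_mul]
    conv_rhs => rw [hp]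
    rw [Finset.mul_sum, Finset.mul_sum, ← Finset.sum_add_distrib, ← Finset.sum_add_distrib]
    exact Finset.sum_congr rfl fun i _ => by rw [h1]; ring
  have hle : ∀ j, |((asx v' t : Dk 2) : Fin 2 → ℝ) j| ≤ 1 := fun j => by
    rw [← Real.norm_eq_abs]
    exact (norm_le_pi_norm _ j).trans (mem_closedBall_zero_iff.1 (asx v' t : Dk 2).2)
  have l0 := hle 0
  have l1 := hle 1
  rw [asx_co v' hv', e0] at l0
  rw [asx_co v' hv', e1] at l1
  rw [ContinuousMap.comp_apply, aff_apply a b c d p q (asx v t) (by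
    rw [asx_co v hv, asx_co v hv]; exact l0) (by
    rw [asx_co v hv, asx_co v hv]; exact l1), asx_co v hv, asx_co v hv]
  funext j
  fin_cases j
  · change _ = ((asx v' t : Dk 2) : Fin 2 → ℝ) 0
    rw [asx_co v' hv', e0]; rfl
  · change _ = ((asx v' t : Dk 2) : Fin 2 → ℝ) 1
    rw [asx_co v' hv', e1]; rfl

theorem le_abs {k : ℕ} {v : Fin k → Fin 2 → ℝ} (h : ∀ i j, v i j = 1 ∨ v i j = -1 ∨ v i j = 0)
    (i : Fin k) (j : Fin 2) : |v i j| ≤ 1 := by
  rcases h i j with h | h | h <;> rw [h] <;> norm_num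

/-- the exchange of the coordinates -/
noncomputable def swp : C(Dk 2, Dk 2) := aff 0 1 1 0 0 0

theorem push_swp : push swp 2 zeta2 = -zeta2 := by
  rw [zeta2, map_sub, push_single, push_single, swp,
    aff_asx 0 1 1 0 0 0 ![![-1, -1], ![1, -1], ![1, 1]] ?_ ![![-1, -1], ![-1, 1], ![1, 1]] ?_
      ?_ ?_,
    aff_asx 0 1 1 0 0 0 ![![-1, -1], ![-1, 1], ![1, 1]] ?_ ![![-1, -1], ![1, -1], ![1, 1]] ?_
      ?_ ?_]
  · abel
  all_goals first
    | (intro i j; fin_cases i <;> fin_cases j <;> norm_num)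
    | (intro i; fin_cases i <;> norm_num)

theorem norm_swp {z : Dk 2} (hz : ‖(z : Fin 2 → ℝ)‖ = 1) : ‖(swp z : Fin 2 → ℝ)‖ = 1 := by
  have h : ∀ i, |(z : Fin 2 → ℝ) i| ≤ 1 := fun i => by
    rw [← Real.norm_eq_abs]; exact (norm_le_pi_norm _ i).trans hz.le
  have e : (swp z : Fin 2 → ℝ) = ![(z : Fin 2 → ℝ) 1, (z : Fin 2 → ℝ) 0] := by
    rw [swp, aff_apply]
    · funext i
      fin_cases i
      · change 0 * (z : Fin 2 → ℝ) 0 + 1 * (z : Fin 2 → ℝ) 1 + 0 = (z : Fin 2 → ℝ) 1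
        ring
      · change 1 * (z : Fin 2 → ℝ) 0 + 0 * (z : Fin 2 → ℝ) 1 + 0 = (z : Fin 2 → ℝ) 0
        ring
    · simpa using h 1
    · simpa using h 0
  rw [e]
  refine Eq.trans ?_ hz
  refine le_antisymm ((pi_norm_le_iff_of_nonneg (norm_nonneg _)).2 fun i => ?_)
    ((pi_norm_le_iff_of_nonneg (norm_nonneg _)).2 fun i => ?_)
  · fin_cases i
    · exact norm_le_pi_norm (z : Fin 2 → ℝ) 1
    · exact norm_le_pi_norm (z : Fin 2 → ℝ) 0
  · fin_cases i
    · exact norm_le_pi_norm (![(z : Fin 2 → ℝ) 1, (z : Fin 2 → ℝ) 0]) 1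
    · exact norm_le_pi_norm (![(z : Fin 2 → ℝ) 1, (z : Fin 2 → ℝ) 0]) 0

theorem swap {E : Type} [TopologicalSpace E] {e : E} (τ : C(Dk 2, E))
    (hτ : ∀ z : Dk 2, ‖(z : Fin 2 → ℝ)‖ = 1 → τ z = e) :
    ∃ τ' : C(Dk 2, E), (∀ z : Dk 2, ‖(z : Fin 2 → ℝ)‖ = 1 → τ' z = e) ∧
      push τ' 2 zeta2 = -push τ 2 zeta2 :=
  ⟨τ.comp swp, fun z hz => hτ _ (norm_swp hz), by rw [push_comp, push_swp, map_neg]⟩

/-- the left half -/
noncomputable def lh : C(Dk 2, Dk 2) := aff (1 / 2) 0 0 1 (-1 / 2) 0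

/-- the right half -/
noncomputable def rh : C(Dk 2, Dk 2) := aff (1 / 2) 0 0 1 (1 / 2) 0

/-- the triangle `A M B` in the bottom side -/
noncomputable def sb : C(Dl 3, Dk 2) := asx ![![-1, -1], ![0, -1], ![1, -1]]

/-- the triangle `D M' C` in the top side -/
noncomputable def st : C(Dl 3, Dk 2) := asx ![![-1, 1], ![0, 1], ![1, 1]]

theorem push_lh : push lh 2 zeta2 = Finsupp.single (asx ![![-1, -1], ![0, -1], ![0, 1]]) 1 -
    Finsupp.single (asx ![![-1, -1], ![-1, 1], ![0, 1]]) 1 := by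
  rw [zeta2, map_sub, push_single, push_single, lh,
    aff_asx _ _ _ _ _ _ ![![-1, -1], ![1, -1], ![1, 1]] ?_ ![![-1, -1], ![0, -1], ![0, 1]] ?_
      ?_ ?_,
    aff_asx _ _ _ _ _ _ ![![-1, -1], ![-1, 1], ![1, 1]] ?_ ![![-1, -1], ![-1, 1], ![0, 1]] ?_
      ?_ ?_]
  all_goals first
    | (intro i j; fin_cases i <;> fin_cases j <;> norm_num)
    | (intro i; fin_cases i <;> norm_num)

theorem push_rh : push rh 2 zeta2 = Finsupp.single (asx ![![0, -1], ![1, -1], ![1, 1]]) 1 -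
    Finsupp.single (asx ![![0, -1], ![0, 1], ![1, 1]]) 1 := by
  rw [zeta2, map_sub, push_single, push_single, rh,
    aff_asx _ _ _ _ _ _ ![![-1, -1], ![1, -1], ![1, 1]] ?_ ![![0, -1], ![1, -1], ![1, 1]] ?_
      ?_ ?_,
    aff_asx _ _ _ _ _ _ ![![-1, -1], ![-1, 1], ![1, 1]] ?_ ![![0, -1], ![0, 1], ![1, 1]] ?_
      ?_ ?_]
  all_goals first
    | (intro i j; fin_cases i <;> fin_cases j <;> norm_num)
    | (intro i; fin_cases i <;> norm_num)

theorem bd_asx (a b c : Fin 2 → ℝ) : bd 1 (Finsupp.single (asx ![a, b, c]) (1 : ℤ)) =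
    Finsupp.single (asx ![b, c]) 1 - Finsupp.single (asx ![a, c]) 1 +
      Finsupp.single (asx ![a, b]) 1 := by
  have e0 : (fun j => (![a, b, c] : Fin 3 → Fin 2 → ℝ) ((0 : Fin 3).succAbove j)) = ![b, c] := by
    funext j; fin_cases j <;> rfl
  have e1 : (fun j => (![a, b, c] : Fin 3 → Fin 2 → ℝ) ((1 : Fin 3).succAbove j)) = ![a, c] := by
    funext j; fin_cases j <;> rfl
  have e2 : (fun j => (![a, b, c] : Fin 3 → Fin 2 → ℝ) ((2 : Fin 3).succAbove j)) = ![a, b] := by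
    funext j; fin_cases j <;> rfl
  rw [bd_single, Fin.sum_univ_three, YH.asx_face, YH.asx_face, YH.asx_face, e0, e1, e2]
  simp [sub_eq_add_neg]

theorem contr : ContractibleSpace (Dk 2) :=
  (convex_closedBall (0 : Fin 2 → ℝ) 1).contractibleSpace ⟨0, mem_closedBall_self zero_le_one⟩

theorem exists_theta : ∃ θ : Ch 3 (Dk 2), bd 2 θ = zeta2 - push lh 2 zeta2 - push rh 2 zeta2 +
    Finsupp.single sb 1 - Finsupp.single st 1 := by
  have := contr
  refine PR.exists_bd 1 _ ?_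
  rw [push_lh, push_rh, sb, st, zeta2]
  simp only [map_sub, map_add, bd_asx]
  abel

section

variable {G E : Type} [Group G] [TopologicalSpace E] [MulAction G E] [ContinuousConstSMul G E]
  {m : ℕ}

theorem add_sphere (x : Fin m → G) {e : E} (α : ∀ i, Path e (x i • e))
    (w : List (Fin m × Bool)) (hw : wval x w = 1) (δ : C(Dk 2, E)) (hδ : BdryWord x α w δ)
    (τ : C(Dk 2, E)) (hτ : ∀ z : Dk 2, ‖(z : Fin 2 → ℝ)‖ = 1 → τ z = e) :
    ∃ δ' : C(Dk 2, E), BdryWord x α w δ' ∧ ∃ t : Ch 3 E,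
      push δ' 2 zeta2 = push δ 2 zeta2 + push τ 2 zeta2 + bd 2 t := by
  have hle : ∀ (z : Dk 2) j, |(z : Fin 2 → ℝ) j| ≤ 1 := fun z j => by
    rw [← Real.norm_eq_abs]
    exact (norm_le_pi_norm _ j).trans (mem_closedBall_zero_iff.1 z.2)
  have hn : ∀ (z : Dk 2) j, |(z : Fin 2 → ℝ) j| = 1 → ‖(z : Fin 2 → ℝ)‖ = 1 := fun z j h => by
    refine le_antisymm (mem_closedBall_zero_iff.1 z.2) ?_
    refine h.ge.trans ?_
    rw [← Real.norm_eq_abs]
    exact norm_le_pi_norm _ j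
  -- the two maps which stretch the halves
  set f : C(Dk 2, Dk 2) := aff 2 0 0 1 1 0 with hf
  set g : C(Dk 2, Dk 2) := aff 2 0 0 1 (-1) 0 with hg
  have f1 : ∀ z : Dk 2, (f z : Fin 2 → ℝ) 1 = (z : Fin 2 → ℝ) 1 := fun z => by
    change max (-1) (min 1 (0 * (z : Fin 2 → ℝ) 0 + 1 * (z : Fin 2 → ℝ) 1 + 0)) = _
    have := abs_le.1 (hle z 1)
    rw [zero_mul, one_mul, zero_add, add_zero, min_eq_right this.2, max_eq_right this.1]
  have g1 : ∀ z : Dk 2, (g z : Fin 2 → ℝ) 1 = (z : Fin 2 → ℝ) 1 := fun z => by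
    change max (-1) (min 1 (0 * (z : Fin 2 → ℝ) 0 + 1 * (z : Fin 2 → ℝ) 1 + 0)) = _
    have := abs_le.1 (hle z 1)
    rw [zero_mul, one_mul, zero_add, add_zero, min_eq_right this.2, max_eq_right this.1]
  have f0 : ∀ z : Dk 2, (z : Fin 2 → ℝ) 0 ≤ 0 →
      (f z : Fin 2 → ℝ) 0 = 2 * (z : Fin 2 → ℝ) 0 + 1 := fun z hz => by
    change max (-1) (min 1 (2 * (z : Fin 2 → ℝ) 0 + 0 * (z : Fin 2 → ℝ) 1 + 1)) = _
    have := abs_le.1 (hle z 0)
    rw [zero_mul, add_zero, min_eq_right (by linarith), max_eq_right (by linarith)]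
  have g0 : ∀ z : Dk 2, 0 ≤ (z : Fin 2 → ℝ) 0 →
      (g z : Fin 2 → ℝ) 0 = 2 * (z : Fin 2 → ℝ) 0 - 1 := fun z hz => by
    change max (-1) (min 1 (2 * (z : Fin 2 → ℝ) 0 + 0 * (z : Fin 2 → ℝ) 1 + -1)) = _
    have := abs_le.1 (hle z 0)
    rw [zero_mul, add_zero, min_eq_right (by linarith), max_eq_right (by linarith)]
    ring
  have hδe : ∀ z : Dk 2, ‖(z : Fin 2 → ℝ)‖ = 1 →
      ((z : Fin 2 → ℝ) 0 ≠ 1 ∨ |(z : Fin 2 → ℝ) 1| = 1) → δ z = e := by
    intro z hz h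
    by_cases h0 : (z : Fin 2 → ℝ) 0 = 1
    · rcases h with h | h
      · exact absurd h0 h
      · rw [(hδ z hz).1 h0]
        rcases (abs_eq zero_le_one).1 h with h | h
        · rw [h, YH.par_one, Path.target, hw, one_smul]
        · rw [h, YH.par_neg_one, Path.source]
    · exact (hδ z hz).2 h0
  have hmid : ∀ z : Dk 2, (z : Fin 2 → ℝ) 0 = 0 → τ (f z) = δ (g z) := by
    intro z hz
    rw [hτ (f z) (hn _ 0 (by rw [f0 z hz.le, hz]; norm_num)), hδe (g z)
      (hn _ 0 (by rw [g0 z hz.ge, hz]; norm_num)) (Or.inl (by rw [g0 z hz.ge, hz]; norm_num))]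
  classical
  set δ' : C(Dk 2, E) := ⟨fun z => if (z : Fin 2 → ℝ) 0 ≤ 0 then τ (f z) else δ (g z), by
    refine Continuous.if_le (τ.continuous.comp f.continuous) (δ.continuous.comp g.continuous)
      ((continuous_apply 0).comp continuous_subtype_val) continuous_const fun z hz => hmid z hz⟩
    with hδ'
  have dL : ∀ z : Dk 2, (z : Fin 2 → ℝ) 0 ≤ 0 → δ' z = τ (f z) := fun z hz => if_pos hz
  have dR : ∀ z : Dk 2, 0 ≤ (z : Fin 2 → ℝ) 0 → δ' z = δ (g z) := fun z hz => by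
    rcases hz.lt_or_eq with h | h
    · exact if_neg (not_le.2 h)
    · rw [dL z h.ge]; exact hmid z h.symm
  have he : ∀ z : Dk 2, |(z : Fin 2 → ℝ) 1| = 1 → δ' z = e := by
    intro z hz
    rcases le_total ((z : Fin 2 → ℝ) 0) 0 with h | h
    · rw [dL z h, hτ _ (hn _ 1 (by rw [f1, hz]))]
    · rw [dR z h, hδe _ (hn _ 1 (by rw [g1, hz])) (Or.inr (by rw [g1, hz]))]
  have hB : BdryWord x α w δ' := by
    intro z hz
    constructor
    · intro h0
      have hg0 : (g z : Fin 2 → ℝ) 0 = 1 := by rw [g0 z (by rw [h0]; norm_num), h0]; norm_num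
      rw [dR z (by rw [h0]; norm_num), (hδ (g z) (hn _ 0 (by rw [hg0, abs_one]))).1 hg0, g1]
    · intro h0
      by_cases h1 : |(z : Fin 2 → ℝ) 1| = 1
      · exact he z h1
      · have hz0 : (z : Fin 2 → ℝ) 0 = -1 := by
          by_contra hne
          have hlt : ∀ i : Fin 2, ‖(z : Fin 2 → ℝ) i‖ < 1 := by
            intro i
            rw [Real.norm_eq_abs]
            fin_cases i
            · refine lt_of_le_of_ne (hle z 0) fun h => ?_
              rcases (abs_eq zero_le_one).1 h with h | h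
              · exact h0 h
              · exact hne h
            · exact lt_of_le_of_ne (hle z 1) h1
          have := (pi_norm_lt_iff one_pos).2 hlt
          rw [hz] at this
          exact lt_irrefl _ this
        rw [dL z (by rw [hz0]; norm_num), hτ _ (hn _ 0 (by
          rw [f0 z (by rw [hz0]; norm_num), hz0]; norm_num))]
  have cL : δ'.comp lh = τ := by
    ext z
    have e0 : (lh z : Fin 2 → ℝ) 0 = 1 / 2 * (z : Fin 2 → ℝ) 0 - 1 / 2 := by
      change max (-1) (min 1 (1 / 2 * (z : Fin 2 → ℝ) 0 + 0 * (z : Fin 2 → ℝ) 1 + -1 / 2)) = _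
      have := abs_le.1 (hle z 0)
      rw [zero_mul, add_zero, min_eq_right (by linarith), max_eq_right (by linarith)]
      ring
    have e1 : (lh z : Fin 2 → ℝ) 1 = (z : Fin 2 → ℝ) 1 := by
      change max (-1) (min 1 (0 * (z : Fin 2 → ℝ) 0 + 1 * (z : Fin 2 → ℝ) 1 + 0)) = _
      have := abs_le.1 (hle z 1)
      rw [zero_mul, one_mul, zero_add, add_zero, min_eq_right this.2, max_eq_right this.1]
    have h0 : (lh z : Fin 2 → ℝ) 0 ≤ 0 := by
      have := abs_le.1 (hle z 0)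
      rw [e0]; linarith
    rw [ContinuousMap.comp_apply, dL _ h0]
    congr 1
    apply Subtype.ext
    funext i
    fin_cases i
    · change (f (lh z) : Fin 2 → ℝ) 0 = (z : Fin 2 → ℝ) 0
      rw [f0 _ h0, e0]; ring
    · change (f (lh z) : Fin 2 → ℝ) 1 = (z : Fin 2 → ℝ) 1
      rw [f1, e1]
  have cR : δ'.comp rh = δ := by
    ext z
    have e0 : (rh z : Fin 2 → ℝ) 0 = 1 / 2 * (z : Fin 2 → ℝ) 0 + 1 / 2 := by
      change max (-1) (min 1 (1 / 2 * (z : Fin 2 → ℝ) 0 + 0 * (z : Fin 2 → ℝ) 1 + 1 / 2)) = _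
      have := abs_le.1 (hle z 0)
      rw [zero_mul, add_zero, min_eq_right (by linarith), max_eq_right (by linarith)]
    have e1 : (rh z : Fin 2 → ℝ) 1 = (z : Fin 2 → ℝ) 1 := by
      change max (-1) (min 1 (0 * (z : Fin 2 → ℝ) 0 + 1 * (z : Fin 2 → ℝ) 1 + 0)) = _
      have := abs_le.1 (hle z 1)
      rw [zero_mul, one_mul, zero_add, add_zero, min_eq_right this.2, max_eq_right this.1]
    have h0 : 0 ≤ (rh z : Fin 2 → ℝ) 0 := by
      have := abs_le.1 (hle z 0)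
      rw [e0]; linarith
    rw [ContinuousMap.comp_apply, dR _ h0]
    congr 1
    apply Subtype.ext
    funext i
    fin_cases i
    · change (g (rh z) : Fin 2 → ℝ) 0 = (z : Fin 2 → ℝ) 0
      rw [g0 _ h0, e0]; ring
    · change (g (rh z) : Fin 2 → ℝ) 1 = (z : Fin 2 → ℝ) 1
      rw [g1, e1]
  have hv3 : ∀ (s : ℝ) (hs : |s| ≤ 1), ∀ i j,
      |(![![-1, s], ![0, s], ![1, s]] : Fin 3 → Fin 2 → ℝ) i j| ≤ 1 := by
    intro s hs i j
    fin_cases i <;> fin_cases j <;> simp [hs]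
  have hside : ∀ (s : ℝ), |s| = 1 → ∀ t : Dl 3,
      |((asx ![![-1, s], ![0, s], ![1, s]] t : Dk 2) : Fin 2 → ℝ) 1| = 1 := by
    intro s hs t
    rw [asx_co _ (hv3 s hs.le), Fin.sum_univ_three]
    have := stdSimplex.sum_eq_one t
    rw [Fin.sum_univ_three] at this
    have e1 : t 0 * (![![-1, s], ![0, s], ![1, s]] : Fin 3 → Fin 2 → ℝ) 0 1 +
        t 1 * (![![-1, s], ![0, s], ![1, s]] : Fin 3 → Fin 2 → ℝ) 1 1 +
        t 2 * (![![-1, s], ![0, s], ![1, s]] : Fin 3 → Fin 2 → ℝ) 2 1 = s := by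
      change t 0 * s + t 1 * s + t 2 * s = s
      rw [← add_mul, ← add_mul, this, one_mul]
    rw [e1, hs]
  have cb : δ'.comp sb = ContinuousMap.const _ e :=
    ContinuousMap.ext fun t => he _ (hside (-1) (by norm_num) t)
  have ct : δ'.comp st = ContinuousMap.const _ e :=
    ContinuousMap.ext fun t => he _ (hside 1 (by norm_num) t)
  obtain ⟨θ, hθ⟩ := exists_theta
  refine ⟨δ', hB, push δ' 3 θ, ?_⟩
  rw [push_bd, hθ, map_sub, map_add, map_sub, map_sub, push_single, push_single, cb, ct,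
    ← push_comp, ← push_comp, cL, cR]
  abel

end

end Vale.Agent.P246.T.YDc
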