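import Vale.Agent.P246.T.YDa
import Vale.Agent.P246.T.YDb
import Vale.Agent.P246.T.YDc
import Vale.Agent.P246.T.RH1
import Vale.Agent.P246.T.HC

/-! # P246-T, block YD -/

open Topology Metric Set

namespace Vale.Agent.P246.T.YD

theorem main_add (hF : SpecFund) (hA : SAdd) (hS : SSwap) : SpecYD :=
  main_of hA hS (fun e h0 h1 z hz => hur HC.main hF e h0 h1 z hz)
    (fun _ _ _ _ hA => RH.lft0 hA) (fun _ _ _ _ hA => RH.lft1 hA)

theorem main (hF : SpecFund) : SpecYD :=
  main_add hF (fun x _ α w hw δ hδ τ hτ => YDc.add_sphere x α w hw δ hδ τ hτ)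
    (fun τ hτ => YDc.swap τ hτ)

end Vale.Agent.P246.T.YD
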