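import Vale.Agent.P246.T.Fin
import Vale.Agent.P246.T.YD

/-! # P246, topological version: the theorem -/

namespace Vale.Agent.P246.T

/-- The algebraic form of the D(2) property implies the topological one. -/
theorem top : SpecTop := top_of (YD.main fund)

end Vale.Agent.P246.T
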