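import Vale.Agent.P246.T.YH
import Vale.Agent.P246.T.RHa

/-! # P246-T, block YD, part a: the disc of a word, and the assembly -/

open Topology Metric Set

namespace Vale.Agent.P246.T.YD

/-- part c: adding a sphere -/
def SAdd : Prop := ∀ {G E : Type} [Group G] [TopologicalSpace E] [MulAction G E]
  [ContinuousConstSMul G E] {m : ℕ} (x : Fin m → G) {e : E} (α : ∀ i, Path e (x i • e))
  (w : List (Fin m × Bool)), wval x w = 1 → ∀ δ : C(Dk 2, E), BdryWord x α w δ →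
  ∀ τ : C(Dk 2, E),
  (∀ z : Dk 2, ‖(z : Fin 2 → ℝ)‖ = 1 → τ z = e) →
  ∃ δ' : C(Dk 2, E), BdryWord x α w δ' ∧ ∃ t : Ch 3 E,
    push δ' 2 zeta2 = push δ 2 zeta2 + push τ 2 zeta2 + bd 2 t

/-- part c: changing the orientation of a sphere -/
def SSwap : Prop := ∀ {E : Type} [TopologicalSpace E] {e : E} (τ : C(Dk 2, E)),
  (∀ z : Dk 2, ‖(z : Fin 2 → ℝ)‖ = 1 → τ z = e) →
  ∃ τ' : C(Dk 2, E), (∀ z : Dk 2, ‖(z : Fin 2 → ℝ)‖ = 1 → τ' z = e) ∧
    push τ' 2 zeta2 = -push τ 2 zeta2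

/-- part b: the Hurewicz theorem in degree two -/
def SHur : Prop := ∀ {E : Type} [TopologicalSpace E] (e : E), LftS ({e} : Set E) 0 →
  LftS ({e} : Set E) 1 → ∀ z : Ch 2 E, bd 1 z = 0 →
  ∃ L : List (C(Dk 2, E) × ℤ),
    (∀ q ∈ L, ∀ y : Dk 2, ‖(y : Fin 2 → ℝ)‖ = 1 → q.1 y = e) ∧
    ∃ t : Ch 3 E, z = (L.map fun q => q.2 • push q.1 2 zeta2).sum + bd 2 t

section

variable {G E : Type} [Group G] [TopologicalSpace E] [MulAction G E] [ContinuousConstSMul G E]
  {m : ℕ}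

/-- the disc of a null homotopic word -/
theorem exists_disc [SimplyConnectedSpace E] (x : Fin m → G) {e : E}
    (α : ∀ i, Path e (x i • e)) (w : List (Fin m × Bool)) (hw : wval x w = 1) :
    ∃ δ : C(Dk 2, E), BdryWord x α w δ := by
  have he : e = wval x w • e := by rw [hw, one_smul]
  obtain ⟨H⟩ := SimplyConnectedSpace.paths_homotopic ((wpath x α w).cast rfl he) (Path.refl e)
  refine ⟨⟨fun z => H (par (-(z : Fin 2 → ℝ) 0), par ((z : Fin 2 → ℝ) 1)), ?_⟩, ?_⟩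
  · refine H.continuous.comp (Continuous.prodMk (continuous_par.comp ?_) (continuous_par.comp ?_))
    · exact ((continuous_apply 0).comp continuous_subtype_val).neg
    · exact (continuous_apply 1).comp continuous_subtype_val
  · intro z hz
    have hz0 : |(z : Fin 2 → ℝ) 0| ≤ 1 := by
      rw [← Real.norm_eq_abs]; exact (norm_le_pi_norm _ 0).trans hz.le
    have hz1 : |(z : Fin 2 → ℝ) 1| ≤ 1 := by
      rw [← Real.norm_eq_abs]; exact (norm_le_pi_norm _ 1).trans hz.le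
    constructor
    · intro h0
      change H (par (-(z : Fin 2 → ℝ) 0), par ((z : Fin 2 → ℝ) 1)) = _
      rw [h0, YH.par_neg_one, H.apply_zero]
      rfl
    · intro h0
      change H (par (-(z : Fin 2 → ℝ) 0), par ((z : Fin 2 → ℝ) 1)) = e
      by_cases h0' : (z : Fin 2 → ℝ) 0 = -1
      · rw [h0', neg_neg, YH.par_one, H.apply_one]
        rfl
      · have h1 : |(z : Fin 2 → ℝ) 1| = 1 := by
          by_contra hne
          have hlt : ∀ i : Fin 2, ‖(z : Fin 2 → ℝ) i‖ < 1 := by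
            intro i
            rw [Real.norm_eq_abs]
            fin_cases i
            · refine lt_of_le_of_ne hz0 fun h => ?_
              rcases (abs_eq zero_le_one).1 h with h | h
              · exact h0 h
              · exact h0' h
            · exact lt_of_le_of_ne hz1 hne
          have := (pi_norm_lt_iff one_pos).2 hlt
          rw [hz] at this
          exact lt_irrefl _ this
        rcases (abs_eq zero_le_one).1 h1 with h | h
        · rw [h, YH.par_one]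
          exact (H.target _).trans rfl
        · rw [h, YH.par_neg_one]
          exact (H.source _).trans rfl

/-- adding one sphere several times -/
theorem add_nat (hA : SAdd) (x : Fin m → G) {e : E} (α : ∀ i, Path e (x i • e))
    (w : List (Fin m × Bool)) (hw : wval x w = 1) (τ : C(Dk 2, E))
    (hτ : ∀ z : Dk 2, ‖(z : Fin 2 → ℝ)‖ = 1 → τ z = e) (n : ℕ) (δ : C(Dk 2, E))
    (hδ : BdryWord x α w δ) : ∃ δ' : C(Dk 2, E), BdryWord x α w δ' ∧ ∃ t : Ch 3 E,
      push δ' 2 zeta2 = push δ 2 zeta2 + n • push τ 2 zeta2 + bd 2 t := by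
  induction n with
  | zero => exact ⟨δ, hδ, 0, by rw [zero_smul, map_zero, add_zero, add_zero]⟩
  | succ n ih =>
    obtain ⟨δ1, h1, t1, e1⟩ := ih
    obtain ⟨δ2, h2, t2, e2⟩ := hA x α w hw δ1 h1 τ hτ
    refine ⟨δ2, h2, t1 + t2, ?_⟩
    rw [e2, e1, map_add, add_smul, one_smul]
    abel

theorem add_int (hA : SAdd) (hS : SSwap) (x : Fin m → G) {e : E} (α : ∀ i, Path e (x i • e))
    (w : List (Fin m × Bool)) (hw : wval x w = 1) (τ : C(Dk 2, E))
    (hτ : ∀ z : Dk 2, ‖(z : Fin 2 → ℝ)‖ = 1 → τ z = e) (n : ℤ) (δ : C(Dk 2, E))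
    (hδ : BdryWord x α w δ) : ∃ δ' : C(Dk 2, E), BdryWord x α w δ' ∧ ∃ t : Ch 3 E,
      push δ' 2 zeta2 = push δ 2 zeta2 + n • push τ 2 zeta2 + bd 2 t := by
  obtain ⟨k, rfl | rfl⟩ := n.eq_nat_or_neg
  · obtain ⟨δ', h, t, ht⟩ := add_nat hA x α w hw τ hτ k δ hδ
    exact ⟨δ', h, t, by rw [ht, natCast_zsmul]⟩
  · obtain ⟨τ', hτ', h'⟩ := hS τ hτ
    obtain ⟨δ', h, t, ht⟩ := add_nat hA x α w hw τ' hτ' k δ hδ
    exact ⟨δ', h, t, by rw [ht, h', smul_neg, neg_smul, natCast_zsmul]⟩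

theorem add_list (hA : SAdd) (hS : SSwap) (x : Fin m → G) {e : E} (α : ∀ i, Path e (x i • e))
    (w : List (Fin m × Bool)) (hw : wval x w = 1) (L : List (C(Dk 2, E) × ℤ)) :
    (∀ q ∈ L, ∀ y : Dk 2, ‖(y : Fin 2 → ℝ)‖ = 1 → q.1 y = e) → ∀ (δ : C(Dk 2, E)),
    BdryWord x α w δ → ∃ δ' : C(Dk 2, E), BdryWord x α w δ' ∧ ∃ t : Ch 3 E,
      push δ' 2 zeta2 = push δ 2 zeta2 + (L.map fun q => q.2 • push q.1 2 zeta2).sum +
        bd 2 t := by
  induction L with
  | nil =>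
    intro _ δ hδ
    exact ⟨δ, hδ, 0, by rw [List.map_nil, List.sum_nil, map_zero, add_zero, add_zero]⟩
  | cons q L ih =>
    intro hL δ hδ
    obtain ⟨δ1, h1, t1, e1⟩ := add_int hA hS x α w hw q.1 (hL q List.mem_cons_self) q.2 δ hδ
    obtain ⟨δ2, h2, t2, e2⟩ := ih (fun q' hq' => hL q' (List.mem_cons_of_mem _ hq')) δ1 h1
    refine ⟨δ2, h2, t1 + t2, ?_⟩
    rw [e2, e1, List.map_cons, List.sum_cons, map_add]
    abel

end

theorem main_of (hA : SAdd) (hS : SSwap) (hH : SHur) (h10 : RH.SLft0) (h11 : RH.SLft1) :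
    SpecYD := by
  intro W G E _ _ _ _ _ m x e α w hw c hc
  obtain ⟨δ, hδ⟩ := exists_disc x α w hw
  have h0 : LftS ({e} : Set E) 0 := h10 E {e} (singleton_nonempty e)
  have h1 : LftS ({e} : Set E) 1 := h11 E {e} (isPathConnected_singleton e)
  have hz : bd 1 (c - (push δ 2 zeta2 + ksx 2 e + W.cor G E m x e α w)) = 0 := by
    rw [map_sub, map_add, map_add, YH.bd_face x α w hw δ hδ, YH.bd_ksx2, W.bd_cor, hc]
    abel
  obtain ⟨L, hL, t, ht⟩ := hH e h0 h1 _ hz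
  obtain ⟨δ', hδ', t', ht'⟩ := add_list hA hS x α w hw L hL δ hδ
  refine ⟨δ', hδ', t' - t, ?_⟩
  have e1 : (L.map fun q => q.2 • push q.1 2 zeta2).sum =
      c - (push δ 2 zeta2 + ksx 2 e + W.cor G E m x e α w) - bd 2 t := by
    rw [ht]; abel
  rw [ht', e1, map_sub]
  abel

end Vale.Agent.P246.T.YD
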