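import Vale.Agent.P246.T.Step

/-! # Block YH, part 1: the boundaries of the generators -/

set_option linter.all false

namespace Vale.Agent.P246.T.YH

open Topology Metric Set

theorem face_sa (n : ℕ) (i : Fin (n + 1)) (x : Dl n) (j : Fin n) :
    face n i x (i.succAbove j) = x j := by
  change stdSimplex.map (S := ℝ) i.succAbove x (i.succAbove j) = x j
  rw [stdSimplex.map_coe, FunOnFinite.linearMap_apply_apply]
  rw [Finset.sum_eq_single j]
  · intro b hb hbj
    exact absurd (Fin.succAbove_right_injective (Finset.mem_filter.1 hb).2) hbj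
  · intro h
    exact absurd (by simp) h

theorem face_self (n : ℕ) (i : Fin (n + 1)) (x : Dl n) : face n i x i = 0 := by
  change stdSimplex.map (S := ℝ) i.succAbove x i = 0
  rw [stdSimplex.map_coe, FunOnFinite.linearMap_apply_apply]
  apply Finset.sum_eq_zero
  intro y hy
  exact absurd (Finset.mem_filter.1 hy).2 (Fin.succAbove_ne i y)

theorem dl1 (x : Dl 1) : x 0 = 1 := by
  have h : ∑ i, x i = 1 := x.2.2
  rwa [Fin.sum_univ_one] at h

theorem dl2 (x : Dl 2) : x 0 + x 1 = 1 := by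
  have h : ∑ i, x i = 1 := x.2.2
  rwa [Fin.sum_univ_two] at h

section

variable {E : Type} [TopologicalSpace E]

theorem bd_psx {a b : E} (γ : Path a b) : bd 0 (psx γ) = ksx 0 b - ksx 0 a := by
  rw [psx, bd_single, Fin.sum_univ_two]
  have h0 : (γ.toContinuousMap.comp (crd 1)).comp (face (0 + 1) 0) =
      ContinuousMap.const (Dl (0 + 1)) b := by
    ext x
    change γ (crd 1 (face 1 0 x)) = b
    have : crd 1 (face 1 0 x) = 1 := by
      apply Subtype.ext
      change face 1 0 x 1 = 1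
      exact (face_sa 1 0 x 0).trans (dl1 x)
    rw [this, γ.target]
  have h1 : (γ.toContinuousMap.comp (crd 1)).comp (face (0 + 1) 1) =
      ContinuousMap.const (Dl (0 + 1)) a := by
    ext x
    change γ (crd 1 (face 1 1 x)) = a
    have : crd 1 (face 1 1 x) = 0 := by
      apply Subtype.ext
      exact face_self 1 1 x
    rw [this, γ.source]
  rw [h0, h1, ksx, ksx, sub_eq_add_neg]
  simp

theorem asx_face {n k : ℕ} (v : Fin (k + 1) → Fin n → ℝ) (i : Fin (k + 1)) :
    (asx v).comp (face k i) = asx fun j => v (i.succAbove j) := by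
  ext1 x
  change clp n (∑ j, (face k i x) j • v j) = clp n (∑ j, x j • v (i.succAbove j))
  congr 1
  rw [Fin.sum_univ_succAbove _ i, face_self, zero_smul, zero_add]
  refine Finset.sum_congr rfl fun j _ => ?_
  rw [face_sa]

theorem norm_one {z : Dk 2} (i : Fin 2) (h : |(z : Fin 2 → ℝ) i| = 1) : ‖(z : Fin 2 → ℝ)‖ = 1 := by
  refine le_antisymm (mem_closedBall_zero_iff.1 z.2) ?_
  exact h.symm.le.trans (norm_le_pi_norm (z : Fin 2 → ℝ) i)

theorem par_neg : par (-1) = 0 := by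
  rw [par]
  apply Set.projIcc_of_le_left
  norm_num

theorem par_one : par 1 = 1 := by
  rw [par]
  apply Set.projIcc_of_right_le
  norm_num

theorem par_sub (x : Dl 2) : par (x 1 - x 0) = crd 1 x := by
  have h := dl2 x
  rw [par]
  have h2 : (x 1 - x 0 + 1) / 2 = x 1 := by linarith
  rw [h2]
  exact Set.projIcc_of_mem zero_le_one ⟨x.2.1 1, stdSimplex.le_one x 1⟩

/-- the first coordinate of a point of a side -/
theorem asx_apply {n k : ℕ} (v : Fin k → Fin n → ℝ) (x : Dl k) (a : Fin n) :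
    ((asx v x : Dk n) : Fin n → ℝ) a = max (-1) (min 1 (∑ i, x i * v i a)) := by
  change max (-1) (min 1 ((∑ i, x i • v i) a)) = _
  rw [Finset.sum_apply]
  rfl

variable {G : Type} [Group G] [MulAction G E] [ContinuousConstSMul G E] {m : ℕ}

theorem bd_disc (x : Fin m → G) {e : E} (α : ∀ i, Path e (x i • e)) (w : List (Fin m × Bool))
    (δ : C(Dk 2, E)) (hw : wval x w = 1) (h : BdryWord x α w δ) :
    bd 1 (push δ 2 zeta2 + ksx 2 e) = psx (wpath x α w) := by
  have h1 : ∀ z : Dk 2, (z : Fin 2 → ℝ) 1 = 1 → δ z = e := by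
    intro z hz
    have hn := norm_one (z := z) 1 (by rw [hz, abs_one])
    by_cases h0 : (z : Fin 2 → ℝ) 0 = 1
    · rw [(h z hn).1 h0, hz, par_one, Path.target, hw, one_smul]
    · exact (h z hn).2 h0
  have h2 : ∀ z : Dk 2, (z : Fin 2 → ℝ) 1 = -1 → δ z = e := by
    intro z hz
    have hn := norm_one (z := z) 1 (by rw [hz, abs_neg, abs_one])
    by_cases h0 : (z : Fin 2 → ℝ) 0 = 1
    · rw [(h z hn).1 h0, hz, par_neg, Path.source]
    · exact (h z hn).2 h0
  have h3 : ∀ z : Dk 2, (z : Fin 2 → ℝ) 0 = -1 → δ z = e := by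
    intro z hz
    have hn := norm_one (z := z) 0 (by rw [hz, abs_neg, abs_one])
    exact (h z hn).2 (by rw [hz]; norm_num)
  -- the sides
  have s1 : δ.comp (asx ![![1, -1], ![1, 1]]) = (wpath x α w).toContinuousMap.comp (crd 1) := by
    ext t
    have ht := dl2 t
    have ht0 : (0 : ℝ) ≤ t 0 := t.2.1 0
    have ht1 : (0 : ℝ) ≤ t 1 := t.2.1 1
    have e0 : ((asx ![![1, -1], ![1, 1]] t : Dk 2) : Fin 2 → ℝ) 0 = 1 := by
      rw [asx_apply, Fin.sum_univ_two]
      have : t 0 * ![![(1 : ℝ), -1], ![1, 1]] 0 0 + t 1 * ![![(1 : ℝ), -1], ![1, 1]] 1 0 = 1 := by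
        simp [ht]
      rw [this]; norm_num
    have e1 : ((asx ![![1, -1], ![1, 1]] t : Dk 2) : Fin 2 → ℝ) 1 = t 1 - t 0 := by
      rw [asx_apply, Fin.sum_univ_two]
      have : t 0 * ![![(1 : ℝ), -1], ![1, 1]] 0 1 + t 1 * ![![(1 : ℝ), -1], ![1, 1]] 1 1 =
          t 1 - t 0 := by
        simp; ring
      rw [this, min_eq_right (by linarith), max_eq_right (by linarith)]
    have hn := norm_one (z := asx ![![1, -1], ![1, 1]] t) 0 (by rw [e0, abs_one])
    change δ (asx ![![1, -1], ![1, 1]] t) = wpath x α w (crd 1 t)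
    rw [(h _ hn).1 e0, e1, par_sub]
  have s2 : δ.comp (asx ![![-1, -1], ![1, -1]]) = ContinuousMap.const (Dl 2) e := by
    ext t
    have ht := dl2 t
    refine h2 _ ?_
    rw [asx_apply, Fin.sum_univ_two]
    have : t 0 * ![![(-1 : ℝ), -1], ![1, -1]] 0 1 + t 1 * ![![(-1 : ℝ), -1], ![1, -1]] 1 1 =
        -1 := by
      simp; linarith
    rw [this]; norm_num
  have s3 : δ.comp (asx ![![-1, 1], ![1, 1]]) = ContinuousMap.const (Dl 2) e := by
    ext t
    have ht := dl2 t
    refine h1 _ ?_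
    rw [asx_apply, Fin.sum_univ_two]
    have : t 0 * ![![(-1 : ℝ), 1], ![1, 1]] 0 1 + t 1 * ![![(-1 : ℝ), 1], ![1, 1]] 1 1 =
        1 := by
      simp; linarith
    rw [this]; norm_num
  have s4 : δ.comp (asx ![![-1, -1], ![-1, 1]]) = ContinuousMap.const (Dl 2) e := by
    ext t
    have ht := dl2 t
    refine h3 _ ?_
    rw [asx_apply, Fin.sum_univ_two]
    have : t 0 * ![![(-1 : ℝ), -1], ![-1, 1]] 0 0 + t 1 * ![![(-1 : ℝ), -1], ![-1, 1]] 1 0 =
        -1 := by
      simp; linarith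
    rw [this]; norm_num
  have f : ∀ (v : Fin 3 → Fin 2 → ℝ) (i : Fin 3), (δ.comp (asx v)).comp (face (1 + 1) i) =
      δ.comp (asx fun j => v (i.succAbove j)) := by
    intro v i
    rw [ContinuousMap.comp_assoc, asx_face]
  have q1 : (fun j => (![![-1, -1], ![1, -1], ![1, 1]] : Fin 3 → Fin 2 → ℝ)
      ((0 : Fin 3).succAbove j)) = ![![1, -1], ![1, 1]] := by
    funext j; fin_cases j <;> rfl
  have q2 : (fun j => (![![-1, -1], ![1, -1], ![1, 1]] : Fin 3 → Fin 2 → ℝ)
      ((1 : Fin 3).succAbove j)) = ![![-1, -1], ![1, 1]] := by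
    funext j; fin_cases j <;> rfl
  have q3 : (fun j => (![![-1, -1], ![1, -1], ![1, 1]] : Fin 3 → Fin 2 → ℝ)
      ((2 : Fin 3).succAbove j)) = ![![-1, -1], ![1, -1]] := by
    funext j; fin_cases j <;> rfl
  have q4 : (fun j => (![![-1, -1], ![-1, 1], ![1, 1]] : Fin 3 → Fin 2 → ℝ)
      ((0 : Fin 3).succAbove j)) = ![![-1, 1], ![1, 1]] := by
    funext j; fin_cases j <;> rfl
  have q5 : (fun j => (![![-1, -1], ![-1, 1], ![1, 1]] : Fin 3 → Fin 2 → ℝ)
      ((1 : Fin 3).succAbove j)) = ![![-1, -1], ![1, 1]] := by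
    funext j; fin_cases j <;> rfl
  have q6 : (fun j => (![![-1, -1], ![-1, 1], ![1, 1]] : Fin 3 → Fin 2 → ℝ)
      ((2 : Fin 3).succAbove j)) = ![![-1, -1], ![-1, 1]] := by
    funext j; fin_cases j <;> rfl
  have c : ∀ i : Fin 3, (ContinuousMap.const (Dl (2 + 1)) e).comp (face (1 + 1) i) =
      ContinuousMap.const (Dl 2) e := fun i => rfl
  rw [map_add, zeta2, map_sub, map_sub, push_single, push_single, bd_single, bd_single, ksx,
    bd_single, Fin.sum_univ_three, Fin.sum_univ_three, Fin.sum_univ_three]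
  simp only [f, q1, q2, q3, q4, q5, q6, s1, s2, s3, s4, c]
  rw [psx]
  simp only [Fin.val_zero, Fin.val_one, Fin.val_two, pow_zero, pow_one, one_mul, even_two,
    Even.neg_pow, one_pow]
  have n1 : ∀ s : C(Dl 2, E), Finsupp.single s (-1 : ℤ) = -Finsupp.single s 1 := fun s =>
    Finsupp.single_neg s 1
  rw [n1, n1]
  abel

theorem psx_edge (x : Fin m → G) {e : E} (α : ∀ i, Path e (x i • e)) (i : Fin m)
    (f : C(Dk 1, E)) (hf : ∀ z, f z = α i (par ((z : Fin 1 → ℝ) 0))) :
    push f 1 zeta1 = psx (α i) := by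
  rw [zeta1, push_single, psx]
  congr 1
  ext t
  change f (asx ![![-1], ![1]] t) = α i (crd 1 t)
  rw [hf]
  congr 1
  rw [← par_sub]
  congr 1
  have ht := dl2 t
  have ht0 : (0 : ℝ) ≤ t 0 := t.2.1 0
  have ht1 : (0 : ℝ) ≤ t 1 := t.2.1 1
  rw [asx_apply, Fin.sum_univ_two]
  have : t 0 * ![![(-1 : ℝ)], ![1]] 0 0 + t 1 * ![![(-1 : ℝ)], ![1]] 1 0 = t 1 - t 0 := by
    simp; ring
  rw [this, min_eq_right (by linarith), max_eq_right (by linarith)]

end

end Vale.Agent.P246.T.YH
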