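import Vale.Agent.P246.T.Spec2

/-! # P246, topological version, block YP: base point and edge loops of the presentation complex -/

namespace Vale.Agent.P246.T.YP

open Topology Metric Set

variable {G : Type} [Group G] {Pr : FinPresentation G} {X E : Type} [TopologicalSpace X]
    [TopologicalSpace E] [MulAction G E] [ContinuousConstSMul G E] {p : C(E, X)}

theorem exists_par (t : I) : ∃ z : Dk 1, par ((z : Fin 1 → ℝ) 0) = t := by
  have h0 := t.2.1
  have h1 := t.2.2
  refine ⟨⟨fun _ => 2 * (t : ℝ) - 1, ?_⟩, ?_⟩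
  · rw [mem_closedBall_zero_iff, pi_norm_le_iff_of_nonneg zero_le_one]
    intro _
    rw [Real.norm_eq_abs, abs_le]
    constructor <;> linarith
  · apply Subtype.ext
    rw [par, Set.coe_projIcc]
    have : ((2 * (t : ℝ) - 1 + 1) / 2) = t := by ring
    rw [this, min_eq_right h1, max_eq_right h0]

theorem Y1_sub (c : PresCx Pr p) : c.Y1 Pr.gens ⊆ c.Y := subset_union_left

theorem mem_e (c : PresCx Pr p) : p c.e ∈ c.Y := Y1_sub c (Or.inl rfl)

theorem mem_edge (c : PresCx Pr p) (i : Fin Pr.gens) (z : Dk 1) : p (c.edge i z) ∈ c.Y :=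
  Y1_sub c (Or.inr (mem_iUnion₂.2 ⟨i, i.2, z, rfl⟩))

theorem mem_a (c : PresCx Pr p) (i : Fin Pr.gens) (t : I) : p (c.a i t) ∈ c.Y := by
  obtain ⟨z, rfl⟩ := exists_par t
  exact mem_edge c i z

theorem mem_b (c : PresCx Pr p) (j : Fin Pr.rels) (z : Dk 2) : p (c.b j z) ∈ c.Y :=
  Or.inr (mem_iUnion₂.2 ⟨j, j.2, z, rfl⟩)

/-- the base point of the presentation complex -/
def b0 (c : PresCx Pr p) : c.Y := ⟨p c.e, mem_e c⟩

/-- the edge loops -/
def edgeLoop (c : PresCx Pr p) (hp : IsQuotientCoveringMap p G) (i : Fin Pr.gens) :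
    Path (b0 c) (b0 c) where
  toFun t := ⟨p (c.a i t), mem_a c i t⟩
  continuous_toFun := (p.continuous.comp (c.a i).continuous).subtype_mk _
  source' := Subtype.ext (congrArg p (c.a i).source)
  target' := Subtype.ext ((congrArg p (c.a i).target).trans (hp.map_smul _))

/-- BLOCK YP, parts a and b. -/
def SpecYPab : Prop := ∀ (G X E : Type) [Group G] [TopologicalSpace X] [T2Space X]
  [TopologicalSpace E] [MulAction G E] [ContinuousConstSMul G E] (p : C(E, X))
  (hp : IsQuotientCoveringMap p G) (Pr : FinPresentation G) (c : PresCx Pr p), c.Good →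
  PathConnectedSpace c.Y ∧
    Subgroup.closure (Set.range fun i : Fin Pr.gens =>
      (FundamentalGroup.fromPath (Path.Homotopic.Quotient.mk (edgeLoop c hp i)) :
        FundamentalGroup c.Y (b0 c))) = ⊤

end Vale.Agent.P246.T.YP
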